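import Crest.Agent.X212.Dfl49.Tk3_Mg
import Crest.Agent.X212.Cqn41.Nr0

/-! Row 212, TAd (helper58): the leaf D-TA. -/

set_option autoImplicit false
noncomputable section

namespace Crest.Agent.X212.Cyl58.Tad
open G75

variable {κ lam : Type} [Fintype κ] [Fintype lam] [DecidableEq lam] (Lm : LM κ lam)

theorem ker : KerStmt Lm := fun _ _ _ _ _ _ _ _ _ _ _ _ _ _ h p ps =>
  (Dfl49.kerT h p ps).mono fun _ k σ hσ δ q y a s b E x ψ H ch _ => k σ hσ δ q y a s _ b E x ψ H ch.rep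

/-- **LEAF D-TA** -/
theorem dtaN : Dfl49.DtaStmt Lm (Nr41.TAd Lm) := dta (ker Lm)

end Crest.Agent.X212.Cyl58.Tad
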