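import Crest.Agent.X212.Cyl58.Jn
import Crest.Agent.X212.M.Band

-- ▼ part X212/Cyl58/Chn
section

/-!
# X212/Cyl58/Chn: chains of timed pieces

`Wd V` : letters `A 0, …, A n` with junctions `g i` over `(a i, b i)`.  `Chn w X` : `X` is the chain,
with charts `k i` over `w.J i`.  Existence `Wd.X`/`Wd.chn`, maps out of a chain `exists_iso_on`,
`lift`, compactness, connectedness.
-/

set_option autoImplicit false
set_option linter.unusedSectionVars false
noncomputable section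
open Set Filter Topology Function Metric TopologicalSpace
open scoped ContDiff Manifold

namespace Crest.Agent.X212.Cyl58

open Glue52

variable {V V' V'' W : Type} [NormedAddCommGroup V] [NormedSpace ℝ V] [NormedAddCommGroup V']
  [NormedSpace ℝ V'] [NormedAddCommGroup V''] [NormedSpace ℝ V''] [NormedAddCommGroup W]
  [NormedSpace ℝ W]

variable (V) in
/-- a word: letters and junctions -/
structure Wd : Type 1 where
  n : ℕ
  A : ℕ → TP V
  a : ℕ → ℝ
  b : ℕ → ℝ
  g : ∀ i, i < n → TIso (A i) (A (i + 1)) (Ioo (a i) (b i))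
  lt : ∀ i, i < n → a i < b i
  le : ∀ i, i + 1 < n → b i ≤ a (i + 1)
  ne : 0 < n → ∃ p, (A 0).τ p < b 0

namespace Wd

variable (w : Wd V)

/-- the times of the letter `i` -/
def J (i : ℕ) : Set ℝ := {t | (∀ j, j + 1 = i → w.a j < t) ∧ (i < w.n → t < w.b i)}

theorem isOpen_J (i : ℕ) : IsOpen (w.J i) := by
  refine IsOpen.inter (s := {t | ∀ j, j + 1 = i → w.a j < t}) (t := {t | i < w.n → t < w.b i}) ?_ ?_
  · rcases i with _ | i
    · simp
    · simpa using isOpen_lt continuous_const continuous_id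
  · by_cases h : i < w.n
    · simpa [h] using isOpen_lt continuous_id continuous_const
    · simp [h]

theorem ordConnected_J (i : ℕ) : OrdConnected (w.J i) :=
  ⟨fun _ hx _ hy _ hz => ⟨fun j e => (hx.1 j e).trans_le hz.1, fun e => hz.2.trans_lt (hy.2 e)⟩⟩

theorem mem_J_zero {t : ℝ} : t ∈ w.J 0 ↔ (0 < w.n → t < w.b 0) := by simp [J]

theorem mem_J_succ {i : ℕ} {t : ℝ} : t ∈ w.J (i + 1) ↔ w.a i < t ∧ (i + 1 < w.n → t < w.b (i + 1)) := by
  simp [J]

theorem J_zero (h : 0 < w.n) : w.J 0 = Iio (w.b 0) := by ext t; simp [mem_J_zero, h]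

theorem J_last {i : ℕ} (h : i + 1 = w.n) : w.J (i + 1) = Ioi (w.a i) := by
  ext t; rw [mem_J_succ]; simp [h]

theorem J_mid {i : ℕ} (h : i + 1 < w.n) : w.J (i + 1) = Ioo (w.a i) (w.b (i + 1)) := by
  ext t; simp [mem_J_succ, h]

theorem b_le_a {i j : ℕ} (h : i < j) (hj : j < w.n) : w.b i ≤ w.a j := by
  induction j, h using Nat.le_induction with
  | base => exact w.le i hj
  | succ j h ih => exact ((ih (by omega)).trans (w.lt j (by omega)).le).trans (w.le j hj)

theorem b_mono {i j : ℕ} (h : i ≤ j) (hj : j < w.n) : w.b i ≤ w.b j :=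
  h.eq_or_lt.elim (fun e => e ▸ le_rfl) fun e => (w.b_le_a e hj).trans (w.lt j hj).le

theorem a_mono {i j : ℕ} (h : i ≤ j) (hj : j < w.n) : w.a i ≤ w.a j :=
  h.eq_or_lt.elim (fun e => e ▸ le_rfl) fun e => (w.lt i (by omega)).le.trans (w.b_le_a e hj)

theorem sub_l {i : ℕ} (h : i < w.n) : Ioo (w.a i) (w.b i) ⊆ w.J i := fun _ ht =>
  ⟨fun j e => (w.a_mono (by omega) h).trans_lt ht.1, fun _ => ht.2⟩

theorem sub_r {i : ℕ} (_h : i < w.n) : Ioo (w.a i) (w.b i) ⊆ w.J (i + 1) := fun _ ht =>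
  w.mem_J_succ.2 ⟨ht.1, fun e => ht.2.trans_le (w.b_mono (by omega) e)⟩

theorem inter {i : ℕ} (h : i < w.n) {t : ℝ} (h1 : t ∈ w.J i) (h2 : t ∈ w.J (i + 1)) :
    t ∈ Ioo (w.a i) (w.b i) := ⟨h2.1 i rfl, h1.2 h⟩

/-- only neighbours overlap -/
theorem near {i j : ℕ} (hj : j ≤ w.n) {t : ℝ} (h1 : t ∈ w.J i) (h2 : t ∈ w.J j) : j ≤ i + 1 := by
  by_contra h
  obtain ⟨j, rfl⟩ : ∃ k, j = k + 1 := ⟨j - 1, by omega⟩
  exact (h1.2 (by omega)).not_ge ((w.b_le_a (by omega) hj).trans (h2.1 j rfl).le)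

theorem cover (t : ℝ) : ∃ i ≤ w.n, t ∈ w.J i := by
  have h : ∃ i, i < w.n → t < w.b i := ⟨w.n, fun h => (lt_irrefl _ h).elim⟩
  classical
  have h0 : Nat.find h ≤ w.n := Nat.find_min' h fun h => (lt_irrefl _ h).elim
  refine ⟨Nat.find h, h0, fun j e => ?_, Nat.find_spec h⟩
  have := Nat.find_min h (m := j) (by omega)
  push Not at this
  exact (w.lt j this.1).trans_le this.2

/-- the first `m` junctions -/
def take (m : ℕ) (h : m ≤ w.n) : Wd V where
  n := m
  A := w.A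
  a := w.a
  b := w.b
  g i hi := w.g i (hi.trans_le h)
  lt i hi := w.lt i (hi.trans_le h)
  le i hi := w.le i (hi.trans_le h)
  ne hi := w.ne (hi.trans_le h)

end Wd

/-- `X` is the chain of the word `w` -/
structure Chn (w : Wd V) (X : TP V') where
  k : ∀ i, i ≤ w.n → TIso (w.A i) X (w.J i)
  eq : ∀ i (h : i < w.n) p, (w.A i).τ p ∈ Ioo (w.a i) (w.b i) → k (i + 1) h (w.g i h p) = k i h.le p

namespace Wd

variable (w : Wd V)

theorem exists_chn_take (m : ℕ) (h : m ≤ w.n) : ∃ X : TP V, Nonempty (Chn (w.take m h) X) := by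
  induction m with
  | zero =>
    refine ⟨w.A 0, ⟨fun i hi => ?_, fun i hi => (Nat.not_lt_zero _ hi).elim⟩⟩
    obtain rfl : i = 0 := Nat.le_zero.1 hi
    exact TIso.refl _ ((w.take 0 h).isOpen_J 0)
  | succ m ih =>
    obtain ⟨X, ⟨c⟩⟩ := ih (Nat.le_of_succ_le h)
    have h1 : Ioo (w.a m) (w.b m) ⊆ (w.take m (Nat.le_of_succ_le h)).J m := fun t ht =>
      ⟨fun j e => (w.a_mono (by omega) h).trans_lt ht.1, fun e => (lt_irrefl _ e).elim⟩
    obtain ⟨p, hp⟩ := w.ne (Nat.succ_pos m |>.trans_le h)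
    have hp' : (w.A 0).τ p ∈ (w.take m (Nat.le_of_succ_le h)).J 0 := (Wd.mem_J_zero _).2 fun _ => hp
    obtain ⟨X', ⟨j⟩⟩ := exists_jn (w.lt m h) (((c.k m le_rfl).restr isOpen_Ioo h1).symm.trans (w.g m h))
      ⟨c.k 0 (Nat.zero_le _) p, ((c.k 0 _).tm p hp').trans_lt (hp.trans_le (w.b_mono (Nat.zero_le m) h))⟩
    have h2 : ∀ i ≤ m, (w.take (m + 1) h).J i ⊆ (w.take m (Nat.le_of_succ_le h)).J i :=
      fun i _ t ht => ⟨ht.1, fun e => ht.2 (Nat.lt_succ_of_lt e)⟩
    have h3 : ∀ i ≤ m, (w.take (m + 1) h).J i ⊆ Iio (w.b m) := fun i hi t ht =>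
      (ht.2 (Nat.lt_succ_of_le hi)).trans_le (w.b_mono hi h)
    let k : ∀ i ≤ m, TIso (w.A i) X' ((w.take (m + 1) h).J i) := fun i hi =>
      ((c.k i hi).restr (Wd.isOpen_J _ i) (h2 i hi)).trans (j.l.restr (Wd.isOpen_J _ i) (h3 i hi))
    let r : TIso (w.A (m + 1)) X' ((w.take (m + 1) h).J (m + 1)) :=
      j.r.cast ((w.take (m + 1) h).J_last rfl).symm
    obtain ⟨K, K1, K2⟩ : ∃ K : ∀ i ≤ m + 1, TIso (w.A i) X' ((w.take (m + 1) h).J i),
        (∀ i hi e, K i hi = k i e) ∧ ∀ hi, K (m + 1) hi = r :=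
      ⟨fun i hi => if e : i ≤ m then k i e else (show m + 1 = i from le_antisymm (not_le.1 e) hi) ▸ r,
        fun i _ e => dif_pos e, fun _ => dif_neg (Nat.not_succ_le_self m)⟩
    refine ⟨X', ⟨K, fun i (hi : i < m + 1) (p : (w.A i).P.M) hp => ?_⟩⟩
    have hi' : i ≤ m := Nat.le_of_lt_succ hi
    change K (i + 1) hi (w.g i (hi.trans_le h) p) = K i hi.le p
    rw [K1 i _ hi']
    rcases hi'.eq_or_lt with rfl | e
    · rw [K2]
      refine Eq.trans ?_ (j.eq (c.k i le_rfl p) (by rw [(c.k i le_rfl).tm p (h1 hp)]; exact hp))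
      exact congrArg (fun q => j.r (w.g i h q))
        (((c.k i le_rfl).restr isOpen_Ioo h1).symm_apply hp).symm
    · rw [K1 _ _ (Nat.succ_le_of_lt e)]
      exact congrArg j.l (c.eq i e p hp)

/-- EXISTENCE of the chain -/
theorem exists_chn : ∃ X : TP V, Nonempty (Chn w X) := w.exists_chn_take w.n le_rfl

/-- the chain of a word -/
def X : TP V := w.exists_chn.choose

/-- its charts -/
def chn : Chn w w.X := w.exists_chn.choose_spec.some

end Wd

namespace Chn

variable {w : Wd V} {X : TP V'} {X' : TP V''} (c : Chn w X)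
include c

theorem surj (x : X.P.M) : ∃ i h p, (w.A i).τ p ∈ w.J i ∧ c.k i h p = x := by
  obtain ⟨i, h, hx⟩ := w.cover (X.τ x)
  obtain ⟨p, h1, h2⟩ := (c.k i h).surj hx
  exact ⟨i, h, p, h1 ▸ hx, h2⟩

theorem k_eq_succ {i : ℕ} (h : i < w.n) {p : (w.A i).P.M} {q : (w.A (i + 1)).P.M}
    (hp : (w.A i).τ p ∈ w.J i) (hq : (w.A (i + 1)).τ q ∈ w.J (i + 1)) :
    c.k i h.le p = c.k (i + 1) h q ↔ (w.A i).τ p ∈ Ioo (w.a i) (w.b i) ∧ w.g i h p = q := by
  refine ⟨fun e => ?_, fun e => by rw [← e.2, c.eq i h p e.1]⟩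
  have h1 := w.inter h hp (by rwa [← (c.k i h.le).tm p hp, e, (c.k _ h).tm q hq])
  exact ⟨h1, (c.k _ h).inj (w.sub_r h ((w.g i h).mem h1)) hq ((c.eq i h p h1).trans e)⟩

/-- a relation between points of letters that holds along the junctions holds for equal points -/
theorem ind {P : ∀ i, i ≤ w.n → (w.A i).P.M → Prop} {Z : Type*}
    {F : ∀ i (h : i ≤ w.n) p, P i h p → Z}
    (hF : ∀ i (h : i < w.n) p hp hq, (w.A i).τ p ∈ Ioo (w.a i) (w.b i) →
      F (i + 1) h (w.g i h p) hq = F i h.le p hp)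
    {i j : ℕ} {hi : i ≤ w.n} {hj : j ≤ w.n} {p : (w.A i).P.M} {q : (w.A j).P.M}
    (hp : (w.A i).τ p ∈ w.J i) (hq : (w.A j).τ q ∈ w.J j) (e : c.k i hi p = c.k j hj q)
    (h1 : P i hi p) (h2 : P j hj q) : F i hi p h1 = F j hj q h2 := by
  have ht : (w.A i).τ p = (w.A j).τ q := by rw [← (c.k i hi).tm p hp, e, (c.k j hj).tm q hq]
  have k1 := w.near hj hp (ht ▸ hq)
  have k2 := w.near hi hq (ht ▸ hp)
  obtain rfl | rfl | rfl : j = i ∨ j = i + 1 ∨ i = j + 1 := by omega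
  · obtain rfl := (c.k _ hi).inj hp hq e
    rfl
  · obtain ⟨h3, rfl⟩ := (c.k_eq_succ hj hp hq).1 e
    exact (hF i hj p h1 h2 h3).symm
  · obtain ⟨h3, rfl⟩ := (c.k_eq_succ hi hq hp).1 e.symm
    exact hF j hi q h2 h1 h3

/-- MAPS OUT OF A CHAIN over the times `L`, using the letters in `I` -/
theorem exists_iso_on {L : Set ℝ} (hL : IsOpen L) {I : ℕ → Prop}
    (hI : ∀ t ∈ L, ∃ i ≤ w.n, I i ∧ t ∈ w.J i)
    (l : ∀ i, i ≤ w.n → I i → TIso (w.A i) X' (w.J i ∩ L))
    (h : ∀ i (h : i < w.n) h1 h2 p, (w.A i).τ p ∈ Ioo (w.a i) (w.b i) → (w.A i).τ p ∈ L →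
      l (i + 1) h h2 (w.g i h p) = l i h.le h1 p) :
    ∃ K : TIso X X' L, ∀ i hi h1 p, (w.A i).τ p ∈ w.J i → (w.A i).τ p ∈ L →
      K (c.k i hi p) = l i hi h1 p := by
  obtain ⟨K, hK⟩ := TIso.exists_of_charts (ι := {i // i ≤ w.n ∧ I i}) (M := fun i => w.A i)
    (J := fun i => w.J i ∩ L) (L := L) (fun i => (w.isOpen_J i).inter hL)
    (Subset.antisymm (iUnion_subset fun _ => inter_subset_right) fun t ht => by
      obtain ⟨i, h1, h2, h3⟩ := hI t ht
      exact mem_iUnion.2 ⟨⟨i, h1, h2⟩, h3, ht⟩)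
    (fun i => (c.k i i.2.1).restr ((w.isOpen_J i).inter hL) inter_subset_left)
    (fun i => l i i.2.1 i.2.2) fun i j p q hp hq e =>
      c.ind (P := fun i _ p => I i ∧ (w.A i).τ p ∈ L) (F := fun i hi p hp => l i hi hp.1 p)
        (fun i hi p h1 h2 h3 => h i hi h1.1 h2.1 p h3 h1.2) hp.1 hq.1 e ⟨i.2.2, hp.2⟩ ⟨j.2.2, hq.2⟩
  exact ⟨K, fun i hi h1 p h2 h3 => hK ⟨i, hi, h1⟩ p ⟨h2, h3⟩⟩

theorem exists_iso' (l : ∀ i, i ≤ w.n → TIso (w.A i) X' (w.J i))
    (h : ∀ i (h : i < w.n) p, (w.A i).τ p ∈ Ioo (w.a i) (w.b i) → l (i + 1) h (w.g i h p) = l i h.le p) :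
    ∃ K : TIso X X' univ, ∀ i hi p, (w.A i).τ p ∈ w.J i → K (c.k i hi p) = l i hi p := by
  obtain ⟨K, hK⟩ := c.exists_iso_on (X' := X') isOpen_univ (I := fun _ => True)
    (fun t _ => (w.cover t).imp fun _ h => ⟨h.1, trivial, h.2⟩)
    (fun i hi _ => (l i hi).cast (inter_univ _).symm) fun i hi _ _ p hp _ => h i hi p hp
  exact ⟨K, fun i hi p hp => hK i hi trivial p hp trivial⟩

/-- UNIQUENESS of the chain -/
theorem exists_iso (c' : Chn w X') :
    ∃ K : TIso X X' univ, ∀ i hi p, (w.A i).τ p ∈ w.J i → K (c.k i hi p) = c'.k i hi p :=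
  c.exists_iso' c'.k c'.eq

/-- transport along an isomorphism -/
def map (K : TIso X X' univ) : Chn w X' where
  k i h := (c.k i h).trans (K.restr (w.isOpen_J i) (subset_univ _))
  eq i h p hp := congrArg K (c.eq i h p hp)

/-- the function on the chain given by functions on the letters -/
def lift {Z : Type*} (F : ∀ i, i ≤ w.n → (w.A i).P.M → Z) (x : X.P.M) : Z :=
  F _ (c.surj x).choose_spec.choose (c.surj x).choose_spec.choose_spec.choose

theorem lift_k {Z : Type*} {F : ∀ i, i ≤ w.n → (w.A i).P.M → Z}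
    (hF : ∀ i (h : i < w.n) p, (w.A i).τ p ∈ Ioo (w.a i) (w.b i) → F (i + 1) h (w.g i h p) = F i h.le p)
    {i : ℕ} (hi : i ≤ w.n) {p : (w.A i).P.M} (hp : (w.A i).τ p ∈ w.J i) :
    c.lift F (c.k i hi p) = F i hi p :=
  have h := (c.surj (c.k i hi p)).choose_spec.choose_spec.choose_spec
  c.ind (P := fun _ _ _ => True) (F := fun i hi p _ => F i hi p) (fun i h p _ _ => hF i h p)
    h.1 hp h.2 trivial trivial

variable {EZ HZ : Type*} [NormedAddCommGroup EZ] [NormedSpace ℝ EZ] [TopologicalSpace HZ]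
  {IZ : ModelWithCorners ℝ EZ HZ} {Z : Type*} [TopologicalSpace Z] [ChartedSpace HZ Z]

theorem contMDiff_of {F : X.P.M → Z}
    (h : ∀ i hi p, (w.A i).τ p ∈ w.J i → ContMDiffAt (w.A i).P.I IZ ∞ (F ∘ c.k i hi) p) :
    ContMDiff X.P.I IZ ∞ F := by
  intro x
  obtain ⟨i, hi, p, hp, rfl⟩ := c.surj x
  exact ((c.k i hi).contMDiffAt_iff hp).1 (h i hi p hp)

theorem lift_comp {Z : Type*} {F : ∀ i, i ≤ w.n → (w.A i).P.M → Z}
    (hF : ∀ i (h : i < w.n) p, (w.A i).τ p ∈ Ioo (w.a i) (w.b i) → F (i + 1) h (w.g i h p) = F i h.le p)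
    {i : ℕ} (hi : i ≤ w.n) {p : (w.A i).P.M} (hp : (w.A i).τ p ∈ w.J i) :
    c.lift F ∘ c.k i hi =ᶠ[𝓝 p] F i hi := by
  filter_upwards [((w.isOpen_J i).preimage (w.A i).cont).mem_nhds hp] with z hz
  exact c.lift_k hF hi hz

theorem contMDiff_lift {F : ∀ i, i ≤ w.n → (w.A i).P.M → Z}
    (hF : ∀ i (h : i < w.n) p, (w.A i).τ p ∈ Ioo (w.a i) (w.b i) → F (i + 1) h (w.g i h p) = F i h.le p)
    (h : ∀ i hi p, (w.A i).τ p ∈ w.J i → ContMDiffAt (w.A i).P.I IZ ∞ (F i hi) p) :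
    ContMDiff X.P.I IZ ∞ (c.lift F) :=
  c.contMDiff_of fun i hi p hp => (h i hi p hp).congr_of_eventuallyEq (c.lift_comp hF hi hp)

theorem lower {s : ℝ} (hA : ∀ p, s ≤ (w.A 0).τ p) (x : X.P.M) : min s (w.a 0) ≤ X.τ x := by
  obtain ⟨i, hi, p, hp, rfl⟩ := c.surj x
  rw [(c.k i hi).tm p hp]
  rcases i with _ | i
  · exact min_le_of_left_le (hA p)
  · exact min_le_of_right_le ((w.a_mono (Nat.zero_le i) hi).trans (hp.1 i rfl).le)

theorem upper {t : ℝ} (hA : ∀ p, (w.A w.n).τ p ≤ t) (x : X.P.M) : X.τ x ≤ max t (w.b (w.n - 1)) := by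
  obtain ⟨i, hi, p, hp, rfl⟩ := c.surj x
  rw [(c.k i hi).tm p hp]
  rcases hi.eq_or_lt with rfl | e
  · exact le_max_of_le_left (hA p)
  · exact le_max_of_le_right ((hp.2 e).le.trans (w.b_mono (by omega) (by omega)))

/-- time bounded on both ends: the chain is closed -/
theorem compactSpace {s t : ℝ} (h0 : ∀ p, s ≤ (w.A 0).τ p) (h1 : ∀ p, (w.A w.n).τ p ≤ t) :
    CompactSpace X.P.M :=
  X.compactSpace fun x => ⟨c.lower h0 x, c.upper h1 x⟩

theorem image_J {i : ℕ} (hi : i ≤ w.n) : c.k i hi '' ((w.A i).τ ⁻¹' w.J i) = X.τ ⁻¹' w.J i :=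
  (c.k i hi).image_preimage subset_rfl

/-- connected letters with non-empty junctions give a connected chain -/
theorem preconnectedSpace (h : ∀ i ≤ w.n, IsPreconnected ((w.A i).τ ⁻¹' w.J i))
    (hn : ∀ i < w.n, ∃ p, (w.A i).τ p ∈ Ioo (w.a i) (w.b i)) : PreconnectedSpace X.P.M := by
  have h1 : ∀ i ≤ w.n, IsPreconnected (X.τ ⁻¹' w.J i) := fun i hi => by
    rw [← c.image_J hi]
    exact (h i hi).image _ ((c.k i hi).src ▸ (c.k i hi).φ.contMDiffOn.continuousOn)
  have h2 : ∀ m ≤ w.n, IsPreconnected (⋃ i ≤ m, X.τ ⁻¹' w.J i) := fun m hm => by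
    induction m with
    | zero => simpa using h1 0 hm
    | succ m ih =>
      obtain ⟨p, hp⟩ := hn m hm
      have h3 : X.τ (c.k m (Nat.le_of_succ_le hm) p) ∈ Ioo (w.a m) (w.b m) := by
        rwa [(c.k m _).tm p (w.sub_l hm hp)]
      rw [biUnion_le_succ]
      exact (ih (Nat.le_of_succ_le hm)).union _ (mem_biUnion (le_refl m) (w.sub_l hm h3))
        (w.sub_r hm h3) (h1 _ hm)
  refine ⟨?_⟩
  rw [← eq_univ_of_forall (s := ⋃ i ≤ w.n, X.τ ⁻¹' w.J i) fun x =>
    (w.cover (X.τ x)).elim fun i hi => mem_biUnion hi.1 hi.2]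
  exact h2 _ le_rfl

end Chn

section Junc

variable {W' : Type} [NormedAddCommGroup W'] [NormedSpace ℝ W'] {Y : Pc W} {Y' : Pc W'}
  [CompactSpace Y.M] [T2Space Y.M] [SecondCountableTopology Y.M] [Nonempty Y.M]
  [CompactSpace Y'.M] [T2Space Y'.M] [SecondCountableTopology Y'.M] [Nonempty Y'.M] {J : Set ℝ}
  {M : TP V} {M' : TP V'}

/-- points over a product region -/
theorem TIso.exists_cyl (k : TIso (cylT Y) M J) {x : M.P.M} (hx : M.τ x ∈ J) :
    ∃ y, k (y, M.τ x) = x := by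
  obtain ⟨⟨y, t⟩, h1, h2⟩ := k.surj hx
  obtain rfl : t = M.τ x := h1
  exact ⟨y, h2⟩

/-- two isomorphisms that agree on a product region -/
theorem TIso.eq_of_cyl (k : TIso (cylT Y) M J) {Z : Type*} {F G : M.P.M → Z} {s : Set ℝ} (hs : s ⊆ J)
    (h : ∀ y, ∀ t ∈ s, F (k (y, t)) = G (k (y, t))) {x : M.P.M} (hx : M.τ x ∈ s) : F x = G x := by
  obtain ⟨y, e⟩ := k.exists_cyl (hs hx)
  rw [← e]
  exact h y _ hx

/-- `f` followed by `f⁻¹` cancels -/
theorem junc_junc (k : TIso (cylT Y) M J) (k' : TIso (cylT Y') M' J)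
    (f : Y.M ≃ₘ^∞⟮Y.I, Y'.I⟯ Y'.M) (hJ : IsOpen J) {x : M.P.M} (hx : M.τ x ∈ J) :
    junc k' k f.symm hJ (junc k k' f hJ x) = x :=
  k.eq_of_cyl (F := fun x => junc k' k f.symm hJ (junc k k' f hJ x)) (G := id) subset_rfl
    (fun y t ht => by
      rw [junc_apply k k' f hJ y ht, junc_apply k' k f.symm hJ _ ht, f.symm_apply_apply]; rfl) hx

end Junc

end Crest.Agent.X212.Cyl58
end
end

-- ▼ part X212/Cyl58/Bnd

/-!
# X212/Cyl58/Bnd: bands of layer M from timed pieces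

`pcMf`, `TP.mf` : bundling.  `ofSd` : a band from its two sides; `ofTime` : vertical necks;
`bpush` : a band with one compact side is transported along a partial diffeomorphism;
`toSep` : the separating neck of a band.
-/

set_option autoImplicit false
set_option linter.unusedSectionVars false
noncomputable section
open Set Filter Topology Function Metric TopologicalSpace
open scoped ContDiff Manifold

namespace Crest.Agent.X212.Cyl58

open Glue52 M Cyf70

theorem pc_fin {n : ℕ} (P : Pc (EuclideanSpace ℝ (Fin n))) : FiniteDimensional ℝ P.E :=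
  P.L.symm.toLinearEquiv.finiteDimensional

theorem pc_dim {n : ℕ} (P : Pc (EuclideanSpace ℝ (Fin n))) : Module.finrank ℝ P.E = n :=
  P.L.toLinearEquiv.finrank_eq.trans finrank_euclideanSpace_fin

/-- a piece as a bundled manifold of layer M -/
abbrev pcMf {n : ℕ} (P : Pc (EuclideanSpace ℝ (Fin n))) [T2Space P.M]
    [SecondCountableTopology P.M] : Mf n :=
  haveI := pc_fin P
  Mf.ofB n P.I P.M (pc_dim P)

/-- a timed piece as a bundled manifold of layer M -/
abbrev TP.mf (X : TP V4) : Mf 4 := pcMf X.P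

/-- a bundled manifold with a proper time function -/
abbrev mfTP (X : Mf 4) [Nonempty X.M] (τ : X.M → ℝ) (h : Continuous τ)
    (hp : ∀ a b, IsCompact (τ ⁻¹' Icc a b)) : TP V4 :=
  { P := X.pc, τ := τ, cont := h, prop := hp }

section Sd

variable {X : Mf 4} (Y : Mf 3) [CompactSpace Y.M] [ConnectedSpace Y.M] {j : Y.M × ℝ → X.M}

/-- the two sides of a neck -/
structure Sides (j : Y.M × ℝ → X.M) (S : Bool → Set X.M) : Prop where
  oe : IsOE (IC Y.I) X.I j
  op : ∀ b, IsOpen (S b)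
  dj : Disjoint (S true) (S false)
  cov : ∀ x ∉ range j, ∃ b, x ∈ S b
  mem : ∀ b p, 0 < pm b * p.2 → j p ∈ S b

variable {Y} {S : Bool → Set X.M}

open Classical in
/-- the height function of the two sides -/
def sdHt (j : Y.M × ℝ → X.M) (S : Bool → Set X.M) : X.M → ℝ :=
  extend j (fun p => max (-1) (min 1 p.2)) fun x => if x ∈ S true then 1 else -1

namespace Sides

variable (h : Sides Y j S)
include h

theorem ht_j (p : Y.M × ℝ) : sdHt j S (j p) = max (-1) (min 1 p.2) := h.oe.extend_apply _ _ p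

theorem not_mem {b : Bool} {x : X.M} (hx : x ∈ S b) : x ∉ S (!b) := by
  cases b
  · exact fun h' => disjoint_left.1 h.dj h' hx
  · exact fun h' => disjoint_left.1 h.dj hx h'

theorem ht_off {b : Bool} {x : X.M} (hx : x ∉ range j) (hb : x ∈ S b) : sdHt j S x = pm b := by
  rw [sdHt, extend_apply' _ _ _ hx]
  cases b
  · exact if_neg (h.not_mem hb)
  · exact if_pos hb

theorem continuous : Continuous (sdHt j S) := by
  classical
  rw [continuous_iff_continuousAt]
  intro x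
  by_cases hx : x ∈ range j
  · obtain ⟨a, rfl⟩ := hx
    refine h.oe.isOpenEmbedding.continuousAt_iff.1 ?_
    rw [sdHt, h.oe.extend_comp]
    fun_prop
  · have h1 := extend_eventuallyEq h.oe.inj (g := fun p => max (-1) (min 1 p.2))
      (h := fun x => if x ∈ S true then (1 : ℝ) else -1) (h.oe.isCompact_slab (-1) 1).isClosed
      (fun p hp => by
        by_cases h0 : 0 < p.2
        · have h2 : 1 < p.2 := by_contra fun e => hp ⟨trivial, by linarith, not_lt.1 e⟩
          rw [if_pos (h.mem true p (by simpa [pm] using h0)), min_eq_left h2.le, max_eq_right (by norm_num)]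
        · have h2 : p.2 < -1 := by_contra fun e => hp ⟨trivial, not_lt.1 e, by linarith⟩
          rw [if_neg (show j p ∉ S true from h.not_mem (h.mem false p (by simp only [pm]; norm_num; linarith))),
            min_eq_right (by linarith), max_eq_left h2.le])
      (x := x) fun e => hx (image_subset_range _ _ e)
    refine ContinuousAt.congr ?_ h1.symm
    obtain ⟨b, hb⟩ := h.cov x hx
    refine (continuousAt_const (y := pm b)).congr ?_
    filter_upwards [(h.op b).mem_nhds hb] with y hy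
    cases b
    · exact (if_neg (h.not_mem hy)).symm
    · exact (if_pos hy).symm

theorem j_mem {b : Bool} {p : Y.M × ℝ} : j p ∈ S b ↔ 0 < pm b * p.2 := by
  refine ⟨fun hp => by_contra fun e => ?_, h.mem b p⟩
  have h1 : Continuous fun t : ℝ => j (p.1, p.2 - pm b * t) := h.oe.continuous.comp (by fun_prop)
  have h2 : ∀ᶠ t in 𝓝 (0 : ℝ), j (p.1, p.2 - pm b * t) ∈ S b :=
    h1.continuousAt.preimage_mem_nhds ((h.op b).mem_nhds (by simpa using hp))
  obtain ⟨t, h3, h4⟩ := ((h2.filter_mono nhdsWithin_le_nhds).and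
    (self_mem_nhdsWithin (s := Ioi (0 : ℝ)))).exists
  refine h.not_mem h3 (h.mem _ _ ?_)
  have h5 : 0 < t := h4
  rw [pm_not, neg_mul, mul_sub, ← mul_assoc, pm_mul_pm]
  linarith

end Sides

/-- the band with prescribed sides -/
def ofSd (h : Sides Y j S) : Band X where
  Y := Y
  j := j
  oe := h.oe
  ht := sdHt j S
  cont := h.continuous
  pos p := by rw [h.ht_j, lt_max_iff, lt_min_iff]; norm_num
  neg p := by rw [h.ht_j, max_lt_iff, min_lt_iff]; norm_num
  off x hx := by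
    obtain ⟨b, hb⟩ := h.cov x hx
    rw [h.ht_off hx hb]
    exact sg_ne b

@[simp] theorem ofSd_j (h : Sides Y j S) : (ofSd h).j = j := rfl

theorem ofSd_sd (h : Sides Y j S) (b : Bool) : (ofSd h).wall.sd b = S b := by
  ext x
  by_cases hx : x ∈ range j
  · obtain ⟨p, rfl⟩ := hx
    exact ((ofSd h).j_mem_sd (p := p)).trans h.j_mem.symm
  · obtain ⟨b', hb⟩ := h.cov x hx
    change 0 < pm b * sdHt j S x ↔ _
    rw [h.ht_off hx hb]
    by_cases e : b = b'
    · subst e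
      simp [pm_mul_pm, hb]
    · obtain rfl : b = !b' := by cases b <;> cases b' <;> simp_all
      simp [pm_not, pm_mul_pm, h.not_mem hb]

/-- the sides given by the closed side `K` opposite to the side `b` -/
theorem sides_of_closed {K : Set X.M} (b : Bool) (oe : IsOE (IC Y.I) X.I j) (hK : IsClosed K)
    (ho : IsOpen (K \ j '' (univ ×ˢ {0}))) (hj : ∀ p, j p ∈ K ↔ pm b * p.2 ≤ 0) :
    Sides Y j fun b' => if b' = b then Kᶜ else K \ j '' (univ ×ˢ {0}) where
  oe := oe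
  op b' := by split_ifs; exacts [hK.isOpen_compl, ho]
  dj := by cases b <;> simp [disjoint_left] <;> tauto
  cov x hx := by
    by_cases h : x ∈ K
    · exact ⟨!b, by rw [if_neg (Bool.not_ne_self b)]; exact ⟨h, fun e => hx (image_subset_range _ _ e)⟩⟩
    · exact ⟨b, by simpa using h⟩
  mem b' p hp := by
    split_ifs with e
    · subst e
      exact fun k => ((hj p).1 k).not_gt hp
    · obtain rfl : b' = !b := by cases b <;> cases b' <;> simp_all
      rw [pm_not] at hp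
      refine ⟨(hj p).2 (by linarith), fun k => ?_⟩
      have : p.2 = 0 := (oe.inj.mem_set_image.1 k).2
      simp [this] at hp

end Sd

/-- the sides of a band -/
theorem sides_band {X : Mf 4} (N : Band X) : Sides N.Y N.j N.wall.sd :=
  ⟨N.oe, N.wall.op_sd, N.wall.dj, N.wall.cov, fun _ _ => N.j_mem_sd.2⟩

/-- the separating neck of a band -/
def toSep {X : Mf 4} (N : Band X) : Sep X.pc N.Y.pc where
  n := N.j
  oe := N.oe
  L := N.wall.sd false
  R := N.wall.sd true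
  oL := N.wall.op_sd _
  oR := N.wall.op_sd _
  dj := N.wall.dj.symm
  cov x hx := by
    obtain ⟨b, hb⟩ := N.wall.cov x hx
    cases b
    exacts [.inl hb, .inr hb]
  nL p hp := N.j_mem_sd.2 (by simpa [pm] using hp)
  nR p hp := N.j_mem_sd.2 (by simpa [pm] using hp)

theorem compl_sd {X : Mf 4} (N : Band X) (b : Bool) :
    (N.wall.sd b)ᶜ = N.wall.sd (!b) ∪ N.wall.core := by
  ext x
  refine ⟨fun h => ?_, ?_⟩
  · rcases N.wall.mem_cases b x with k | k | k
    exacts [(h k).elim, .inr k, .inl k]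
  · rintro (h | h) k
    exacts [N.wall.not_mem_sd k h, h b k]

/-! ### transport -/

section Push

variable {A X : Mf 4} (N : Band A) (k : PartialDiffeomorph A.I X.I A.M X.M ∞) (b : Bool)

/-- the closed side opposite to `b` is compact, and lies with the band in the domain of `k` -/
structure Pushable : Prop where
  cpt : IsCompact (N.wall.sd b)ᶜ
  sub : (N.wall.sd b)ᶜ ⊆ k.source
  src : ∀ p, N.j p ∈ k.source

variable {N k b}

theorem Pushable.sides (h : Pushable N k b) : Sides N.Y (k ∘ N.j) fun b' =>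
    if b' = b then (k '' (N.wall.sd b)ᶜ)ᶜ else k '' N.wall.sd (!b) := by
  have h1 : N.wall.sd (!b) ⊆ (N.wall.sd b)ᶜ := fun x hx e => N.wall.not_mem_sd e hx
  refine ⟨IsOE.of_pd k N.oe h.src, fun b' => ?_, ?_, fun x hx => ?_, fun b' p hp => ?_⟩
  · split_ifs
    · exact (h.cpt.image_of_continuousOn (k.contMDiffOn.continuousOn.mono h.sub)).isClosed.isOpen_compl
    · exact k.toOpenPartialHomeomorph.isOpen_image_of_subset_source (N.wall.op_sd _) (h1.trans h.sub)
  · have := disjoint_compl_left.mono_right (image_mono (f := k) h1)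
    cases b
    exacts [this.symm, this]
  · by_cases e : x ∈ k '' (N.wall.sd b)ᶜ
    · obtain ⟨z, hz, rfl⟩ := e
      rcases (compl_sd N b).subset hz with e | e
      · exact ⟨!b, by simpa using mem_image_of_mem k e⟩
      · obtain ⟨y, rfl⟩ := N.mem_core.1 e
        exact (hx ⟨_, rfl⟩).elim
    · exact ⟨b, by simpa using e⟩
  · split_ifs with e
    · subst e
      rintro ⟨z, hz, e⟩
      exact hz (k.injOn (h.sub hz) (h.src p) e ▸ N.j_mem_sd.2 hp)
    · obtain rfl : b' = !b := by cases b <;> cases b' <;> simp_all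
      exact mem_image_of_mem k (N.j_mem_sd.2 hp)

/-- the transported band -/
def bpush (h : Pushable N k b) : Band X := ofSd h.sides

@[simp] theorem bpush_j (h : Pushable N k b) (p : N.Y.M × ℝ) : (bpush h).j p = k (N.j p) := rfl

theorem bpush_out (h : Pushable N k b) : (bpush h).wall.sd b = (k '' (N.wall.sd b)ᶜ)ᶜ :=
  (ofSd_sd h.sides b).trans (if_pos rfl)

theorem bpush_in (h : Pushable N k b) : (bpush h).wall.sd (!b) = k '' N.wall.sd (!b) :=
  (ofSd_sd h.sides _).trans (if_neg (Bool.not_ne_self b))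

theorem bpush_band (h : Pushable N k b) : (bpush h).wall.band = k '' N.wall.band := range_comp k N.j

theorem bpush_slab (h : Pushable N k b) (s : Set ℝ) : (bpush h).slab s = k '' N.slab s :=
  image_comp k N.j _

theorem bpush_mem_sd (h : Pushable N k b) {x : A.M} (hx : x ∈ k.source) {b' : Bool} :
    k x ∈ (bpush h).wall.sd b' ↔ x ∈ N.wall.sd b' := by
  by_cases e : b' = b
  · subst e
    rw [bpush_out, mem_compl_iff, k.injOn.mem_image_iff h.sub hx, notMem_compl_iff]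
  · obtain rfl : b' = !b := by cases b <;> cases b' <;> simp_all
    rw [bpush_in, k.injOn.mem_image_iff (fun x hx => h.sub fun e => N.wall.not_mem_sd e hx) hx]

theorem bpush_of_not_mem (h : Pushable N k b) {x : X.M} (hx : x ∉ k.target) :
    x ∈ (bpush h).wall.sd b := by
  rw [bpush_out]
  rintro ⟨z, hz, rfl⟩
  exact hx (k.map_source (h.sub hz))

theorem bpush_cpt (h : Pushable N k b) : IsCompact ((bpush h).wall.sd b)ᶜ := by
  rw [bpush_out, compl_compl]
  exact h.cpt.image_of_continuousOn (k.contMDiffOn.continuousOn.mono h.sub)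

end Push

/-- a band of a letter over the times `J` is a band of the word -/
theorem TIso.pushable {A X : TP V4} {J : Set ℝ} (k : TIso A X J) (N : Band A.mf) (b : Bool)
    (hc : IsCompact (N.wall.sd b)ᶜ) (h1 : ∀ x ∉ N.wall.sd b, A.τ x ∈ J)
    (h2 : ∀ p, A.τ (N.j p) ∈ J) : Pushable (X := X.mf) N k.φ b :=
  ⟨hc, fun x hx => k.mem_src (h1 x hx), fun p => k.mem_src (h2 p)⟩

/-! ### vertical necks -/

section Time

variable {X : TP V4} {Y : Mf 3} [CompactSpace Y.M] [ConnectedSpace Y.M] {J : Set ℝ}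
  (k : TIso (cylT Y.pc) X J) {σ : ℝ → ℝ}

/-- the neck over the interval of times `range σ` of a product region -/
def ofTime (hσ : IsOE 𝓘(ℝ, ℝ) 𝓘(ℝ, ℝ) σ) (hm : StrictMono σ) (h : ∀ s, σ s ∈ J) : Band X.mf where
  Y := Y
  j p := k (p.1, σ p.2)
  oe := k.isOE_neck hσ h
  ht x := X.τ x - σ 0
  cont := X.cont.sub continuous_const
  pos p := by rw [k.tm (p.1, σ p.2) (h _), sub_pos]; exact hm.lt_iff_lt
  neg p := by rw [k.tm (p.1, σ p.2) (h _), sub_neg]; exact hm.lt_iff_lt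
  off x hx e := by
    obtain ⟨y, hy⟩ := k.exists_cyl (x := x) (sub_eq_zero.1 e ▸ h 0)
    exact hx ⟨(y, 0), by rw [← hy, sub_eq_zero.1 e]⟩

variable (hσ : IsOE 𝓘(ℝ, ℝ) 𝓘(ℝ, ℝ) σ) (hm : StrictMono σ) (h : ∀ s, σ s ∈ J)

@[simp] theorem ofTime_j (p : Y.M × ℝ) : (ofTime k hσ hm h).j p = k (p.1, σ p.2) := rfl

theorem ofTime_true : (ofTime k hσ hm h).wall.sd true = X.τ ⁻¹' Ioi (σ 0) := by
  ext x
  change 0 < pm true * (X.τ x - σ 0) ↔ _
  simp [pm]

theorem ofTime_false : (ofTime k hσ hm h).wall.sd false = X.τ ⁻¹' Iio (σ 0) := by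
  ext x
  change 0 < pm false * (X.τ x - σ 0) ↔ _
  simp [pm]

theorem ofTime_slab (s : Set ℝ) : (ofTime k hσ hm h).slab s = X.τ ⁻¹' (σ '' s) := by
  rw [← k.image_preimage (s := σ '' s) (by rintro _ ⟨t, -, rfl⟩; exact h t)]
  ext x
  constructor
  · rintro ⟨p, hp, rfl⟩
    exact ⟨(p.1, σ p.2), ⟨p.2, hp.2, rfl⟩, rfl⟩
  · rintro ⟨⟨y, _⟩, ⟨t, ht, rfl⟩, rfl⟩
    exact ⟨(y, t), ⟨trivial, ht⟩, rfl⟩

theorem ofTime_band : (ofTime k hσ hm h).wall.band = X.τ ⁻¹' range σ := by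
  rw [← image_univ, ← ofTime_slab k hσ hm h, Band.slab, univ_prod_univ, image_univ]
  rfl

end Time

end Crest.Agent.X212.Cyl58
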