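import Crest.Agent.X212.Cyl58.HB
import Crest.Agent.X212.Cyl58.Int
import Crest.Agent.X212.Cyl58.Bnd
import Crest.Agent.X212.M.Rel
import Crest.Agent.X212.Orx52.Pos

-- ▼ part X212/Cyl58/Rec
section

/-!
# X212/Cyl58/Rec: maps out of capped regions, recognition of capped regions

`Capd.lift` (universal property), `Capd.part` (clopen pieces), `Capd.exists_isOE_piece` (capping in two
steps), `Chs.exists_capd` (a manifold given by an outer chart and partial cap charts is a capped region).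
-/

set_option autoImplicit false
set_option linter.unusedSectionVars false
noncomputable section
open Set Filter Topology Function Metric TopologicalSpace
open scoped ContDiff Manifold

namespace Crest.Agent.X212.Cyl58

open Glue52

variable {V V' V'' V₃ W W' W'' : Type} [NormedAddCommGroup V] [NormedSpace ℝ V]
  [NormedAddCommGroup V'] [NormedSpace ℝ V'] [NormedAddCommGroup V''] [NormedSpace ℝ V'']
  [NormedAddCommGroup V₃] [NormedSpace ℝ V₃] [NormedAddCommGroup W] [NormedSpace ℝ W]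
  [NormedAddCommGroup W'] [NormedSpace ℝ W'] [NormedAddCommGroup W''] [NormedSpace ℝ W'']
  {EN HN : Type*} [NormedAddCommGroup EN] [NormedSpace ℝ EN] [TopologicalSpace HN]
  {IN : ModelWithCorners ℝ EN HN} {N : Type*} [TopologicalSpace N] [ChartedSpace HN N]

namespace Capd

variable {X : Pc V} {β : Type} {H : HB W X β} {C : ∀ a, Cap V (H.Y a)} {Z : Pc V'} (D : Capd H C Z)

theorem inj {x y : X.M} (hx : x ∈ H.U) (hy : y ∈ H.U) (e : D.φ x = D.φ y) : x = y :=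
  D.φ.injOn (D.mem_src hx) (D.mem_src hy) e

theorem ld {x : X.M} (hx : x ∈ H.U) : IsLocalDiffeomorphAt X.I Z.I ∞ D.φ x :=
  D.φ.isLocalDiffeomorphAt _ _ _ (D.mem_src hx)

theorem symm_φ {x : X.M} (hx : x ∈ H.U) : D.φ.symm (D.φ x) = x := D.φ.left_inv (D.mem_src hx)

theorem mem_tgt {z : Z.M} : z ∈ D.φ.target ↔ ∃ x ∈ H.U, D.φ x = z :=
  ⟨fun h => ⟨_, D.src.subset (D.φ.map_target h), D.φ.right_inv h⟩,
    fun ⟨_, hx, e⟩ => e ▸ D.φ.map_source (D.mem_src hx)⟩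

/-- the map given on `U` and on the caps -/
def lift {N : Type*} (g0 : X.M → N) (g : ∀ a, (C a).P.M → N) : Z.M → N :=
  extF D.cap g (g0 ∘ D.φ.symm)

theorem lift_cap {N : Type*} (g0 : X.M → N) (g : ∀ a, (C a).P.M → N) (a : β) (z : (C a).P.M) :
    D.lift g0 g (D.cap a z) = g a z := extF_apply (fun a => (D.oe a).inj) D.disj _ _ a z

theorem lift_φ' {N : Type*} {g0 : X.M → N} {g : ∀ a, (C a).P.M → N} {x : X.M} (hx : x ∈ H.U)
    (h : ∀ a y r, 0 < r → H.n a (y, sg (H.b a) * r) = x → g a ((C a).c (y, Real.log r)) = g0 x) :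
    D.lift g0 g (D.φ x) = g0 x := by
  by_cases e : ∃ a z, D.cap a z = D.φ x
  · obtain ⟨a, z, e⟩ := e
    obtain ⟨p, rfl, e'⟩ := (D.φ_eq_cap hx).1 e.symm
    rw [← e, lift_cap, ← h a p.1 _ (Real.exp_pos _) e', Real.log_exp]
  · rw [lift, extF_of_notMem _ _ fun a z k => e ⟨a, z, k⟩, comp_apply, D.symm_φ hx]

/-- the compatibility of a map on `U` with maps on the caps -/
def Cpt {N : Type*} (C : ∀ a, Cap V (H.Y a)) (g0 : X.M → N) (g : ∀ a, (C a).P.M → N) : Prop :=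
  ∀ a y r, 0 < r → g a ((C a).c (y, Real.log r)) = g0 (H.n a (y, sg (H.b a) * r))

theorem lift_φ {N : Type*} {g0 : X.M → N} {g : ∀ a, (C a).P.M → N} (h : Cpt C g0 g) {x : X.M}
    (hx : x ∈ H.U) : D.lift g0 g (D.φ x) = g0 x :=
  D.lift_φ' hx fun a y r hr e => e ▸ h a y r hr

theorem lift_comp {N : Type*} {g0 : X.M → N} {g : ∀ a, (C a).P.M → N} (h : Cpt C g0 g) {x : X.M}
    (hx : x ∈ H.U) : D.lift g0 g ∘ D.φ =ᶠ[𝓝 x] g0 := by
  filter_upwards [H.U.2.mem_nhds hx] with y hy using D.lift_φ h hy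

theorem range_lift {N : Type*} {g0 : X.M → N} {g : ∀ a, (C a).P.M → N} (h : Cpt C g0 g) :
    range (D.lift g0 g) = g0 '' H.U ∪ ⋃ a, range (g a) := by
  refine Subset.antisymm ?_ ?_
  · rintro _ ⟨z, rfl⟩
    rcases D.surj z with ⟨x, hx, rfl⟩ | ⟨a, w, -, rfl⟩
    · exact .inl ⟨x, hx, (D.lift_φ h hx).symm⟩
    · exact .inr (mem_iUnion.2 ⟨a, w, (D.lift_cap _ _ a w).symm⟩)
  · rintro _ (⟨x, hx, rfl⟩ | k)
    · exact ⟨_, D.lift_φ h hx⟩
    · obtain ⟨a, w, rfl⟩ := mem_iUnion.1 k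
      exact ⟨_, D.lift_cap _ _ a w⟩

variable {g0 : X.M → N} {g : ∀ a, (C a).P.M → N}

theorem ld_lift_φ (h : Cpt C g0 g) {x : X.M} (hx : x ∈ H.U) (hl : IsLocalDiffeomorphAt X.I IN ∞ g0 x) :
    IsLocalDiffeomorphAt Z.I IN ∞ (D.lift g0 g) (D.φ x) :=
  ld_of_comp (D.ld hx) (ld_congr hl (D.lift_comp h hx))

theorem ld_lift_cap {a : β} {z : (C a).P.M} (hl : IsLocalDiffeomorphAt (C a).P.I IN ∞ (g a) z) :
    IsLocalDiffeomorphAt Z.I IN ∞ (D.lift g0 g) (D.cap a z) :=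
  ld_of_comp ((D.oe a).loc z) (ld_congr hl (Eventually.of_forall (D.lift_cap g0 g a)))

theorem contMDiff_lift (h : Cpt C g0 g) (h0 : ∀ x ∈ H.U, ContMDiffAt X.I IN ∞ g0 x)
    (hg : ∀ a, ∀ z ∉ range (C a).c, ContMDiffAt (C a).P.I IN ∞ (g a) z) :
    ContMDiff Z.I IN ∞ (D.lift g0 g) :=
  D.contMDiff_of (fun x hx => (h0 x hx).congr_of_eventuallyEq (D.lift_comp h hx)) fun a z hz =>
    (hg a z hz).congr_of_eventuallyEq (Eventually.of_forall (D.lift_cap g0 g a))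

/-- EMBEDDINGS of a capped region -/
theorem isOE_lift (h : Cpt C g0 g) (l0 : ∀ x ∈ H.U, IsLocalDiffeomorphAt X.I IN ∞ g0 x)
    (i0 : InjOn g0 H.U) (hg : ∀ a, IsOE (C a).P.I IN (g a))
    (h1 : ∀ a, ∀ z ∉ range (C a).c, ∀ x ∈ H.U, g0 x ≠ g a z)
    (h2 : ∀ a a', ∀ z ∉ range (C a).c, ∀ w ∉ range (C a').c, g a z = g a' w → a = a') :
    IsOE Z.I IN (D.lift g0 g) := by
  refine ⟨fun z z' e => ?_, fun z => ?_⟩
  · rcases D.surj z with ⟨x, hx, rfl⟩ | ⟨a, w, hw, rfl⟩ <;>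
      rcases D.surj z' with ⟨x', hx', rfl⟩ | ⟨a', w', hw', rfl⟩
    · rw [D.lift_φ h hx, D.lift_φ h hx'] at e
      rw [i0 hx hx' e]
    · rw [D.lift_φ h hx, D.lift_cap] at e
      exact (h1 a' w' hw' x hx e).elim
    · rw [D.lift_φ h hx', D.lift_cap] at e
      exact (h1 a w hw x' hx' e.symm).elim
    · rw [D.lift_cap, D.lift_cap] at e
      obtain rfl := h2 a a' w hw w' hw' e
      rw [(hg a).inj e]
  · rcases D.surj z with ⟨x, hx, rfl⟩ | ⟨a, w, -, rfl⟩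
    exacts [D.ld_lift_φ h hx (l0 x hx), D.ld_lift_cap ((hg a).loc w)]

/-! ### clopen pieces -/

/-- the part over `O`, with the caps attached to it -/
def part (O : Set X.M) : Set Z.M :=
  D.φ '' (H.U ∩ O) ∪ ⋃ a ∈ {a | H.half a (Ioi 0) ⊆ O}, range (D.cap a)

theorem isOpen_part {O : Set X.M} (hO : IsOpen O) : IsOpen (D.part O) :=
  (D.φ.toOpenPartialHomeomorph.isOpen_image_of_subset_source (H.U.2.inter hO)
    fun _ hx => D.mem_src hx.1).union (isOpen_biUnion fun a _ => (D.oe a).isOpen_range)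

theorem φ_mem_part {O : Set X.M} {x : X.M} (hx : x ∈ H.U) : D.φ x ∈ D.part O ↔ x ∈ O := by
  refine ⟨?_, fun h => .inl ⟨x, ⟨hx, h⟩, rfl⟩⟩
  rintro (⟨y, hy, e⟩ | k)
  · exact D.inj hy.1 hx e ▸ hy.2
  · obtain ⟨a, ha, z, e⟩ := mem_iUnion₂.1 k
    obtain ⟨p, -, rfl⟩ := (D.φ_eq_cap hx).1 e.symm
    exact ha (H.mem_half.2 ⟨_, _, Real.exp_pos _, rfl⟩)

theorem cap_mem_part {O : Set X.M} {a : β} (h : H.half a (Ioi 0) ⊆ O) (z : (C a).P.M) :
    D.cap a z ∈ D.part O := .inr (mem_iUnion₂.2 ⟨a, h, z, rfl⟩)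

theorem cap_not_mem_part {O : Set X.M} {a : β} [Nonempty (H.Y a).M] (h : Disjoint (H.half a (Ioi 0)) O)
    (z : (C a).P.M) : D.cap a z ∉ D.part O := by
  rintro (⟨y, hy, e⟩ | k)
  · obtain ⟨p, -, rfl⟩ := (D.φ_eq_cap hy.1).1 e
    exact disjoint_left.1 h (H.mem_half.2 ⟨_, _, Real.exp_pos _, rfl⟩) hy.2
  · obtain ⟨a', ha, w, e⟩ := mem_iUnion₂.1 k
    obtain rfl := D.disj _ _ _ _ e
    have k : H.n a' (Classical.arbitrary _, sg (H.b a') * 1) ∈ H.half a' (Ioi 0) :=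
      H.mem_half.2 ⟨_, _, mem_Ioi.2 one_pos, rfl⟩
    exact disjoint_left.1 h k (ha k)

theorem compl_part [∀ a, Nonempty (H.Y a).M] {O O' : Set X.M} (hd : Disjoint O O')
    (hU : (H.U : Set X.M) ⊆ O ∪ O') (hh : ∀ a, H.half a (Ioi 0) ⊆ O ∨ H.half a (Ioi 0) ⊆ O') :
    (D.part O)ᶜ = D.part O' := by
  ext z
  rcases D.surj z with ⟨x, hx, rfl⟩ | ⟨a, w, -, rfl⟩
  · rw [mem_compl_iff, D.φ_mem_part hx, D.φ_mem_part hx]
    exact ⟨(hU hx).resolve_left, fun h h' => disjoint_left.1 hd h' h⟩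
  · rcases hh a with h | h
    · exact iff_of_false (fun k => k (D.cap_mem_part h w)) (D.cap_not_mem_part (hd.mono_left h) w)
    · exact iff_of_true (D.cap_not_mem_part (hd.symm.mono_left h) w) (D.cap_mem_part h w)

theorem isClopen_part [∀ a, Nonempty (H.Y a).M] {O O' : Set X.M} (hO : IsOpen O) (hO' : IsOpen O')
    (hd : Disjoint O O') (hU : (H.U : Set X.M) ⊆ O ∪ O')
    (hh : ∀ a, H.half a (Ioi 0) ⊆ O ∨ H.half a (Ioi 0) ⊆ O') : IsClopen (D.part O) :=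
  ⟨isOpen_compl_iff.1 (D.compl_part hd hU hh ▸ D.isOpen_part hO'), D.isOpen_part hO⟩

/-! ### capping in two steps -/

/-- `X'` is a capped region of `X`, `Z'` one of `X'`: then `Z'` embeds in the capped region `Z` of `X` -/
theorem exists_isOE_piece {β₁ β' : Type} {H₁ : HB W' X β₁} {C₁ : ∀ a, Cap V (H₁.Y a)} {X' : Pc V''}
    (D₁ : Capd H₁ C₁ X') {H' : HB W'' X' β'} {C' : ∀ a, Cap V'' (H'.Y a)} {Z' : Pc V₃}
    (D' : Capd H' C' Z') {u₁ : β₁ → β} {u' : β' → β} (i₁ : Injective u₁) (i' : Injective u')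
    (hu : ∀ a a', u₁ a ≠ u' a') {e₁ : ∀ a, (C₁ a).P.M → (C (u₁ a)).P.M}
    {e' : ∀ a, (C' a).P.M → (C (u' a)).P.M} (o₁ : ∀ a, IsOE (C₁ a).P.I (C (u₁ a)).P.I (e₁ a))
    (o' : ∀ a, IsOE (C' a).P.I (C (u' a)).P.I (e' a))
    (r₁ : ∀ a, ∀ z ∉ range (C₁ a).c, e₁ a z ∉ range (C (u₁ a)).c)
    (r' : ∀ a, ∀ z ∉ range (C' a).c, e' a z ∉ range (C (u' a)).c)
    (hU : ∀ x ∈ H₁.U, D₁.φ x ∈ H'.U → x ∈ H.U)
    (c₁ : ∀ a y r, 0 < r →
      D.cap (u₁ a) (e₁ a ((C₁ a).c (y, Real.log r))) = D.φ (H₁.n a (y, sg (H₁.b a) * r)))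
    (c' : ∀ a y r, 0 < r → ∃ x ∈ H₁.U, D₁.φ x = H'.n a (y, sg (H'.b a) * r) ∧
      D.cap (u' a) (e' a ((C' a).c (y, Real.log r))) = D.φ x) :
    ∃ Ψ : Z'.M → Z.M, IsOE Z'.I Z.I Ψ ∧
      (∀ x ∈ H₁.U, D₁.φ x ∈ H'.U → Ψ (D'.φ (D₁.φ x)) = D.φ x) ∧
      (∀ a z, D₁.cap a z ∈ H'.U → Ψ (D'.φ (D₁.cap a z)) = D.cap (u₁ a) (e₁ a z)) ∧
      ∀ a z, Ψ (D'.cap a z) = D.cap (u' a) (e' a z) := by
  let G : X'.M → Z.M := D₁.lift D.φ fun a => D.cap (u₁ a) ∘ e₁ a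
  have hG : Cpt C₁ D.φ fun a => D.cap (u₁ a) ∘ e₁ a := c₁
  have G0 : ∀ x ∈ H₁.U, G (D₁.φ x) = D.φ x := fun x hx => D₁.lift_φ hG hx
  have G1 : ∀ a z, G (D₁.cap a z) = D.cap (u₁ a) (e₁ a z) := fun a z => D₁.lift_cap _ _ a z
  have hG' : Cpt C' G fun a => D.cap (u' a) ∘ e' a := fun a y r hr => by
    obtain ⟨x, hx, k1, k2⟩ := c' a y r hr
    rw [← k1, G0 x hx]
    exact k2
  refine ⟨D'.lift G fun a => D.cap (u' a) ∘ e' a, D'.isOE_lift hG' (fun x hx => ?_)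
    (fun x hx x' hx' e => ?_) (fun a => (D.oe _).comp (o' a)) (fun a z hz x hx e => ?_)
    (fun a a' z _ w _ e => i' (D.disj _ _ _ _ e)),
    fun x hx h => (D'.lift_φ hG' h).trans (G0 x hx), fun a z h => (D'.lift_φ hG' h).trans (G1 a z),
    fun a z => D'.lift_cap _ _ a z⟩
  · rcases D₁.surj x with ⟨x, k, rfl⟩ | ⟨a, w, -, rfl⟩
    · exact D₁.ld_lift_φ hG k (D.ld (hU x k hx))
    · exact D₁.ld_lift_cap (((D.oe _).comp (o₁ a)).loc w)
  · rcases D₁.surj x with ⟨x, k, rfl⟩ | ⟨a, w, hw, rfl⟩ <;>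
      rcases D₁.surj x' with ⟨x', k', rfl⟩ | ⟨a', w', hw', rfl⟩
    · rw [G0 x k, G0 x' k'] at e
      rw [D.inj (hU x k hx) (hU x' k' hx') e]
    · rw [G0 x k, G1] at e
      exact (D.ne_cap (hU x k hx) (r₁ a' w' hw') e).elim
    · rw [G0 x' k', G1] at e
      exact (D.ne_cap (hU x' k' hx') (r₁ a w hw) e.symm).elim
    · rw [G1, G1] at e
      obtain rfl := i₁ (D.disj _ _ _ _ e)
      rw [(o₁ a).inj ((D.oe _).inj e)]
  · rcases D₁.surj x with ⟨x, k, rfl⟩ | ⟨a', w, -, rfl⟩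
    · exact D.ne_cap (hU x k hx) (r' a z hz) ((G0 x k).symm.trans e)
    · exact hu a' a (D.disj _ _ _ _ ((G1 a' w).symm.trans e))

end Capd

/-! ### recognition -/

/-- the points of a cap of height at most `T` -/
def Cap.low {Y : Pc W} (C : Cap V Y) (T : ℝ) : Set C.P.M := {z | ∀ p, C.c p = z → p.2 ≤ T}

theorem Cap.c_mem_low {Y : Pc W} (C : Cap V Y) {T : ℝ} {p : Y.M × ℝ} : C.c p ∈ C.low T ↔ p.2 ≤ T :=
  ⟨fun h => h p rfl, fun h _ e => C.isEnd.oe.inj e ▸ h⟩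

theorem Cap.mem_low {Y : Pc W} (C : Cap V Y) (T : ℝ) {z : C.P.M} (h : z ∉ range C.c) : z ∈ C.low T :=
  fun p e => (h ⟨p, e⟩).elim

/-- the part of `U` off the half bands `r ≤ R` -/
def HB.ext {X : Pc V} {β : Type} (H : HB W X β) (R : ℝ) : Set X.M :=
  {x | x ∈ H.U ∧ ∀ a y r, 0 < r → H.n a (y, sg (H.b a) * r) = x → R < r}

theorem HB.n_mem_ext {X : Pc V} {β : Type} (H : HB W X β) {R r : ℝ} (hr : 0 < r) (a : β)
    (y : (H.Y a).M) : H.n a (y, sg (H.b a) * r) ∈ H.ext R ↔ R < r := by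
  refine ⟨fun h => h.2 a y r hr rfl, fun h => ⟨H.mem a y r hr, fun a' y' r' hr' e => ?_⟩⟩
  obtain rfl := H.disj _ _ _ _ _ _ hr' hr e
  rwa [mul_left_cancel₀ (sg_ne _) (congrArg Prod.snd ((H.oe a').inj e) :)]

theorem HB.ext_mono {X : Pc V} {β : Type} (H : HB W X β) {R R' : ℝ} (h : R ≤ R') :
    H.ext R' ⊆ H.ext R := fun _ hx => ⟨hx.1, fun a y r hr e => h.trans_lt (hx.2 a y r hr e)⟩

/-- `Z` is the union of the outer chart `h0` (on `r > R`) and the charts `b0 a` of the low parts of the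
caps; the height in the cap is `κ a r` -/
structure Chs {X : Pc V} {β : Type} (H : HB W X β) (C : ∀ a, Cap V (H.Y a)) (Z : Pc V') (R : ℝ)
    (κ : β → ℝ → ℝ) (h0 : X.M → Z.M) (b0 : ∀ a, (C a).P.M → Z.M) : Prop where
  pos : 0 < R
  up : ∀ a, Up (κ a) (Ici R)
  l0 : ∀ x ∈ H.ext R, IsLocalDiffeomorphAt X.I Z.I ∞ h0 x
  i0 : InjOn h0 (H.ext R)
  l1 : ∀ a, ∀ z ∈ (C a).low (κ a R), IsLocalDiffeomorphAt (C a).P.I Z.I ∞ (b0 a) z
  i1 : ∀ a, InjOn (b0 a) ((C a).low (κ a R))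
  rel : ∀ a y r, R < r → b0 a ((C a).c (y, κ a r)) = h0 (H.n a (y, sg (H.b a) * r))
  d0 : ∀ a, ∀ z ∈ (C a).low (κ a R), ∀ x ∈ H.ext R, h0 x ≠ b0 a z
  d1 : ∀ a a', ∀ z ∈ (C a).low (κ a R), ∀ w ∈ (C a').low (κ a' R), b0 a z = b0 a' w → a = a'
  cov : ∀ z, (∃ x ∈ H.ext R, h0 x = z) ∨ ∃ a, ∃ w ∈ (C a).low (κ a R), b0 a w = z

namespace Chs

variable {X : Pc V} {β : Type} {H : HB W X β} {C : ∀ a, Cap V (H.Y a)} {Z : Pc V'} {R : ℝ}
  {κ : β → ℝ → ℝ} {h0 : X.M → Z.M} {b0 : ∀ a, (C a).P.M → Z.M} (h : Chs H C Z R κ h0 b0)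
include h

theorem mono (a : β) : StrictMonoOn (κ a) (Ici R) := (h.up a).strictMonoOn ordConnected_Ici

theorem cases {a : β} {r : ℝ} (hr : R ≤ r) {z : (C a).P.M} (hz : z ∈ (C a).low (κ a r)) :
    z ∈ (C a).low (κ a R) ∨ ∃ y s, R < s ∧ s ≤ r ∧ (C a).c (y, κ a s) = z := by
  refine or_iff_not_imp_left.2 fun k => ?_
  simp only [Cap.low, mem_ofPred_eq, not_forall, not_le] at k
  obtain ⟨⟨y, t⟩, rfl, k⟩ := k
  obtain ⟨s, hs, rfl⟩ : t ∈ κ a '' Icc R r := by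
    rw [(h.up a).image_Icc hr Icc_subset_Ici_self]
    exact ⟨k.le, (C a).c_mem_low.1 hz⟩
  exact ⟨y, s, hs.1.lt_of_ne fun e => by simp [← e] at k, hs.2, rfl⟩

theorem n_mem {a : β} (y : (H.Y a).M) {s : ℝ} (hs : R < s) : H.n a (y, sg (H.b a) * s) ∈ H.ext R :=
  (H.n_mem_ext (h.pos.trans hs) a y).2 hs

theorem ld {a : β} {r : ℝ} (hr : R ≤ r) {z : (C a).P.M} (hz : z ∈ (C a).low (κ a r)) :
    IsLocalDiffeomorphAt (C a).P.I Z.I ∞ (b0 a) z := by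
  rcases h.cases hr hz with k | ⟨y, s, hs, -, rfl⟩
  · exact h.l1 a z k
  have k1 := ld_comp (f := Prod.map id (κ a)) (x := (y, s)) ((C a).isEnd.oe.loc _)
    (ld_prodMap (IA := (H.Y a).I) (ld_id y) (((h.up a).mono Ioi_subset_Ici_self).ld isOpen_Ioi hs))
  have k2 := ld_comp (g := h0) (f := H.n a ∘ Prod.map id fun t => sg (H.b a) * t) (x := (y, s))
    (h.l0 _ (h.n_mem y hs))
    (((H.oe a).comp (IsOE.id.prodMap (isOE_sg (H.b a)))).loc (y, s))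
  refine ld_of_comp (g := b0 a) (x := (y, s)) (f := (C a).c ∘ Prod.map id (κ a)) k1 (ld_congr k2 ?_)
  filter_upwards [(isOpen_Ioi.preimage continuous_snd).mem_nhds (show (y, s) ∈ Prod.snd ⁻¹' Ioi R from hs)]
    with p hp using h.rel a p.1 p.2 hp

theorem of_eq {a : β} {r : ℝ} (hr : R ≤ r) {z : (C a).P.M} (hz : z ∈ (C a).low (κ a r)) {x : X.M}
    (hx : x ∈ H.ext R) (e : h0 x = b0 a z) :
    ∃ y s, R < s ∧ s ≤ r ∧ (C a).c (y, κ a s) = z ∧ H.n a (y, sg (H.b a) * s) = x := by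
  rcases h.cases hr hz with k | ⟨y, s, hs, hs', rfl⟩
  · exact (h.d0 a z k x hx e).elim
  · exact ⟨y, s, hs, hs', rfl, h.i0 (h.n_mem y hs) hx ((h.rel a y s hs).symm.trans e.symm)⟩

theorem inj {a a' : β} {r r' : ℝ} (hr : R ≤ r) (hr' : R ≤ r') {z : (C a).P.M} {w : (C a').P.M}
    (hz : z ∈ (C a).low (κ a r)) (hw : w ∈ (C a').low (κ a' r')) (e : b0 a z = b0 a' w) :
    (⟨a, z⟩ : Σ a, (C a).P.M) = ⟨a', w⟩ := by
  rcases h.cases hr hz with k | ⟨y, s, hs, -, rfl⟩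
  · rcases h.cases hr' hw with k' | ⟨y', s', hs', -, rfl⟩
    · obtain rfl := h.d1 a a' z k w k' e
      rw [h.i1 a k k' e]
    · exact (h.d0 a z k _ (h.n_mem y' hs') ((h.rel a' y' s' hs').symm.trans e.symm)).elim
  · obtain ⟨y', s', hs', -, rfl, k⟩ := h.of_eq hr' hw (h.n_mem y hs) ((h.rel a y s hs).symm.trans e)
    obtain rfl := H.disj _ _ _ _ _ _ (h.pos.trans hs') (h.pos.trans hs) k
    obtain ⟨rfl, k'⟩ := Prod.mk.inj ((H.oe a').inj k)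
    rw [mul_left_cancel₀ (sg_ne _) k']

/-- RECOGNITION of a capped region; `φ = h0` on `r ≥ R'`, `cap = b0` on the low parts -/
theorem exists_capd [Finite β] [T2Space X.M] [Nonempty H.U] {R' : ℝ} (hR : R < R') {T : β → ℝ}
    (hT : ∀ a, T a < Real.log R') (hT' : ∀ a, T a < κ a R') :
    ∃ D : Capd H C Z, (∀ x ∈ H.U, (∀ a, x ∉ H.half a (Ioo 0 R')) → D.φ x = h0 x) ∧
      (∀ a, ∀ z ∈ (C a).low (T a), D.cap a z = b0 a z) ∧
      (∀ a, D.cap a '' (C a).low (Real.log R') = b0 a '' (C a).low (κ a R')) ∧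
      ∀ a z, ∃ r, R' ≤ r ∧ ∃ w ∈ (C a).low (κ a r), D.cap a z = b0 a w := by
  have h0' : 0 < R' := h.pos.trans hR
  have ex : ∀ a, ∃ l : ℝ → ℝ, Up l univ ∧ (∀ t ≤ T a, l t = t) ∧
      (∀ t, Real.log R' ≤ t → l t = κ a (Real.exp t)) ∧ Iic (κ a R') ⊆ l '' Iic (Real.log R') := by
    intro a
    obtain ⟨l, k1, k2, k3, k4⟩ := exists_up_univ (hT a) (Up.id univ) univ_mem (subset_univ _)
      (((h.up a).mono Ioi_subset_Ici_self).comp (Up.exp (Real.exp ⁻¹' Ioi R)) fun _ hx => hx)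
      (Real.continuous_exp.continuousAt.preimage_mem_nhds (Ioi_mem_nhds (by rwa [Real.exp_log h0'])))
      (fun t ht => hR.trans ((Real.log_lt_iff_lt_exp h0').1 ht)) (by simpa [Real.exp_log h0'] using hT' a)
    refine ⟨l, k1, k2, k3, fun t ht => ?_⟩
    obtain ⟨s, rfl⟩ : t ∈ range l := by
      rw [k4]
      refine .inl ((lt_or_ge t (T a)).imp (fun e => ⟨t, e, rfl⟩) fun e => ⟨e, ?_⟩)
      simpa [Real.exp_log h0'] using ht
    exact ⟨s, k1.strictMono.le_iff_le.1 (by rwa [k3 _ le_rfl, comp_apply, Real.exp_log h0']), rfl⟩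
  choose l l1 l2 l3 l4 using ex
  have l5 : ∀ a t, l a t ≤ κ a (max R' (Real.exp t)) := fun a t => by
    rcases le_total t (Real.log R') with e | e
    · rw [max_eq_left ((Real.le_log_iff_exp_le h0').1 e), ← Real.exp_log h0', ← l3 a _ le_rfl]
      exact (l1 a).strictMono.monotone e
    · rw [max_eq_right ((Real.log_le_iff_le_exp h0').1 e), l3 a t e]
  let ψ : ∀ a, (C a).P.M → (C a).P.M := fun a => push (C a).c (Prod.map id (l a))
  have ψc : ∀ a y t, ψ a ((C a).c (y, t)) = (C a).c (y, l a t) := fun a y t =>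
    push_apply (C a).isEnd.oe.inj _ _
  have ψn : ∀ a, ∀ z ∉ range (C a).c, ψ a z = z := fun a z e => push_of_notMem _ e
  have ψo : ∀ a, IsOE (C a).P.I (C a).P.I (ψ a) := fun a =>
    (C a).isEnd.oe.push ((C a).isEnd.isClosed (T a)) (fun p hp => Prod.ext rfl
      (l2 a _ (not_le.1 fun e => hp ⟨trivial, e⟩).le)) (IsOE.id.prodMap (l1 a).isOE)
  have ψl : ∀ a z, ∃ r, R' ≤ r ∧ ψ a z ∈ (C a).low (κ a r) := fun a z => by
    by_cases e : z ∈ range (C a).c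
    · obtain ⟨⟨y, t⟩, rfl⟩ := e
      exact ⟨_, le_max_left _ _, ψc a y t ▸ (C a).c_mem_low.2 (l5 a t)⟩
    · exact ⟨R', le_rfl, (ψn a z e).symm ▸ (C a).mem_low _ e⟩
  let cap : ∀ a, (C a).P.M → Z.M := fun a => b0 a ∘ ψ a
  have cd : ∀ a a' z w, cap a z = cap a' w → (⟨a, ψ a z⟩ : Σ a, (C a).P.M) = ⟨a', ψ a' w⟩ :=
    fun a a' z w e => by
      obtain ⟨r, k1, k2⟩ := ψl a z
      obtain ⟨r', k1', k2'⟩ := ψl a' w
      exact h.inj (hR.le.trans k1) (hR.le.trans k1') k2 k2' e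
  have co : ∀ a, IsOE (C a).P.I Z.I (cap a) := fun a =>
    ⟨fun z w e => (ψo a).inj (eq_of_heq (Sigma.mk.inj (cd a a z w e)).2), fun z => by
      obtain ⟨r, k1, k2⟩ := ψl a z
      exact ld_comp (h.ld (hR.le.trans k1) k2) ((ψo a).loc z)⟩
  have cc : ∀ a y r, R' ≤ r → cap a ((C a).c (y, Real.log r)) = h0 (H.n a (y, sg (H.b a) * r)) :=
    fun a y r hr => by
      rw [← h.rel a y r (hR.trans_le hr)]
      exact congrArg (b0 a) ((ψc a y _).trans (by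
        rw [l3 a _ (Real.log_le_log h0' hr), Real.exp_log (h0'.trans_le hr)]))
  have jd : ∀ a a' p q, H.j a p = H.j a' q → a = a' := fun a a' p q e =>
    H.disj a a' _ _ _ _ (Real.exp_pos _) (Real.exp_pos _) (congrArg Subtype.val e)
  have jn : ∀ x : H.U, x ∉ ⋃ a, H.j a '' (univ ×ˢ Ici (-Real.log R')) → x.1 ∈ H.ext R' := fun x hx =>
    ⟨x.2, fun a y r hr e => not_le.1 fun k => hx (mem_iUnion.2 ⟨a, (y, -Real.log r),
      ⟨trivial, neg_le_neg (Real.log_le_log hr k)⟩, Subtype.ext ((H.j_log a y hr).trans e)⟩)⟩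
  let Φ : H.U → Z.M := extF H.j (fun a p => cap a ((C a).c (p.1, -p.2))) (h0 ∘ Subtype.val)
  have Φj : ∀ a p, Φ (H.j a p) = cap a ((C a).c (p.1, -p.2)) := fun a p =>
    extF_apply (fun a => (H.isOE_j a).inj) jd _ _ a p
  have Φn : ∀ x : H.U, (∀ a p, H.j a p ≠ x) → Φ x = h0 x ∧ x.1 ∈ H.ext R := fun x hx =>
    ⟨extF_of_notMem _ _ hx, H.ext_mono hR.le (jn x fun k => by
      obtain ⟨a, p, -, e⟩ := mem_iUnion.1 k
      exact hx a p e)⟩
  have Φe : ∀ x : H.U, (∀ a, x.1 ∉ H.half a (Ioo 0 R')) → Φ x = h0 x := fun x hx => by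
    by_cases e : ∃ a p, H.j a p = x
    · obtain ⟨a, p, rfl⟩ := e
      rw [Φj, ← Real.log_exp (-p.2)]
      exact cc a p.1 _ (not_lt.1 fun k => hx a (H.mem_half.2 ⟨p.1, _, ⟨Real.exp_pos _, k⟩, rfl⟩))
    · exact (Φn x fun a p k => e ⟨a, p, k⟩).1
  have Φo : IsOE X.I Z.I Φ := by
    refine isOE_extF H.isOE_j jd (fun a => (H.isEnd_j a).isClosed (-Real.log R')) (fun a p hp => ?_)
      (fun a => (co a).comp ((C a).isEnd.oe.comp (IsOE.id.prodMap isOE_neg)))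
      (fun x hx => ld_comp (h.l0 _ (Φn x hx).2) ((isOE_val H.U).loc x))
      (fun x hx y hy e => Subtype.ext (h.i0 (H.ext_mono hR.le (jn x hx)) (H.ext_mono hR.le (jn y hy)) e))
      (fun a p hp x hx e => ?_) fun a a' p _ q _ e => congrArg Sigma.fst (cd _ _ _ _ e)
    · rw [← Real.log_exp (-p.2)]
      exact cc a p.1 _ ((Real.log_le_iff_le_exp h0').1
        (le_neg.1 (not_le.1 fun e => hp ⟨trivial, e⟩).le))
    · have k1 : ψ a ((C a).c (p.1, -p.2)) ∈ (C a).low (κ a R') := by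
        rw [ψc, (C a).c_mem_low, ← Real.exp_log h0', ← l3 a _ le_rfl]
        exact (l1 a).strictMono.monotone (neg_le.1 hp.2)
      obtain ⟨y, s, k2, k3, -, k4⟩ := h.of_eq hR.le k1 (H.ext_mono hR.le (jn x hx)) e.symm
      exact ((jn x hx).2 a y s (h.pos.trans k2) k4).not_ge k3
  have Φl : ∀ a y, ∀ t ≤ κ a R', b0 a ((C a).c (y, t)) ∈ range Φ := fun a y t ht => by
    obtain ⟨s, -, rfl⟩ := l4 a ht
    exact ⟨H.j a (y, -s), (Φj a _).trans (congrArg (b0 a) ((ψc a y _).trans (by rw [neg_neg])))⟩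
  refine ⟨⟨(isOE_val H.U).span Φo, cap, co, (IsOE.span_source _ _).trans Subtype.range_coe,
    (IsOE.span_target _ _).trans (Subset.antisymm ?_ fun z hz => ?_), fun a y r hr => ?_,
    fun a a' z w e => congrArg Sigma.fst (cd _ _ _ _ e)⟩, fun x hx k => ?_, fun a z hz => ?_,
    fun a => Subset.antisymm ?_ ?_, fun a z => ?_⟩
  · rintro _ ⟨x, rfl⟩ k
    obtain ⟨a, w, hw, e⟩ := mem_iUnion.1 k
    by_cases e' : ∃ a p, H.j a p = x
    · obtain ⟨a', p, rfl⟩ := e'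
      rw [Φj] at e
      obtain rfl : a = a' := congrArg Sigma.fst (cd _ _ _ _ e)
      exact hw ⟨_, ((co a).inj e).symm⟩
    · obtain ⟨k1, k2⟩ := Φn x fun a p k => e' ⟨a, p, k⟩
      exact h.d0 a w ((C a).mem_low _ hw) x k2
        (k1.symm.trans (e.symm.trans (congrArg (b0 a) (push_of_notMem _ hw))))
  · rcases h.cov z with ⟨x, hx, rfl⟩ | ⟨a, w, hw, rfl⟩
    · by_cases e : ∃ a, x ∈ H.half a (Ioo 0 R')
      · obtain ⟨a, e⟩ := e
        obtain ⟨y, r, hr, rfl⟩ := H.mem_half.1 e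
        have k := hx.2 a y r hr.1 rfl
        rw [← h.rel a y r k]
        exact Φl a y _ ((h.mono a).monotoneOn k.le hR.le hr.2.le)
      · exact ⟨⟨x, hx.1⟩, Φe _ fun a k => e ⟨a, k⟩⟩
    · by_cases e : w ∈ range (C a).c
      · obtain ⟨⟨y, t⟩, rfl⟩ := e
        exact Φl a y t (((C a).c_mem_low.1 hw).trans ((h.mono a).monotoneOn self_mem_Ici hR.le hR.le))
      · exact (hz (mem_iUnion.2 ⟨a, w, e, congrArg (b0 a) (push_of_notMem _ e)⟩)).elim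
  · rw [← H.j_log a y hr, IsOE.span_apply, Φj, neg_neg]
  · exact ((isOE_val H.U).span_apply Φo ⟨x, hx⟩).trans (Φe ⟨x, hx⟩ k)
  · by_cases e : z ∈ range (C a).c
    · obtain ⟨⟨y, t⟩, rfl⟩ := e
      exact congrArg (b0 a) ((ψc a y t).trans (by rw [l2 a t ((C a).c_mem_low.1 hz)]))
    · exact congrArg (b0 a) (push_of_notMem _ e)
  · rintro _ ⟨z, hz, rfl⟩
    refine ⟨ψ a z, ?_, rfl⟩
    by_cases e : z ∈ range (C a).c
    · obtain ⟨⟨y, t⟩, rfl⟩ := e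
      rw [ψc, (C a).c_mem_low, ← Real.exp_log h0', ← l3 a _ le_rfl]
      exact (l1 a).strictMono.monotone ((C a).c_mem_low.1 hz)
    · exact (ψn a z e).symm ▸ (C a).mem_low _ e
  · rintro _ ⟨z, hz, rfl⟩
    by_cases e : z ∈ range (C a).c
    · obtain ⟨⟨y, t⟩, rfl⟩ := e
      obtain ⟨s, hs, rfl⟩ := l4 a ((C a).c_mem_low.1 hz)
      exact ⟨(C a).c (y, s), (C a).c_mem_low.2 hs, congrArg (b0 a) (ψc a y s)⟩
    · exact ⟨z, (C a).mem_low _ e, congrArg (b0 a) (push_of_notMem _ e)⟩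
  · obtain ⟨r, k1, k2⟩ := ψl a z
    exact ⟨r, k1, _, k2, rfl⟩

end Chs

end Crest.Agent.X212.Cyl58
end
end

-- ▼ part X212/Cyl58/Loc
section

/-!
# X212/Cyl58/Loc: local maps out of capped regions, closed and compact parts
-/

set_option autoImplicit false
set_option linter.unusedSectionVars false
noncomputable section
open Set Filter Topology Function Metric TopologicalSpace
open scoped ContDiff Manifold

namespace Crest.Agent.X212.Cyl58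

open Glue52

section PD

variable {EA HA EB HB : Type*} [NormedAddCommGroup EA] [NormedSpace ℝ EA] [TopologicalSpace HA]
  [NormedAddCommGroup EB] [NormedSpace ℝ EB] [TopologicalSpace HB] {IA : ModelWithCorners ℝ EA HA}
  {IB : ModelWithCorners ℝ EB HB} {A B : Type*} [TopologicalSpace A] [ChartedSpace HA A]
  [TopologicalSpace B] [ChartedSpace HB B]

theorem isOpen_image_ld {f : A → B} {s : Set A} (hs : IsOpen s)
    (hf : ∀ x ∈ s, IsLocalDiffeomorphAt IA IB ∞ f x) : IsOpen (f '' s) := by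
  refine isOpen_iff_mem_nhds.2 ?_
  rintro _ ⟨x, hx, rfl⟩
  obtain ⟨Φ, h1, h2⟩ := hf x hx
  refine mem_of_superset ((Φ.toOpenPartialHomeomorph.isOpen_image_of_subset_source
    (hs.inter Φ.open_source) inter_subset_right).mem_nhds ⟨x, ⟨hx, h1⟩, (h2 h1).symm⟩) ?_
  rintro _ ⟨y, hy, rfl⟩
  exact ⟨y, hy.1, h2 hy.2⟩

/-- an injective local diffeomorphism on an open set -/
def pdS [Nonempty A] {f : A → B} {s : Set A} (hs : IsOpen s)
    (hf : ∀ x ∈ s, IsLocalDiffeomorphAt IA IB ∞ f x) (hi : InjOn f s) :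
    PartialDiffeomorph IA IB A B ∞ where
  toFun := f
  invFun := invFunOn f s
  source := s
  target := f '' s
  map_source' _ hx := mem_image_of_mem f hx
  map_target' _ hy := invFunOn_mem hy
  left_inv' _ hx := hi.leftInvOn_invFunOn hx
  right_inv' _ hy := invFunOn_eq hy
  open_source := hs
  open_target := isOpen_image_ld hs hf
  contMDiffOn_toFun x hx := (hf x hx).contMDiffAt.contMDiffWithinAt
  contMDiffOn_invFun := by
    rintro _ ⟨x, hx, rfl⟩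
    refine (contMDiffAt_of_comp (hf x hx) (contMDiffAt_id.congr_of_eventuallyEq ?_)).contMDiffWithinAt
    filter_upwards [hs.mem_nhds hx] with z hz using hi.leftInvOn_invFunOn hz

end PD

variable {V V' W : Type} [NormedAddCommGroup V] [NormedSpace ℝ V]
  [NormedAddCommGroup V'] [NormedSpace ℝ V'] [NormedAddCommGroup W] [NormedSpace ℝ W]
  {EN HN : Type*} [NormedAddCommGroup EN] [NormedSpace ℝ EN] [TopologicalSpace HN]
  {IN : ModelWithCorners ℝ EN HN} {N : Type*} [TopologicalSpace N] [ChartedSpace HN N]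

/-- the points of a cap of height less than `T` -/
def Cap.lt {Y : Pc W} (C : Cap V Y) (T : ℝ) : Set C.P.M := (C.c '' (univ ×ˢ Ici T))ᶜ

theorem Cap.isOpen_lt {Y : Pc W} [CompactSpace Y.M] (C : Cap V Y) (T : ℝ) : IsOpen (C.lt T) :=
  (C.isEnd.isClosed T).isOpen_compl

theorem Cap.c_mem_lt {Y : Pc W} (C : Cap V Y) {T : ℝ} {p : Y.M × ℝ} : C.c p ∈ C.lt T ↔ p.2 < T := by
  rw [Cap.lt, mem_compl_iff, C.isEnd.oe.inj.mem_set_image]
  simp

theorem Cap.mem_lt {Y : Pc W} (C : Cap V Y) (T : ℝ) {z : C.P.M} (h : z ∉ range C.c) : z ∈ C.lt T :=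
  fun e => h (image_subset_range _ _ e)

theorem Cap.low_eq {Y : Pc W} (C : Cap V Y) (T : ℝ) : C.low T = (C.c '' (univ ×ˢ Ioi T))ᶜ := by
  ext z
  refine ⟨fun h ⟨p, hp, e⟩ => (h p e).not_gt hp.2, fun h p e => not_lt.1 fun k => h ⟨p, ⟨trivial, k⟩, e⟩⟩

theorem Cap.isCompact_low {Y : Pc W} [CompactSpace Y.M] (C : Cap V Y) (T : ℝ) : IsCompact (C.low T) := by
  refine (C.cpt.union (C.isEnd.oe.isCompact_slab 0 T)).of_isClosed_subset
    (C.low_eq T ▸ (C.isEnd.oe.isOpen_image (isOpen_univ.prod isOpen_Ioi)).isClosed_compl) fun z hz => ?_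
  refine or_iff_not_imp_left.2 fun k => ?_
  obtain ⟨p, hp, rfl⟩ := notMem_compl_iff.1 k
  exact ⟨p, ⟨trivial, le_of_lt hp.2, C.c_mem_low.1 hz⟩, rfl⟩

namespace Capd

variable {X : Pc V} {β : Type} {H : HB W X β} {C : ∀ a, Cap V (H.Y a)} {Z : Pc V'} (D : Capd H C Z)

theorem isOpen_image {s : Set X.M} (hs : IsOpen s) (hU : s ⊆ H.U) : IsOpen (D.φ '' s) :=
  isOpen_image_ld hs fun _ hx => D.ld (hU hx)

theorem cap_lt {a : β} {ε : ℝ} (hε : 0 < ε) {z : (C a).P.M} (hz : z ∈ (C a).lt (Real.log ε)) :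
    z ∉ range (C a).c ∨ ∃ y r, 0 < r ∧ r < ε ∧ (C a).c (y, Real.log r) = z ∧
      D.φ (H.n a (y, sg (H.b a) * r)) = D.cap a z := by
  refine or_iff_not_imp_left.2 fun k => ?_
  obtain ⟨p, rfl⟩ := not_not.1 k
  exact ⟨p.1, _, Real.exp_pos p.2, (Real.lt_log_iff_exp_lt hε).1 ((C a).c_mem_lt.1 hz),
    by rw [Real.log_exp], (D.eq' a p).symm⟩

/-- `V` together with the centres of the caps in `J` -/
def ext (V : Set X.M) (J : Set β) : Set Z.M := D.φ '' V ∪ ⋃ a ∈ J, D.cap a '' (range (C a).c)ᶜ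

theorem φ_mem_ext {V : Set X.M} (hU : V ⊆ H.U) {J : Set β} {x : X.M} (hx : x ∈ H.U) :
    D.φ x ∈ D.ext V J ↔ x ∈ V := by
  refine ⟨?_, fun h => .inl ⟨x, h, rfl⟩⟩
  rintro (⟨y, hy, e⟩ | k)
  · exact D.inj (hU hy) hx e ▸ hy
  · obtain ⟨a, -, z, hz, e⟩ := mem_iUnion₂.1 k
    exact (D.ne_cap hx hz e.symm).elim

theorem cap_mem_ext {V : Set X.M} (hU : V ⊆ H.U) {J : Set β} {a : β} {z : (C a).P.M}
    (hz : z ∉ range (C a).c) : D.cap a z ∈ D.ext V J ↔ a ∈ J := by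
  refine ⟨?_, fun h => .inr (mem_iUnion₂.2 ⟨a, h, z, hz, rfl⟩)⟩
  rintro (⟨y, hy, e⟩ | k)
  · exact (D.ne_cap (hU hy) hz e).elim
  · obtain ⟨a', h, w, -, e⟩ := mem_iUnion₂.1 k
    exact D.disj _ _ _ _ e ▸ h

theorem isOpen_ext {V : Set X.M} (hV : IsOpen V) (hU : V ⊆ H.U) {J : Set β}
    (hJ : ∀ a ∈ J, ∃ ε > 0, H.half a (Ioo 0 ε) ⊆ V) : IsOpen (D.ext V J) := by
  refine isOpen_iff_mem_nhds.2 ?_
  rintro z (k | k)
  · exact mem_of_superset ((D.isOpen_image hV hU).mem_nhds k) subset_union_left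
  obtain ⟨a, ha, w, hw, rfl⟩ := mem_iUnion₂.1 k
  obtain ⟨ε, h0, h⟩ := hJ a ha
  refine mem_of_superset (((D.oe a).isOpen_image ((C a).isOpen_lt (Real.log ε))).mem_nhds
    ⟨w, (C a).mem_lt _ hw, rfl⟩) ?_
  rintro _ ⟨z, hz, rfl⟩
  rcases D.cap_lt h0 hz with e | ⟨y, r, h1, h2, -, e⟩
  · exact .inr (mem_iUnion₂.2 ⟨a, ha, z, e, rfl⟩)
  · exact .inl ⟨_, h (H.mem_half.2 ⟨y, r, ⟨h1, h2⟩, rfl⟩), e⟩

theorem compl_ext {V : Set X.M} (hU : V ⊆ H.U) (J : Set β) : (D.ext V J)ᶜ = D.ext (H.U \ V) Jᶜ := by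
  ext z
  rcases D.surj z with ⟨x, hx, rfl⟩ | ⟨a, w, hw, rfl⟩
  · rw [mem_compl_iff, D.φ_mem_ext hU hx, D.φ_mem_ext sdiff_subset hx]
    exact ⟨fun h => ⟨hx, h⟩, fun h => h.2⟩
  · rw [mem_compl_iff, D.cap_mem_ext hU hw, D.cap_mem_ext sdiff_subset hw, mem_compl_iff]

/-- closed sets that stay away from the other centres -/
theorem isClosed_ext {K : Set X.M} (hK : IsClosed K) {J : Set β}
    (hJ : ∀ a ∉ J, ∃ ε > 0, Disjoint (H.half a (Ioo 0 ε)) K) : IsClosed (D.ext (H.U ∩ K) J) := by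
  rw [← isOpen_compl_iff, D.compl_ext inter_subset_left, sdiff_self_inter]
  refine D.isOpen_ext (H.U.2.sdiff hK) sdiff_subset fun a ha => ?_
  obtain ⟨ε, h0, h⟩ := hJ a ha
  refine ⟨ε, h0, fun x hx => ⟨?_, disjoint_left.1 h hx⟩⟩
  obtain ⟨y, r, hr, rfl⟩ := H.mem_half.1 hx
  exact H.mem a y r hr.1

theorem isCompact_image {K : Set X.M} (hK : IsCompact K) (hU : K ⊆ H.U) : IsCompact (D.φ '' K) :=
  hK.image_of_continuousOn (D.φ.contMDiffOn.continuousOn.mono fun _ hx => D.mem_src (hU hx))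

/-- closed sets with compact part off the thin halves are compact -/
theorem isCompact_of [Finite β] {S : Set Z.M} (hS : IsClosed S) {K : Set X.M} (hK : IsCompact K)
    (hU : K ⊆ H.U) (h : ∀ x ∈ H.U, D.φ x ∈ S → (∀ a, x ∉ H.half a (Ioo 0 1)) → x ∈ K) :
    IsCompact S := by
  refine ((D.isCompact_image hK hU).union (isCompact_iUnion fun a =>
    ((C a).isCompact_low 0).image (D.oe a).continuous)).of_isClosed_subset hS fun z hz => ?_
  rcases D.surj z with ⟨x, hx, rfl⟩ | ⟨a, w, hw, rfl⟩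
  · by_cases k : ∃ a, x ∈ H.half a (Ioo 0 1)
    · obtain ⟨a, ha⟩ := k
      obtain ⟨y, r, hr, rfl⟩ := H.mem_half.1 ha
      exact .inr (mem_iUnion.2 ⟨a, _, (C a).c_mem_low.2 (Real.log_neg hr.1 hr.2).le,
        (D.eq a y r hr.1).symm⟩)
    · exact .inl ⟨x, h x hx hz fun a e => k ⟨a, e⟩, rfl⟩
  · exact .inr (mem_iUnion.2 ⟨a, w, (C a).mem_low _ hw, rfl⟩)

theorem ext_eq_part [∀ a, Nonempty (H.Y a).M] {O : Set X.M}
    (hh : ∀ a, H.half a (Ioi 0) ⊆ O ∨ Disjoint (H.half a (Ioi 0)) O) :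
    D.part O = D.ext (H.U ∩ O) {a | H.half a (Ioi 0) ⊆ O} := by
  ext z
  rcases D.surj z with ⟨x, hx, rfl⟩ | ⟨a, w, hw, rfl⟩
  · rw [D.φ_mem_part hx, D.φ_mem_ext inter_subset_left hx]
    exact ⟨fun h => ⟨hx, h⟩, fun h => h.2⟩
  · rw [D.cap_mem_ext inter_subset_left hw]
    exact ⟨fun h => (hh a).resolve_right fun k => D.cap_not_mem_part k w h, fun h => D.cap_mem_part h w⟩

/-- connected sets with their caps -/
theorem isPreconnected_part [∀ a, Nonempty (H.Y a).M] [∀ a, PreconnectedSpace (C a).P.M] {O : Set X.M}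
    (hO : IsPreconnected ((H.U : Set X.M) ∩ O)) : IsPreconnected (D.part O) := by
  have h0 : IsPreconnected (D.φ '' (H.U ∩ O)) :=
    hO.image _ (D.φ.contMDiffOn.continuousOn.mono fun x hx => D.mem_src hx.1)
  rcases eq_empty_or_nonempty {a | H.half a (Ioi 0) ⊆ O} with e | ⟨a, ha⟩
  · simpa [part, e] using h0
  have key : ∀ a, H.half a (Ioi 0) ⊆ O → ∃ z ∈ D.φ '' (H.U ∩ O), z ∈ range (D.cap a) := fun a ha =>
    ⟨_, ⟨_, ⟨H.mem a _ _ one_pos, ha (H.mem_half.2 ⟨_, _, mem_Ioi.2 one_pos, rfl⟩)⟩,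
      D.eq a (Classical.arbitrary _) 1 one_pos⟩, _, rfl⟩
  obtain ⟨z₀, hz₀, -⟩ := key a ha
  refine isPreconnected_of_forall z₀ ?_
  rintro z (k | k)
  · exact ⟨_, subset_union_left, hz₀, k, h0⟩
  · obtain ⟨a', ha', k⟩ := mem_iUnion₂.1 k
    obtain ⟨z₁, k1, k2⟩ := key a' ha'
    exact ⟨_, union_subset_union_right _ (subset_biUnion_of_mem (u := fun a => range (D.cap a)) ha'),
      .inl hz₀, .inr k, h0.union z₁ k1 k2 (isPreconnected_range (D.oe a').continuous)⟩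

/-- LOCAL maps out of a capped region -/
theorem exists_pd [Nonempty X.M] {V : Set X.M} (hV : IsOpen V) (hU : V ⊆ H.U) {J : Set β}
    (hJ : ∀ a ∈ J, ∃ ε > 0, H.half a (Ioo 0 ε) ⊆ V) {g0 : X.M → N} {g : ∀ a, (C a).P.M → N}
    (l0 : ∀ x ∈ V, IsLocalDiffeomorphAt X.I IN ∞ g0 x) (i0 : InjOn g0 V)
    (l1 : ∀ a ∈ J, ∀ z ∉ range (C a).c, IsLocalDiffeomorphAt (C a).P.I IN ∞ (g a) z)
    (i1 : ∀ a ∈ J, InjOn (g a) (range (C a).c)ᶜ)
    (hc : ∀ a ∈ J, ∀ y r, 0 < r → H.n a (y, sg (H.b a) * r) ∈ V →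
      g a ((C a).c (y, Real.log r)) = g0 (H.n a (y, sg (H.b a) * r)))
    (h1 : ∀ a ∈ J, ∀ z ∉ range (C a).c, ∀ x ∈ V, g0 x ≠ g a z)
    (h2 : ∀ a ∈ J, ∀ a' ∈ J, ∀ z ∉ range (C a).c, ∀ w ∉ range (C a').c, g a z = g a' w → a = a') :
    ∃ Ψ : PartialDiffeomorph Z.I IN Z.M N ∞, Ψ.source = D.ext V J ∧
      Ψ.target = g0 '' V ∪ ⋃ a ∈ J, g a '' (range (C a).c)ᶜ ∧ (∀ x ∈ V, Ψ (D.φ x) = g0 x) ∧
      ∀ a ∈ J, ∀ z, D.cap a z ∈ D.ext V J → Ψ (D.cap a z) = g a z := by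
  classical
  have : Nonempty Z.M := ⟨D.φ (Classical.arbitrary _)⟩
  let F : Z.M → N := fun z => if z ∈ D.φ.target then g0 (D.φ.symm z) else D.lift g0 g z
  have F0 : ∀ x ∈ H.U, F (D.φ x) = g0 x := fun x hx => by
    simp only [F, if_pos (D.φ.map_source (D.mem_src hx)), D.symm_φ hx]
  have F1 : ∀ a, ∀ z ∉ range (C a).c, F (D.cap a z) = g a z := fun a z hz =>
    (if_neg fun k => by
      obtain ⟨x, hx, e⟩ := D.mem_tgt.1 k
      exact D.ne_cap hx hz e).trans (D.lift_cap g0 g a z)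
  have F2 : ∀ a ∈ J, ∀ z, D.cap a z ∈ D.ext V J → F (D.cap a z) = g a z := fun a ha z hz => by
    by_cases e : z ∈ range (C a).c
    · obtain ⟨p, rfl⟩ := e
      have k := H.mem a p.1 _ (Real.exp_pos p.2)
      rw [D.eq'] at hz ⊢
      rw [F0 _ k, ← hc a ha _ _ (Real.exp_pos _) ((D.φ_mem_ext hU k).1 hz), Real.log_exp]
    · exact F1 a z e
  have ho := D.isOpen_ext hV hU hJ
  refine ⟨pdS (f := F) ho ?_ ?_, rfl, Subset.antisymm ?_ ?_, fun x hx => F0 x (hU hx), F2⟩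
  · rintro z (⟨x, hx, rfl⟩ | k)
    · refine ld_of_comp (D.ld (hU hx)) (ld_congr (l0 x hx) ?_)
      filter_upwards [H.U.2.mem_nhds (hU hx)] with y hy using F0 y hy
    · obtain ⟨a, ha, w, hw, rfl⟩ := mem_iUnion₂.1 k
      refine ld_of_comp ((D.oe a).loc w) (ld_congr (l1 a ha w hw) ?_)
      filter_upwards [(ho.preimage (D.oe a).continuous).mem_nhds (.inr k)] with y hy using F2 a ha y hy
  · rintro z (⟨x, hx, rfl⟩ | k) z' (⟨x', hx', rfl⟩ | k') e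
    · rw [F0 x (hU hx), F0 x' (hU hx')] at e
      rw [i0 hx hx' e]
    · obtain ⟨a, ha, w, hw, rfl⟩ := mem_iUnion₂.1 k'
      rw [F0 x (hU hx), F1 a w hw] at e
      exact (h1 a ha w hw x hx e).elim
    · obtain ⟨a, ha, w, hw, rfl⟩ := mem_iUnion₂.1 k
      rw [F0 x' (hU hx'), F1 a w hw] at e
      exact (h1 a ha w hw x' hx' e.symm).elim
    · obtain ⟨a, ha, w, hw, rfl⟩ := mem_iUnion₂.1 k
      obtain ⟨a', ha', w', hw', rfl⟩ := mem_iUnion₂.1 k'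
      rw [F1 a w hw, F1 a' w' hw'] at e
      obtain rfl := h2 a ha a' ha' w hw w' hw' e
      rw [i1 a ha hw hw' e]
  · rintro _ ⟨z, ⟨x, hx, rfl⟩ | k, rfl⟩
    · exact .inl ⟨x, hx, (F0 x (hU hx)).symm⟩
    · obtain ⟨a, ha, w, hw, rfl⟩ := mem_iUnion₂.1 k
      exact .inr (mem_iUnion₂.2 ⟨a, ha, w, hw, (F1 a w hw).symm⟩)
  · rintro _ (⟨x, hx, rfl⟩ | k)
    · exact ⟨_, .inl ⟨x, hx, rfl⟩, F0 x (hU hx)⟩
    · obtain ⟨a, ha, w, hw, rfl⟩ := mem_iUnion₂.1 k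
      exact ⟨_, .inr (mem_iUnion₂.2 ⟨a, ha, w, hw, rfl⟩), F1 a w hw⟩

end Capd

end Crest.Agent.X212.Cyl58
end
end

-- ▼ part X212/Cyl58/Cps

/-!
# X212/Cyl58/Cps: the capped manifolds of a mark

`caps : CapsStmt`; `capsD C c` : every `Caps` is a `Capd`; pieces `C.pc c π` (clopen, partition,
connected, compact); ends; the transfer maps `tr`.
-/

set_option autoImplicit false
set_option linter.unusedSectionVars false
noncomputable section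
open Set Filter Topology Function Metric TopologicalSpace
open scoped ContDiff Manifold

namespace Crest.Agent.X212.Cyl58

open Glue52 M Cyf70 An

section Rnd

variable {Y : Mf 3} {κ : Type} [Fintype κ] {F : Fr Y.I Y.M κ} {θ : Y.M → V4} (h : Round F θ)
include h

theorem rnd_norm (y : Y.M) {r : ℝ} (hr : 0 ≤ r) : ‖r • θ y‖ = r := by
  rw [norm_smul, h.nrm, mul_one, Real.norm_of_nonneg hr]

theorem rnd_ne (y : Y.M) {r : ℝ} (hr : 0 < r) : r • θ y ≠ 0 :=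
  norm_pos_iff.1 (by rwa [rnd_norm h y hr.le])

theorem rnd_exists {v : V4} (hv : v ≠ 0) : ∃ y, ‖v‖ • θ y = v := by
  have h0 := norm_ne_zero_iff.2 hv
  obtain ⟨y, hy⟩ := h.surj (‖v‖⁻¹ • v) (by rw [norm_smul, norm_inv, norm_norm, inv_mul_cancel₀ h0])
  exact ⟨y, by rw [hy, smul_inv_smul₀ h0]⟩

theorem rnd_image (s : Set ℝ) : (fun p : Y.M × ℝ => Real.exp p.2 • θ p.1) '' (univ ×ˢ s) =
    {x | ‖x‖ ∈ Real.exp '' s} := by
  refine Subset.antisymm ?_ ?_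
  · rintro _ ⟨p, hp, rfl⟩
    exact ⟨p.2, hp.2, (rnd_norm h _ (Real.exp_pos _).le).symm⟩
  · rintro x ⟨t, ht, e⟩
    obtain ⟨y, hy⟩ := rnd_exists h (v := x) (norm_pos_iff.1 (e ▸ Real.exp_pos t))
    exact ⟨(y, t), ⟨trivial, ht⟩, by rw [← hy, ← e]⟩

theorem rnd_inj : Injective θ := fun y y' e =>
  congrArg Prod.fst (h.oe.inj (a₁ := (y, 0)) (a₂ := (y', 0)) (congrArg (Real.exp 0 • ·) e))

/-- the ball as a cap of a round cross-section -/
def rndCap : Cap V4 Y.pc where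
  P := Pc.of 𝓘(ℝ, V4) V4 (ContinuousLinearEquiv.refl ℝ V4)
  c p := Real.exp p.2 • θ p.1
  isEnd := ⟨h.oe, by
    rw [rnd_image h, Real.image_exp_Ici]
    exact isClosed_Ici.preimage continuous_norm⟩
  cpt := by
    rw [rnd_image h, Real.image_exp_Ioi]
    exact (isCompact_closedBall (0 : V4) (Real.exp 0)).of_isClosed_subset
      (isOpen_Ioi.preimage continuous_norm).isClosed_compl fun x hx => by simpa using hx

theorem rndCap_log (y : Y.M) {r : ℝ} (hr : 0 < r) : (rndCap h).c (y, Real.log r) = r • θ y :=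
  congrArg (· • θ y) (Real.exp_log hr)

theorem rndCap_range {z : V4} : z ∉ range (rndCap h).c ↔ z = 0 := by
  refine ⟨fun k => by_contra fun e => ?_, ?_⟩
  · obtain ⟨y, hy⟩ := rnd_exists h e
    exact k ⟨_, (rndCap_log h y (norm_pos_iff.2 e)).trans hy⟩
  · rintro rfl ⟨p, e⟩
    exact rnd_ne h p.1 (Real.exp_pos _) e

theorem rndCap_compl : (range (rndCap h).c)ᶜ = {(0 : V4)} := Set.ext fun _ => rndCap_range h

theorem rndCap_low {T : ℝ} {z : V4} : z ∈ (rndCap h).low T ↔ ‖z‖ ≤ Real.exp T := by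
  by_cases e : z = 0
  · exact iff_of_true ((rndCap h).mem_low T ((rndCap_range h).2 e)) (by simp [e, Real.exp_nonneg])
  · obtain ⟨y, hy⟩ := rnd_exists h e
    have h0 := norm_pos_iff.2 e
    rw [← Real.log_le_iff_le_exp h0, ← (rndCap h).c_mem_low (p := (y, Real.log ‖z‖)),
      rndCap_log h y h0, hy]
    exact Iff.rfl

instance : PreconnectedSpace (rndCap h).P.M := inferInstanceAs (PreconnectedSpace V4)

end Rnd

variable {X X' : Mf 4} {A A' A₀ κ : Type} [Fintype A] [Fintype A'] [Fintype A₀] [Fintype κ]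

section HB

variable (M : Mark X A κ) (c : M.Cl)

/-- the capped half bands of a cell -/
abbrev PB : Type := {p : A × Bool // p.1 ∈ c.1 ∧ M.pin p.1}

variable {M c}

theorem mem_cores {σ : Set A} {x : X.M} :
    x ∈ M.sys.cores σ ↔ ∃ a ∈ σ, ∃ y, (M.bn a).j (y, 0) = x := by
  simp only [Sys.cores, mem_iUnion, exists_prop]
  exact exists_congr fun a => and_congr_right fun _ => (M.bn a).mem_core

theorem band_eq {a a' : A} (ha : a ∈ c.1) (ha' : a' ∈ c.1) {p q} (e : (M.bn a).j p = (M.bn a').j q) :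
    a = a' := by_contra fun k => disjoint_left.1 (c.2 ha ha' k) ⟨p, rfl⟩ ⟨q, e.symm⟩

theorem j_mem_cores {a : A} (ha : a ∈ c.1) {p} : (M.bn a).j p ∈ M.sys.cores c.1 ↔ p.2 = 0 := by
  refine mem_cores.trans ⟨fun ⟨a', ha', y, e⟩ => ?_, fun e => ⟨a, ha, p.1, by rw [← e]⟩⟩
  obtain rfl := band_eq ha' ha e
  exact (congrArg Prod.snd ((M.bn a').oe.inj e)).symm

theorem j_not_mem_cores {a : A} (ha : a ∈ M.sys.fr c.1) (p) : (M.bn a).j p ∉ M.sys.cores c.1 := fun k => by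
  obtain ⟨a', ha', y, e⟩ := mem_cores.1 k
  exact disjoint_left.1 (ha.2 a' ha') ⟨p, rfl⟩ ⟨_, e⟩

theorem half_not_mem {a : A} (ha : a ∈ c.1) (b : Bool) (y) {r : ℝ} (hr : 0 < r) :
    (M.bn a).j (y, pm b * r) ∉ M.sys.cores c.1 := fun k =>
  mul_ne_zero (sg_ne b) hr.ne' ((j_mem_cores ha).1 k)

variable (M c)

/-- the complement of the cores with its half bands -/
def mkHB : HB (EuclideanSpace ℝ (Fin 3)) X.pc (PB M c) where
  U := ⟨(M.sys.cores c.1)ᶜ, (M.sys.isClosed_cores _).isOpen_compl⟩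
  Y p := (M.bn p.1.1).Y.pc
  n p := (M.bn p.1.1).j
  oe p := (M.bn p.1.1).oe
  b p := p.1.2
  mem p y _ hr := half_not_mem p.2.1 p.1.2 y hr
  out p _ k := k ((j_mem_cores p.2.1).2 rfl)
  disj := by
    rintro ⟨⟨a, b⟩, h⟩ ⟨⟨a', b'⟩, h'⟩ y y' r r' hr hr' e
    obtain rfl : a = a' := band_eq h.1 h'.1 e
    have := hx_inj (b := b) (b' := b') (t := -Real.log r) (t' := -Real.log r') (by
      rw [hx_log _ hr, hx_log _ hr']; exact congrArg Prod.snd ((M.bn a).oe.inj e))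
    subst this
    rfl

/-- the balls -/
def mkCap (p : PB M c) : Cap V4 ((mkHB M c).Y p) := rndCap (M.rnd p.1.1 p.2.2)

instance (p : PB M c) : Nonempty ((mkHB M c).Y p).M := inferInstanceAs (Nonempty (M.bn p.1.1).Y.M)

instance (p : PB M c) : PreconnectedSpace ((mkHB M c).Y p).M :=
  inferInstanceAs (PreconnectedSpace (M.bn p.1.1).Y.M)

instance (p : PB M c) : PreconnectedSpace (mkCap M c p).P.M := inferInstanceAs (PreconnectedSpace V4)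

theorem nonempty_U : (M.sys.cores c.1)ᶜ.Nonempty := by
  have := M.con
  rcases eq_empty_or_nonempty c.1 with e | ⟨a, ha⟩
  · exact ⟨Classical.arbitrary _, by simp [e, Sys.cores]⟩
  · exact ⟨_, half_not_mem ha true (Classical.arbitrary _) one_pos⟩

theorem mkHB_half (p : PB M c) : (mkHB M c).half p (Ioi 0) = (M.sys.w p.1.1).half p.1.2 := by
  ext x
  rw [HB.mem_half]
  exact ((M.bn p.1.1).mem_half.trans (by simp only [mem_Ioi]; rfl)).symm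

end HB

/-- CAPS -/
theorem caps : CapsStmt := fun X A κ _ _ M => by
  classical
  have ex : ∀ c : M.Cl, ∃ (Z : Mf 4) (D : Capd (mkHB M c) (mkCap M c) Z.pc) (o : Z.M → _),
      Int54.Ori Z.I o ∧ Orx52.Pos X.I Z.I D.φ (mkHB M c).U M.o o := fun c => by
    have : Nonempty (mkHB M c).U := (nonempty_U M c).to_subtype
    let D := (mkHB M c).capd (mkCap M c)
    obtain ⟨o, h1, -, h2⟩ := Orx52.capd_ori D (Orx52.oriOn M.ori _) fun _ => ⟨_, Orx52.ori_model⟩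
    exact ⟨pcMf ((mkHB M c).Z (mkCap M c)), ⟨D.φ, D.cap, D.oe, D.src, D.tgt, D.eq, D.disj⟩, o, h1, h2⟩
  choose Z D o h1 h2 using ex
  have := M.con
  let β : ∀ c, A → Bool → V4 → (Z c).M := fun c a b =>
    if h : a ∈ c.1 ∧ M.pin a then (D c).cap ⟨(a, b), h⟩ else fun _ => (D c).φ (Classical.arbitrary _)
  have hβ : ∀ c a b (h : a ∈ c.1 ∧ M.pin a), β c a b = (D c).cap ⟨(a, b), h⟩ := fun c a b h => dif_pos h
  refine ⟨⟨Z, fun c => (D c).φ, β, o, h1, fun c => (D c).src, fun c => (D c).tgt.trans ?_,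
    fun c a ha hp b => hβ c a b ⟨ha, hp⟩ ▸ (D c).oe _, fun c a ha hp b y r hr => ?_,
    fun c => (D c).src ▸ Orx52.same_symm (h2 c)⟩⟩
  · ext z
    simp only [mem_compl_iff, mem_iUnion, not_exists, mem_ofPred_eq]
    refine ⟨fun h a ha hp b e => h ⟨(a, b), ha, hp⟩ ⟨(0 : V4), (rndCap_range (M.rnd a hp)).2 rfl,
      by rw [e, hβ c a b ⟨ha, hp⟩]⟩, fun h p ⟨w, hw, e⟩ => h _ p.2.1 p.2.2 p.1.2 ?_⟩
    rw [hβ c _ _ p.2, ← e, (rndCap_range (M.rnd _ p.2.2)).1 hw]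
  · rw [hβ c a b ⟨ha, hp⟩, ← rndCap_log (M.rnd a hp) y hr]
    exact ((D c).eq ⟨(a, b), ha, hp⟩ y r hr).symm

variable {M : Mark X A κ} {M' : Mark X' A' κ} (C : Caps M) (c : M.Cl)

theorem caps_disj0 {p q : PB M c} {z w : V4} (hz : z ≠ 0)
    (e : C.β c p.1.1 p.1.2 z = C.β c q.1.1 q.1.2 w) : p = q := by
  obtain ⟨y, hy⟩ := rnd_exists (M.rnd _ p.2.2) hz
  have h0 := norm_pos_iff.2 hz
  have k : (M.bn p.1.1).j (y, pm p.1.2 * ‖z‖) ∈ (C.φ c).source := C.src c ▸ half_not_mem p.2.1 _ y h0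
  rw [← hy, C.βφ c _ p.2.1 p.2.2 _ y _ h0] at e
  by_cases hw : w = 0
  · exact ((C.tgt c).subset ((C.φ c).map_source k) _ q.2.1 q.2.2 _ (hw ▸ e)).elim
  obtain ⟨y', hy'⟩ := rnd_exists (M.rnd _ q.2.2) hw
  have h0' := norm_pos_iff.2 hw
  rw [← hy', C.βφ c _ q.2.1 q.2.2 _ y' _ h0'] at e
  exact (mkHB M c).disj p q y y' _ _ h0 h0'
    ((C.φ c).injOn k (C.src c ▸ half_not_mem q.2.1 _ y' h0') e)

/-- every `Caps` consists of capped regions -/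
def capsD : Capd (mkHB M c) (mkCap M c) (C.Z c).pc where
  φ := C.φ c
  cap p := C.β c p.1.1 p.1.2
  oe p := C.βoe c _ p.2.1 p.2.2 _
  src := C.src c
  tgt := (C.tgt c).trans (by
    ext z
    simp only [mem_compl_iff, mem_iUnion, not_exists, mem_ofPred_eq]
    exact ⟨fun h p ⟨w, hw, e⟩ => h _ p.2.1 p.2.2 p.1.2 (by
      rw [← e, (rndCap_range (M.rnd _ p.2.2)).1 hw]), fun h a ha hp b e =>
        h ⟨(a, b), ha, hp⟩ ⟨(0 : V4), (rndCap_range (M.rnd a hp)).2 rfl, e.symm⟩⟩)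
  eq p y r hr := (C.βφ c _ p.2.1 p.2.2 _ y r hr).symm.trans
    (congrArg _ (rndCap_log (M.rnd _ p.2.2) y hr).symm)
  disj p q z w e := by
    by_cases hz : z = (0 : V4)
    · have h1 : ∀ᶠ v in 𝓝[≠] (0 : V4), C.β c p.1.1 p.1.2 v ∈ range (C.β c q.1.1 q.1.2) :=
        mem_nhdsWithin_of_mem_nhds ((C.βoe c _ p.2.1 p.2.2 _).continuous.continuousAt.preimage_mem_nhds
          ((C.βoe c _ q.2.1 q.2.2 _).isOpen_range.mem_nhds ⟨w, hz ▸ e.symm⟩))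
      obtain ⟨v, ⟨u, h2⟩, h3⟩ := (h1.and self_mem_nhdsWithin).exists
      exact caps_disj0 C c h3 h2.symm
    · exact caps_disj0 C c hz e

variable {c}

theorem caps_inj {x y : X.M} (hx : x ∉ M.sys.cores c.1) (hy : y ∉ M.sys.cores c.1)
    (e : C.φ c x = C.φ c y) : x = y := (capsD C c).inj hx hy e

theorem caps_ld {x : X.M} (hx : x ∉ M.sys.cores c.1) :
    IsLocalDiffeomorphAt X.I (C.Z c).I ∞ (C.φ c) x := (capsD C c).ld hx

theorem caps_ne {x : X.M} (hx : x ∉ M.sys.cores c.1) {a : A} (ha : a ∈ c.1) (hp : M.pin a) (b : Bool) :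
    C.φ c x ≠ C.β c a b 0 := (C.tgt c).subset ((C.φ c).map_source (C.src c ▸ hx)) a ha hp b

theorem caps_disj {a a' : A} (ha : a ∈ c.1) (hp : M.pin a) (ha' : a' ∈ c.1) (hp' : M.pin a')
    {b b' : Bool} {z w : V4} (e : C.β c a b z = C.β c a' b' w) : a = a' ∧ b = b' :=
  Prod.mk.inj (congrArg Subtype.val ((capsD C c).disj ⟨(a, b), ha, hp⟩ ⟨(a', b'), ha', hp'⟩ z w e))

theorem caps_surj (z : (C.Z c).M) : (∃ x ∉ M.sys.cores c.1, C.φ c x = z) ∨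
    ∃ a ∈ c.1, M.pin a ∧ ∃ b, C.β c a b 0 = z :=
  ((capsD C c).surj z).imp_right fun ⟨p, _, hw, e⟩ =>
    ⟨_, p.2.1, p.2.2, _, (rndCap_range (M.rnd _ p.2.2)).1 hw ▸ e⟩

/-- `V` together with the centres in `J` -/
def cext (c : M.Cl) (V : Set X.M) (J : Set (A × Bool)) : Set (C.Z c).M :=
  C.φ c '' V ∪ {z | ∃ p ∈ J, z = C.β c p.1 p.2 0}

theorem cext_eq (V : Set X.M) {J : Set (A × Bool)} (hJ : ∀ p ∈ J, p.1 ∈ c.1 ∧ M.pin p.1) :
    cext C c V J = (capsD C c).ext V (Subtype.val ⁻¹' J) := by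
  refine congrArg (C.φ c '' V ∪ ·) (Set.ext fun z => ⟨fun ⟨p, hp, e⟩ => mem_iUnion₂.2
    ⟨⟨p, hJ p hp⟩, hp, (0 : V4), (rndCap_range (M.rnd _ (hJ p hp).2)).2 rfl, e.symm⟩, fun k => ?_⟩)
  obtain ⟨p, hp, w, hw, e⟩ := mem_iUnion₂.1 k
  exact ⟨p.1, hp, by rw [← e, (rndCap_range (M.rnd _ p.2.2)).1 hw]; rfl⟩

/-! ### pieces -/

section Piece

variable {π π' : Reg A}

theorem U_sub (h : M.sys.Piece c.1 π) : M.sys.U π ⊆ (mkHB M c).U :=
  have := M.con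
  (h.disjoint_cores c.2).subset_compl_right

theorem pc_eq (h : M.sys.Piece c.1 π) :
    C.pc c π = (capsD C c).ext (M.sys.U π) {p | π p.1.1 = some p.1.2} := by
  rw [show {p : PB M c | π p.1.1 = some p.1.2} =
    Subtype.val ⁻¹' {p : A × Bool | M.pin p.1 ∧ π p.1 = some p.2} from Set.ext fun p => by simp [p.2.2],
    ← cext_eq C _ fun p hp => ⟨h.bd_subset (Sys.mem_bd_of hp.2), hp.1⟩]
  exact congrArg (C.φ c '' M.sys.U π ∪ ·) (Set.ext fun z =>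
    ⟨fun ⟨a, b, h1, h2, h3⟩ => ⟨(a, b), ⟨h1, h2⟩, h3⟩, fun ⟨p, h1, h2⟩ => ⟨_, _, h1.1, h1.2, h2⟩⟩)

theorem half_sub (h : M.sys.Piece c.1 π) {p : PB M c} :
    (mkHB M c).half p (Ioi 0) ⊆ M.sys.U π ↔ π p.1.1 = some p.1.2 := by
  have := M.con
  rw [mkHB_half]
  refine ⟨fun k => ?_, h.adj _ _⟩
  obtain ⟨x, hx⟩ := (M.sys.w p.1.1).ne p.1.2
  exact h.eq_some c.2 p.2.1 (k hx) hx

theorem pc_eq_part (h : M.sys.Piece c.1 π) : C.pc c π = (capsD C c).part (M.sys.U π) := by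
  have := M.con
  rw [(capsD C c).ext_eq_part fun p => ?_, pc_eq C h, inter_eq_right.2 (U_sub h)]
  · simp only [half_sub h]
  · refine or_iff_not_imp_left.2 fun k => disjoint_left.2 fun x hx hx' => k ((half_sub h).2 ?_)
    exact h.eq_some c.2 p.2.1 hx' (mkHB_half M c p ▸ hx)

theorem φ_mem_pc (h : M.sys.Piece c.1 π) {x : X.M} (hx : x ∉ M.sys.cores c.1) :
    C.φ c x ∈ C.pc c π ↔ x ∈ M.sys.U π := pc_eq_part C h ▸ (capsD C c).φ_mem_part hx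

theorem β_mem_pc (h : M.sys.Piece c.1 π) {a : A} (ha : a ∈ c.1) (hp : M.pin a) {b : Bool} (z : V4) :
    C.β c a b z ∈ C.pc c π ↔ π a = some b := by
  have := M.con
  refine ⟨fun k => ?_, fun k => pc_eq_part C h ▸
    (capsD C c).cap_mem_part (a := ⟨(a, b), ha, hp⟩) ((half_sub h).2 k) z⟩
  by_contra e
  refine (capsD C c).cap_not_mem_part (a := ⟨(a, b), ha, hp⟩) (disjoint_left.2 fun x hx hx' => e ?_) z
    (pc_eq_part C h ▸ k)
  exact h.eq_some c.2 ha hx' (mkHB_half M c ⟨(a, b), ha, hp⟩ ▸ hx)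

theorem isOpen_pc (h : M.sys.Piece c.1 π) : IsOpen (C.pc c π) :=
  pc_eq_part C h ▸ (capsD C c).isOpen_part (M.sys.isOpen_U π)

theorem exists_pc (z : (C.Z c).M) : ∃ π, M.sys.Piece c.1 π ∧ z ∈ C.pc c π := by
  have := M.con
  rcases caps_surj C z with ⟨x, hx, rfl⟩ | ⟨a, ha, hp, b, rfl⟩
  · obtain ⟨π, h1, h2⟩ := Sys.exists_piece c.2 hx
    exact ⟨π, h1, (φ_mem_pc C h1 hx).2 h2⟩
  · obtain ⟨π, h1, h2⟩ := (Sys.existsUnique_adj c.2 ha b).exists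
    exact ⟨π, h1, (β_mem_pc C h1 ha hp 0).2 h2⟩

theorem pc_unique (h : M.sys.Piece c.1 π) (h' : M.sys.Piece c.1 π') {z : (C.Z c).M}
    (hz : z ∈ C.pc c π) (hz' : z ∈ C.pc c π') : π = π' := by
  have := M.con
  rcases caps_surj C z with ⟨x, hx, rfl⟩ | ⟨a, ha, hp, b, rfl⟩
  · exact h.unique c.2 h' ((φ_mem_pc C h hx).1 hz) ((φ_mem_pc C h' hx).1 hz')
  · exact (Sys.existsUnique_adj c.2 ha b).unique ⟨h, (β_mem_pc C h ha hp 0).1 hz⟩
      ⟨h', (β_mem_pc C h' ha hp 0).1 hz'⟩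

theorem disjoint_pc (h : M.sys.Piece c.1 π) (h' : M.sys.Piece c.1 π') (e : π ≠ π') :
    Disjoint (C.pc c π) (C.pc c π') := disjoint_left.2 fun _ hz hz' => e (pc_unique C h h' hz hz')

theorem isClopen_pc (h : M.sys.Piece c.1 π) : IsClopen (C.pc c π) := by
  refine ⟨isOpen_compl_iff.1 (isOpen_iff_mem_nhds.2 fun z hz => ?_), isOpen_pc C h⟩
  obtain ⟨π', h1, h2⟩ := exists_pc C z
  exact mem_of_superset ((isOpen_pc C h1).mem_nhds h2) fun w hw k => hz (pc_unique C h1 h hw k ▸ h2)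

theorem isConnected_pc (h : M.sys.Piece c.1 π) : IsConnected (C.pc c π) := by
  have := M.con
  refine ⟨h.toIsReg.nonempty.elim fun x hx => ⟨_, .inl ⟨x, hx, rfl⟩⟩, pc_eq_part C h ▸
    (capsD C c).isPreconnected_part ?_⟩
  rw [inter_eq_right.2 (U_sub h)]
  exact h.toIsReg.conn

end Piece

/-! ### ends and compact parts -/

/-- the thin parts of the cylindrical ends -/
def thin (c : M.Cl) (ε : ℝ) : Set (C.Z c).M :=
  C.φ c '' ⋃ a ∈ {a | a ∈ c.1 ∧ ¬M.pin a}, (M.bn a).slab {s | s ≠ 0 ∧ |s| < ε}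

theorem slab_sub {a : A} (ha : a ∈ c.1) {S : Set ℝ} (hS : (0 : ℝ) ∉ S) :
    (M.bn a).slab S ⊆ (M.sys.cores c.1)ᶜ := by
  rintro _ ⟨p, hp, rfl⟩ k
  exact hS ((j_mem_cores ha).1 k ▸ hp.2)

theorem isOpen_thin (ε : ℝ) : IsOpen (thin C c ε) :=
  (capsD C c).isOpen_image (isOpen_biUnion fun a _ => (M.bn a).isOpen_slab
    (isOpen_ne.inter (isOpen_lt continuous_abs continuous_const)))
    (iUnion₂_subset fun _ ha => slab_sub ha.1 fun k => k.1 rfl)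

theorem φ_mem_thin {ε : ℝ} {x : X.M} (hx : x ∉ M.sys.cores c.1) : C.φ c x ∈ thin C c ε ↔
    ∃ a ∈ c.1, ¬M.pin a ∧ ∃ p, |p.2| < ε ∧ (M.bn a).j p = x := by
  refine ⟨fun ⟨y, hy, e⟩ => ?_, fun ⟨a, ha, hp, p, h1, h2⟩ => ⟨x, mem_iUnion₂.2 ⟨a, ⟨ha, hp⟩, p,
    ⟨trivial, fun e => hx (h2 ▸ (j_mem_cores ha).2 e), h1⟩, h2⟩, rfl⟩⟩
  obtain ⟨a, ha, p, hp, rfl⟩ := mem_iUnion₂.1 hy
  exact ⟨a, ha.1, ha.2, p, hp.2.2,
    caps_inj C (slab_sub ha.1 (fun k => k.1 rfl) ⟨p, hp, rfl⟩) hx e⟩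

/-- the complement of the thin ends is compact -/
theorem isCompact_thick {ε : ℝ} (hε : 0 < ε) : IsCompact (thin C c ε)ᶜ := by
  have := M.cpt
  refine (capsD C c).isCompact_of (isOpen_thin C ε).isClosed_compl
    (K := (⋃ a ∈ c.1, (M.bn a).slab (Ioo (-min ε 1) (min ε 1)))ᶜ)
    (isOpen_biUnion fun a _ => (M.bn a).isOpen_slab isOpen_Ioo).isClosed_compl.isCompact
    (fun x hx k => ?_) fun x hx h1 h2 k => ?_
  · obtain ⟨a, ha, y, rfl⟩ := mem_cores.1 k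
    have : 0 < min ε 1 := lt_min hε one_pos
    exact hx (mem_iUnion₂.2 ⟨a, ha, (M.bn a).j_mem_slab.2 ⟨neg_lt_zero.2 this, this⟩⟩)
  · obtain ⟨a, ha, ⟨y, s⟩, hp, rfl⟩ := mem_iUnion₂.1 k
    have h3 : |s| < min ε 1 := abs_lt.2 hp.2
    by_cases e : M.pin a
    · have h4 : s ≠ 0 := fun e => hx ((j_mem_cores ha).2 e)
      obtain ⟨b, hb⟩ := exists_sg h4
      exact h2 ⟨(a, b), ha, e⟩ ((mkHB M c).mem_half.2 ⟨y, |s|,
        ⟨abs_pos.2 h4, h3.trans_le (min_le_right _ _)⟩, congrArg (fun t => (M.bn a).j (y, t)) hb.symm⟩)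
    · exact h1 ((φ_mem_thin C hx).2 ⟨a, ha, e, _, h3.trans_le (min_le_left _ _), rfl⟩)

theorem caps_compact (h : ∀ a ∈ c.1, M.pin a) : CompactSpace (C.Z c).M :=
  ⟨by simpa [thin, show {a | a ∈ c.1 ∧ ¬M.pin a} = ∅ from
    eq_empty_of_forall_notMem fun a ha => ha.2 (h a ha.1)] using isCompact_thick C (c := c) one_pos⟩

/-- a piece all of whose boundary walls are pinched is compact -/
theorem isCompact_pc {π : Reg A} (h : M.sys.Piece c.1 π) (hp : ∀ a ∈ Sys.bd π, M.pin a) :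
    IsCompact (C.pc c π) := by
  have := M.con
  refine (isCompact_thick C one_pos).of_isClosed_subset (isClopen_pc C h).1 ?_
  rintro _ hz ⟨x, hx, rfl⟩
  obtain ⟨a, ha, ⟨y, s⟩, k, rfl⟩ := mem_iUnion₂.1 hx
  obtain ⟨b, hb⟩ := exists_sg k.2.1
  exact ha.2 (hp a (Sys.mem_bd_of (h.eq_some c.2 ha.1 ((φ_mem_pc C h (slab_sub ha.1
    (fun k => k.1 rfl) ⟨_, k, rfl⟩)).1 hz) ((M.bn a).mem_half.2 ⟨y, |s|, abs_pos.2 k.2.1,
      congrArg (fun t => (M.bn a).j (y, t)) hb.symm⟩))))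

/-- closed slabs of bands that are not pinched in `c` have closed images -/
theorem isClosed_slab {a : A} (ha : a ∈ c.1 ∧ ¬M.pin a ∨ a ∈ M.sys.fr c.1) {S : Set ℝ}
    (hS : IsCompact S) : IsClosed (C.φ c '' ((M.sys.cores c.1)ᶜ ∩ (M.bn a).slab S)) := by
  have := (capsD C c).isClosed_ext (J := ∅) ((M.bn a).isCompact_slab hS).isClosed fun p _ =>
    ⟨1, one_pos, disjoint_left.2 fun x hx hx' => by
      obtain ⟨y, r, -, rfl⟩ := (mkHB M c).mem_half.1 hx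
      obtain ⟨q, -, e⟩ := hx'
      rcases ha with ha | ha
      · exact ha.2 (band_eq ha.1 p.2.1 e ▸ p.2.2)
      · exact disjoint_left.1 (ha.2 _ p.2.1) ⟨q, rfl⟩ ⟨_, e.symm⟩⟩
  simp only [Capd.ext, mem_empty_iff_false, iUnion_of_empty, iUnion_empty, union_empty] at this
  exact this

/-- the cylindrical ends -/
theorem isEnd_cyl {a : A} (ha : a ∈ c.1) (hp : ¬M.pin a) (b : Bool) {σ : ℝ → ℝ}
    (hσ : IsOE 𝓘(ℝ, ℝ) 𝓘(ℝ, ℝ) σ) (h0 : ∀ t, 0 < σ t) (h1 : σ '' Ici 0 = Ioc 0 (σ 0)) :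
    IsEnd (M.bn a).Y.I (C.Z c).I fun p => C.φ c ((M.bn a).j (p.1, pm b * σ p.2)) := by
  refine ⟨IsOE.of_pd (C.φ c) ((M.bn a).oe.comp (IsOE.id.prodMap ((isOE_sg b).comp hσ)))
    fun p => C.src c ▸ half_not_mem ha b p.1 (h0 _), ?_⟩
  convert isClosed_slab C (.inl ⟨ha, hp⟩) (S := (fun r => pm b * r) '' Icc 0 (σ 0))
    (isCompact_Icc.image (continuous_const.mul continuous_id)) using 1
  refine Subset.antisymm ?_ ?_
  · rintro _ ⟨p, k, rfl⟩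
    exact ⟨_, ⟨half_not_mem ha b p.1 (h0 _), (M.bn a).j_mem_slab.2
      ⟨_, Ioc_subset_Icc_self (h1.subset ⟨_, k.2, rfl⟩), rfl⟩⟩, rfl⟩
  · rintro _ ⟨_, ⟨k, ⟨y, _⟩, ⟨-, r, hr, rfl⟩, rfl⟩, rfl⟩
    obtain ⟨t, ht, rfl⟩ := h1.superset ⟨hr.1.lt_of_ne fun e =>
      k ((j_mem_cores ha).2 (by simp [← e])), hr.2⟩
    exact ⟨(y, t), ⟨trivial, ht⟩, rfl⟩

end Crest.Agent.X212.Cyl58
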