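import Crest.Agent.X212.Cyl58.ME

-- ▼ part X212/Cyl58/Ext
section

/-!
# X212/Cyl58/Ext: patching along an open embedding, stretching, height functions

`Function.extend f g h` is `g` read through `f` on the range of `f` and `h` elsewhere.  It is smooth
(a local diffeomorphism, an embedding) when `g = h ∘ f` off a set with closed image.
-/

set_option autoImplicit false
set_option linter.unusedSectionVars false
noncomputable section
open Set Filter Topology Function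
open scoped ContDiff Manifold

namespace Crest.Agent.X212.Cyl58

open Glue52

section Patch

variable {EA HA EB HB EC HC : Type*}
  [NormedAddCommGroup EA] [NormedSpace ℝ EA] [TopologicalSpace HA]
  [NormedAddCommGroup EB] [NormedSpace ℝ EB] [TopologicalSpace HB]
  [NormedAddCommGroup EC] [NormedSpace ℝ EC] [TopologicalSpace HC]
  {IA : ModelWithCorners ℝ EA HA} {IB : ModelWithCorners ℝ EB HB} {IC : ModelWithCorners ℝ EC HC}
  {A B C : Type*} [TopologicalSpace A] [ChartedSpace HA A] [TopologicalSpace B]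
  [ChartedSpace HB B] [TopologicalSpace C] [ChartedSpace HC C] {f : A → B}

theorem extend_eq_of_notMem {A B Z : Type*} {f : A → B} (hf : Injective f) {g : A → Z} {h : B → Z}
    {K : Set A} (hK : ∀ a ∉ K, g a = h (f a)) {x : B} (hx : x ∉ f '' K) : extend f g h x = h x := by
  by_cases hr : ∃ a, f a = x
  · obtain ⟨a, rfl⟩ := hr
    rw [hf.extend_apply, hK a fun ha => hx ⟨a, ha, rfl⟩]
  · exact extend_apply' _ _ _ hr

theorem extend_eventuallyEq {A B Z : Type*} [TopologicalSpace B] {f : A → B} (hf : Injective f)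
    {g : A → Z} {h : B → Z} {K : Set A} (hc : IsClosed (f '' K)) (hK : ∀ a ∉ K, g a = h (f a))
    {x : B} (hx : x ∉ f '' K) : extend f g h =ᶠ[𝓝 x] h := by
  filter_upwards [hc.isOpen_compl.mem_nhds hx] with y hy
  exact extend_eq_of_notMem hf hK hy

namespace IsOE

theorem extend_comp (hf : IsOE IA IB f) {Z : Type*} (g : A → Z) (h : B → Z) :
    extend f g h ∘ f = g := Function.extend_comp hf.inj g h

theorem extend_apply (hf : IsOE IA IB f) {Z : Type*} (g : A → Z) (h : B → Z) (a : A) :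
    extend f g h (f a) = g a := hf.inj.extend_apply g h a

/-- patching smooth maps; `h` has to be smooth off the range of `f` only -/
theorem contMDiff_extend' (hf : IsOE IA IB f) {g : A → C} {h : B → C} {K : Set A}
    (hc : IsClosed (f '' K)) (hK : ∀ a ∉ K, g a = h (f a)) (hg : ContMDiff IA IC ∞ g)
    (hh : ∀ x ∉ range f, ContMDiffAt IB IC ∞ h x) : ContMDiff IB IC ∞ (extend f g h) := by
  intro x
  by_cases hx : x ∈ range f
  · obtain ⟨a, rfl⟩ := hx
    refine hf.contMDiffAt_iff.1 ?_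
    rw [hf.extend_comp]; exact hg a
  · exact (hh x hx).congr_of_eventuallyEq
      (extend_eventuallyEq hf.inj hc hK fun h' => hx (image_subset_range _ _ h'))

theorem contMDiff_extend (hf : IsOE IA IB f) {g : A → C} {h : B → C} {K : Set A}
    (hc : IsClosed (f '' K)) (hK : ∀ a ∉ K, g a = h (f a)) (hg : ContMDiff IA IC ∞ g)
    (hh : ContMDiff IB IC ∞ h) : ContMDiff IB IC ∞ (extend f g h) :=
  hf.contMDiff_extend' hc hK hg fun x _ => hh x

theorem continuous_extend (hf : IsOE IA IB f) {Z : Type*} [TopologicalSpace Z] {g : A → Z}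
    {h : B → Z} {K : Set A} (hc : IsClosed (f '' K)) (hK : ∀ a ∉ K, g a = h (f a))
    (hg : Continuous g) (hh : Continuous h) : Continuous (extend f g h) := by
  rw [continuous_iff_continuousAt]
  intro x
  by_cases hx : x ∈ range f
  · obtain ⟨a, rfl⟩ := hx
    refine hf.isOpenEmbedding.continuousAt_iff.1 ?_
    rw [hf.extend_comp]; exact hg.continuousAt
  · exact hh.continuousAt.congr_of_eventuallyEq
      (extend_eventuallyEq hf.inj hc hK fun h' => hx (image_subset_range _ _ h'))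

theorem ld_extend (hf : IsOE IA IB f) {g : A → C} {h : B → C} {K : Set A}
    (hc : IsClosed (f '' K)) (hK : ∀ a ∉ K, g a = h (f a)) (hg : IsLocalDiffeomorph IA IC ∞ g)
    (hh : ∀ x ∉ range f, IsLocalDiffeomorphAt IB IC ∞ h x) :
    IsLocalDiffeomorph IB IC ∞ (extend f g h) := by
  intro x
  by_cases hx : x ∈ range f
  · obtain ⟨a, rfl⟩ := hx
    refine ld_of_comp (hf.loc a) ?_
    rw [hf.extend_comp]; exact hg a
  · exact ld_congr (hh x hx)
      (extend_eventuallyEq hf.inj hc hK fun h' => hx (image_subset_range _ _ h'))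

end IsOE

/-- the self-map of `B` that is `ψ` read through `f` and the identity elsewhere -/
def push {A B : Type*} (f : A → B) (ψ : A → A) : B → B := extend f (f ∘ ψ) id

theorem push_apply {A B : Type*} {f : A → B} (hf : Injective f) (ψ : A → A) (a : A) :
    push f ψ (f a) = f (ψ a) := hf.extend_apply _ _ a

theorem push_of_notMem {A B : Type*} {f : A → B} (ψ : A → A) {x : B} (hx : x ∉ range f) :
    push f ψ x = x := extend_apply' _ _ _ hx

theorem push_push {A B : Type*} {f : A → B} (hf : Injective f) (ψ φ : A → A) (x : B) :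
    push f ψ (push f φ x) = push f (ψ ∘ φ) x := by
  by_cases hx : x ∈ range f
  · obtain ⟨a, rfl⟩ := hx
    simp only [push_apply hf, comp_apply]
  · simp only [push_of_notMem _ hx]

theorem push_id {A B : Type*} {f : A → B} (hf : Injective f) (x : B) : push f id x = x := by
  by_cases hx : x ∈ range f
  · obtain ⟨a, rfl⟩ := hx
    rw [push_apply hf, id]
  · exact push_of_notMem _ hx

theorem push_injective {A B : Type*} {f : A → B} (hf : Injective f) {ψ : A → A}
    (hψ : Injective ψ) : Injective (push f ψ) := by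
  intro x y h
  by_cases hx : x ∈ range f <;> by_cases hy : y ∈ range f
  · obtain ⟨a, rfl⟩ := hx
    obtain ⟨b, rfl⟩ := hy
    rw [push_apply hf, push_apply hf] at h
    rw [hψ (hf h)]
  · obtain ⟨a, rfl⟩ := hx
    rw [push_apply hf, push_of_notMem _ hy] at h
    exact (hy ⟨_, h⟩).elim
  · obtain ⟨a, rfl⟩ := hy
    rw [push_apply hf, push_of_notMem _ hx] at h
    exact (hx ⟨_, h.symm⟩).elim
  · rwa [push_of_notMem _ hx, push_of_notMem _ hy] at h

theorem range_push {A B : Type*} {f : A → B} (hf : Injective f) (ψ : A → A) :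
    range (push f ψ) = (f '' (range ψ)ᶜ)ᶜ := by
  ext x
  constructor
  · rintro ⟨y, rfl⟩ ⟨a, ha, e⟩
    by_cases hy : y ∈ range f
    · obtain ⟨b, rfl⟩ := hy
      rw [push_apply hf] at e
      exact ha ⟨b, (hf e).symm⟩
    · rw [push_of_notMem _ hy] at e
      exact hy ⟨a, e⟩
  · intro hx
    by_cases hy : x ∈ range f
    · obtain ⟨a, rfl⟩ := hy
      by_contra h
      refine hx ⟨a, ?_, rfl⟩
      rintro ⟨b, rfl⟩
      exact h ⟨f b, push_apply hf ψ b⟩
    · exact ⟨x, push_of_notMem _ hy⟩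

theorem IsOE.contMDiff_push (hf : IsOE IA IB f) {ψ : A → A} {K : Set A} (hc : IsClosed (f '' K))
    (hK : ∀ a ∉ K, ψ a = a) (hψ : ContMDiff IA IA ∞ ψ) : ContMDiff IB IB ∞ (push f ψ) :=
  hf.contMDiff_extend hc (fun a ha => by simp [hK a ha]) (hf.contMDiff.comp hψ) contMDiff_id

theorem IsOE.push (hf : IsOE IA IB f) {ψ : A → A} {K : Set A} (hc : IsClosed (f '' K))
    (hK : ∀ a ∉ K, ψ a = a) (hψ : IsOE IA IA ψ) : IsOE IB IB (push f ψ) :=
  ⟨push_injective hf.inj hψ.inj,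
    hf.ld_extend hc (fun a ha => by simp [hK a ha]) (hf.comp hψ).loc fun x _ => ld_id x⟩

/-- a diffeomorphism supported in `K` extends by the identity -/
def IsOE.pushD (hf : IsOE IA IB f) (ψ : A ≃ₘ^∞⟮IA, IA⟯ A) {K : Set A} (hc : IsClosed (f '' K))
    (hK : ∀ a ∉ K, ψ a = a) : B ≃ₘ^∞⟮IB, IB⟯ B where
  toFun := Cyl58.push f ψ
  invFun := Cyl58.push f ψ.symm
  left_inv x := by
    rw [push_push hf.inj, show ψ.symm ∘ ψ = id from funext ψ.symm_apply_apply, push_id hf.inj]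
  right_inv x := by
    rw [push_push hf.inj, show ψ ∘ ψ.symm = id from funext ψ.apply_symm_apply, push_id hf.inj]
  contMDiff_toFun := hf.contMDiff_push hc hK ψ.contMDiff
  contMDiff_invFun := hf.contMDiff_push hc (fun a ha => by
    conv_lhs => rw [← hK a ha]
    exact ψ.symm_apply_apply a) ψ.symm.contMDiff

@[simp] theorem IsOE.pushD_apply (hf : IsOE IA IB f) (ψ : A ≃ₘ^∞⟮IA, IA⟯ A) {K : Set A}
    (hc : IsClosed (f '' K)) (hK : ∀ a ∉ K, ψ a = a) (a : A) :
    hf.pushD ψ hc hK (f a) = f (ψ a) := push_apply hf.inj ψ a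

theorem IsOE.pushD_of_notMem (hf : IsOE IA IB f) (ψ : A ≃ₘ^∞⟮IA, IA⟯ A) {K : Set A}
    (hc : IsClosed (f '' K)) (hK : ∀ a ∉ K, ψ a = a) {x : B} (hx : x ∉ f '' K) :
    hf.pushD ψ hc hK x = x :=
  extend_eq_of_notMem hf.inj (K := K) (fun a ha => by simp [hK a ha]) hx

end Patch

/-! ### finitely many disjoint embeddings -/

section Family

variable {α : Type*} {EA HA A : α → Type*} {EB HB EC HC : Type*}
  [∀ a, NormedAddCommGroup (EA a)] [∀ a, NormedSpace ℝ (EA a)] [∀ a, TopologicalSpace (HA a)]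
  [NormedAddCommGroup EB] [NormedSpace ℝ EB] [TopologicalSpace HB]
  [NormedAddCommGroup EC] [NormedSpace ℝ EC] [TopologicalSpace HC]
  {IA : ∀ a, ModelWithCorners ℝ (EA a) (HA a)} {IB : ModelWithCorners ℝ EB HB}
  {IC : ModelWithCorners ℝ EC HC}
  {B C : Type*} [∀ a, TopologicalSpace (A a)] [∀ a, ChartedSpace (HA a) (A a)] [TopologicalSpace B]
  [ChartedSpace HB B] [TopologicalSpace C] [ChartedSpace HC C]

/-- `g a` read through `f a` on the range of `f a`, and `h` elsewhere -/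
def extF {α : Type*} {A : α → Type*} {B Z : Type*} (f : ∀ a, A a → B) (g : ∀ a, A a → Z)
    (h : B → Z) : B → Z :=
  extend (fun p : Σ a, A a => f p.1 p.2) (fun p => g p.1 p.2) h

theorem sigma_injective {α : Type*} {A : α → Type*} {B : Type*} {f : ∀ a, A a → B}
    (hf : ∀ a, Injective (f a)) (hd : ∀ a b p q, f a p = f b q → a = b) :
    Injective fun p : Σ a, A a => f p.1 p.2 := by
  rintro ⟨a, p⟩ ⟨b, q⟩ e
  obtain rfl := hd a b p q e
  rw [show p = q from hf a e]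

theorem extF_apply {α : Type*} {A : α → Type*} {B Z : Type*} {f : ∀ a, A a → B}
    (hf : ∀ a, Injective (f a)) (hd : ∀ a b p q, f a p = f b q → a = b) (g : ∀ a, A a → Z)
    (h : B → Z) (a : α) (p : A a) : extF f g h (f a p) = g a p :=
  (sigma_injective hf hd).extend_apply _ h ⟨a, p⟩

theorem extF_of_notMem {α : Type*} {A : α → Type*} {B Z : Type*} {f : ∀ a, A a → B}
    (g : ∀ a, A a → Z) (h : B → Z) {x : B} (hx : ∀ a p, f a p ≠ x) : extF f g h x = h x :=
  extend_apply' _ _ _ fun ⟨p, e⟩ => hx p.1 p.2 e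

theorem extF_eq {α : Type*} {A : α → Type*} {B Z : Type*} {f : ∀ a, A a → B}
    (hf : ∀ a, Injective (f a)) (hd : ∀ a b p q, f a p = f b q → a = b) {g : ∀ a, A a → Z}
    {h : B → Z} {K : ∀ a, Set (A a)} (hK : ∀ a, ∀ p ∉ K a, g a p = h (f a p)) {x : B}
    (hx : x ∉ ⋃ a, f a '' K a) : extF f g h x = h x := by
  by_cases hr : ∃ a p, f a p = x
  · obtain ⟨a, p, rfl⟩ := hr
    rw [extF_apply hf hd, hK a p fun hp => hx (mem_iUnion.2 ⟨a, p, hp, rfl⟩)]
  · exact extF_of_notMem g h fun a p e => hr ⟨a, p, e⟩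

theorem extF_eventuallyEq [Finite α] {Z : Type*} {f : ∀ a, A a → B}
    (hf : ∀ a, Injective (f a)) (hd : ∀ a b p q, f a p = f b q → a = b) {g : ∀ a, A a → Z}
    {h : B → Z} {K : ∀ a, Set (A a)} (hc : ∀ a, IsClosed (f a '' K a))
    (hK : ∀ a, ∀ p ∉ K a, g a p = h (f a p)) {x : B} (hx : x ∉ ⋃ a, f a '' K a) :
    extF f g h =ᶠ[𝓝 x] h := by
  filter_upwards [(isClosed_iUnion_of_finite hc).isOpen_compl.mem_nhds hx] with y hy
  exact extF_eq hf hd hK hy

theorem contMDiff_extF [Finite α] {f : ∀ a, A a → B} (hf : ∀ a, IsOE (IA a) IB (f a))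
    (hd : ∀ a b p q, f a p = f b q → a = b) {g : ∀ a, A a → C} {h : B → C} {K : ∀ a, Set (A a)}
    (hc : ∀ a, IsClosed (f a '' K a)) (hK : ∀ a, ∀ p ∉ K a, g a p = h (f a p))
    (hg : ∀ a, ContMDiff (IA a) IC ∞ (g a))
    (hh : ∀ x, (∀ a p, f a p ≠ x) → ContMDiffAt IB IC ∞ h x) :
    ContMDiff IB IC ∞ (extF f g h) := by
  intro x
  by_cases hx : ∃ a p, f a p = x
  · obtain ⟨a, p, rfl⟩ := hx
    refine (hf a).contMDiffAt_iff.1 ?_
    rw [show extF f g h ∘ f a = g a from funext (extF_apply (fun a => (hf a).inj) hd g h a)]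
    exact hg a p
  · refine (hh x fun a p e => hx ⟨a, p, e⟩).congr_of_eventuallyEq
      (extF_eventuallyEq (fun a => (hf a).inj) hd hc hK fun h' => ?_)
    obtain ⟨a, p, -, e⟩ := mem_iUnion.1 h'
    exact hx ⟨a, p, e⟩

theorem ld_extF [Finite α] {f : ∀ a, A a → B} (hf : ∀ a, IsOE (IA a) IB (f a))
    (hd : ∀ a b p q, f a p = f b q → a = b) {g : ∀ a, A a → C} {h : B → C} {K : ∀ a, Set (A a)}
    (hc : ∀ a, IsClosed (f a '' K a)) (hK : ∀ a, ∀ p ∉ K a, g a p = h (f a p))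
    (hg : ∀ a, IsLocalDiffeomorph (IA a) IC ∞ (g a))
    (hh : ∀ x, (∀ a p, f a p ≠ x) → IsLocalDiffeomorphAt IB IC ∞ h x) :
    IsLocalDiffeomorph IB IC ∞ (extF f g h) := by
  intro x
  by_cases hx : ∃ a p, f a p = x
  · obtain ⟨a, p, rfl⟩ := hx
    refine ld_of_comp ((hf a).loc p) ?_
    rw [show extF f g h ∘ f a = g a from funext (extF_apply (fun a => (hf a).inj) hd g h a)]
    exact hg a p
  · refine ld_congr (hh x fun a p e => hx ⟨a, p, e⟩)
      (extF_eventuallyEq (fun a => (hf a).inj) hd hc hK fun h' => ?_)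
    obtain ⟨a, p, -, e⟩ := mem_iUnion.1 h'
    exact hx ⟨a, p, e⟩

end Family

/-! ### functions of the height on a manifold with ends -/

namespace ME

variable {V W : Type} [NormedAddCommGroup V] [NormedSpace ℝ V] [NormedAddCommGroup W]
  [NormedSpace ℝ W] (M : ME V W)
  {EC HC : Type*} [NormedAddCommGroup EC] [NormedSpace ℝ EC] [TopologicalSpace HC]
  {IC : ModelWithCorners ℝ EC HC} {C : Type*} [TopologicalSpace C] [ChartedSpace HC C]

/-- `g a` on the end `a`, `h` elsewhere -/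
def patch {Z : Type*} (g : ∀ a, (M.Y a).M × ℝ → Z) (h : M.P.M → Z) : M.P.M → Z := extF M.j g h

@[simp] theorem patch_j {Z : Type*} (g : ∀ a, (M.Y a).M × ℝ → Z) (h : M.P.M → Z) (a : M.α)
    (p : (M.Y a).M × ℝ) : M.patch g h (M.j a p) = g a p :=
  extF_apply (fun a => (M.oe a).inj) M.disj g h a p

theorem patch_of_notMem {Z : Type*} (g : ∀ a, (M.Y a).M × ℝ → Z) (h : M.P.M → Z) {x : M.P.M}
    (hx : ∀ a p, M.j a p ≠ x) : M.patch g h x = h x := extF_of_notMem g h hx

theorem patch_core {Z : Type*} {g : ∀ a, (M.Y a).M × ℝ → Z} {h : M.P.M → Z} {T : ℝ}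
    (hT : ∀ a p, p.2 ≤ T → g a p = h (M.j a p)) {x : M.P.M} (hx : x ∈ M.core T) :
    M.patch g h x = h x := by
  by_cases hr : ∃ a p, M.j a p = x
  · obtain ⟨a, p, rfl⟩ := hr
    rw [patch_j, hT a p (M.j_mem_core.1 hx)]
  · exact M.patch_of_notMem g h fun a p e => hr ⟨a, p, e⟩

theorem contMDiff_patch {g : ∀ a, (M.Y a).M × ℝ → C} {h : M.P.M → C} {T : ℝ}
    (hT : ∀ a p, p.2 < T → g a p = h (M.j a p))
    (hg : ∀ a, ContMDiff ((M.Y a).I.prod 𝓘(ℝ, ℝ)) IC ∞ (g a))
    (hh : ∀ x, (∀ a p, M.j a p ≠ x) → ContMDiffAt M.P.I IC ∞ h x) :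
    ContMDiff M.P.I IC ∞ (M.patch g h) :=
  contMDiff_extF M.oe M.disj (K := fun _ => univ ×ˢ Ici T) (fun a => (M.isEnd a).isClosed T)
    (fun a p hp => hT a p (not_le.1 fun h => hp ⟨mem_univ _, h⟩)) hg hh

theorem ld_patch {g : ∀ a, (M.Y a).M × ℝ → C} {h : M.P.M → C} {T : ℝ}
    (hT : ∀ a p, p.2 < T → g a p = h (M.j a p))
    (hg : ∀ a, IsLocalDiffeomorph ((M.Y a).I.prod 𝓘(ℝ, ℝ)) IC ∞ (g a))
    (hh : ∀ x, (∀ a p, M.j a p ≠ x) → IsLocalDiffeomorphAt M.P.I IC ∞ h x) :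
    IsLocalDiffeomorph M.P.I IC ∞ (M.patch g h) :=
  ld_extF M.oe M.disj (K := fun _ => univ ×ˢ Ici T) (fun a => (M.isEnd a).isClosed T)
    (fun a p hp => hT a p (not_le.1 fun h => hp ⟨mem_univ _, h⟩)) hg hh

/-- a function of the height: `χ a t` at height `t` of the end `a`, `c` off the ends -/
def ht {Z : Type*} (χ : M.α → ℝ → Z) (c : Z) : M.P.M → Z :=
  M.patch (fun a p => χ a p.2) fun _ => c

@[simp] theorem ht_j {Z : Type*} (χ : M.α → ℝ → Z) (c : Z) (a : M.α) (p : (M.Y a).M × ℝ) :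
    M.ht χ c (M.j a p) = χ a p.2 := M.patch_j _ _ a p

theorem ht_core {Z : Type*} {χ : M.α → ℝ → Z} {c : Z} {T : ℝ} (hT : ∀ a t, t ≤ T → χ a t = c)
    {x : M.P.M} (hx : x ∈ M.core T) : M.ht χ c x = c :=
  M.patch_core (fun a p hp => hT a p.2 hp) hx

theorem contMDiff_ht {χ : M.α → ℝ → C} {c : C} {T : ℝ} (hT : ∀ a t, t < T → χ a t = c)
    (hχ : ∀ a, ContMDiff 𝓘(ℝ, ℝ) IC ∞ (χ a)) : ContMDiff M.P.I IC ∞ (M.ht χ c) :=
  M.contMDiff_patch (fun a p hp => hT a p.2 hp) (fun a => (hχ a).comp contMDiff_snd)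
    fun _ _ => contMDiffAt_const

/-- reparametrise the height on every end -/
def str (σ : M.α → ℝ → ℝ) : M.P.M → M.P.M := M.patch (fun a p => M.j a (p.1, σ a p.2)) id

@[simp] theorem str_j (σ : M.α → ℝ → ℝ) (a : M.α) (p : (M.Y a).M × ℝ) :
    M.str σ (M.j a p) = M.j a (p.1, σ a p.2) := M.patch_j _ _ a p

theorem str_of_notMem (σ : M.α → ℝ → ℝ) {x : M.P.M} (hx : ∀ a p, M.j a p ≠ x) : M.str σ x = x :=
  M.patch_of_notMem _ _ hx

theorem str_core {σ : M.α → ℝ → ℝ} {T : ℝ} (hT : ∀ a t, t ≤ T → σ a t = t) {x : M.P.M}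
    (hx : x ∈ M.core T) : M.str σ x = x :=
  M.patch_core (fun a p hp => by rw [hT a _ hp, id]) hx

theorem str_injective {σ : M.α → ℝ → ℝ} (hσ : ∀ a, Injective (σ a)) : Injective (M.str σ) := by
  intro x y h
  by_cases hx : ∃ a p, M.j a p = x <;> by_cases hy : ∃ a p, M.j a p = y
  · obtain ⟨a, p, rfl⟩ := hx
    obtain ⟨b, q, rfl⟩ := hy
    rw [str_j, str_j] at h
    obtain rfl := M.disj _ _ _ _ h
    have h1 := (M.oe a).inj h
    rw [show p = q from Prod.ext (Prod.mk.inj h1).1 (hσ a (Prod.mk.inj h1).2)]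
  · obtain ⟨a, p, rfl⟩ := hx
    rw [str_j, M.str_of_notMem σ fun a p e => hy ⟨a, p, e⟩] at h
    exact (hy ⟨_, _, h⟩).elim
  · obtain ⟨a, p, rfl⟩ := hy
    rw [str_j, M.str_of_notMem σ fun a p e => hx ⟨a, p, e⟩] at h
    exact (hx ⟨_, _, h.symm⟩).elim
  · rwa [M.str_of_notMem σ fun a p e => hx ⟨a, p, e⟩,
      M.str_of_notMem σ fun a p e => hy ⟨a, p, e⟩] at h

theorem isOE_str {σ : M.α → ℝ → ℝ} {T : ℝ} (hT : ∀ a t, t < T → σ a t = t)
    (hσ : ∀ a, IsOE 𝓘(ℝ, ℝ) 𝓘(ℝ, ℝ) (σ a)) : IsOE M.P.I M.P.I (M.str σ) :=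
  ⟨M.str_injective fun a => (hσ a).inj, M.ld_patch (T := T) (fun a p hp => by rw [hT a _ hp, id])
    (fun a => ((M.oe a).comp (IsOE.id.prodMap (hσ a))).loc) fun x _ => ld_id x⟩

theorem mem_range_str {σ : M.α → ℝ → ℝ} {x : M.P.M} :
    x ∈ range (M.str σ) ↔ ∀ a p, M.j a p = x → p.2 ∈ range (σ a) := by
  constructor
  · rintro ⟨y, rfl⟩ a p e
    by_cases hy : ∃ b q, M.j b q = y
    · obtain ⟨b, q, rfl⟩ := hy
      rw [str_j] at e
      obtain rfl := M.disj _ _ _ _ e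
      exact ⟨q.2, (congrArg Prod.snd ((M.oe a).inj e)).symm⟩
    · rw [M.str_of_notMem σ fun a p e => hy ⟨a, p, e⟩] at e
      exact (hy ⟨a, p, e⟩).elim
  · intro h
    by_cases hx : ∃ a p, M.j a p = x
    · obtain ⟨a, p, rfl⟩ := hx
      obtain ⟨t, ht⟩ := h a p rfl
      exact ⟨M.j a (p.1, t), by rw [str_j, ht]⟩
    · exact ⟨x, M.str_of_notMem σ fun a p e => hx ⟨a, p, e⟩⟩

end ME

end Crest.Agent.X212.Cyl58
end
end

-- ▼ part X212/Cyl58/Cap

/-!
# X212/Cyl58/Cap: polar coordinates, caps, cutting along necks, capped manifolds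

* `pol : sphere × ℝ → E`, `(u, t) ↦ eᵗ u`;  `Cap V Y` : a manifold with the single end `Y`;
  `ballCap`, `Cap.prod` (`Z × ball`);
* `Nks X` : a finite family of disjoint necks of a closed manifold; `N.Cut`, `N.cut : ME`;
* `N.XS C` : cut along the cores and glue in the caps; `N.φ C : X ⇀ N.XS C`, `N.cap C a b`.
-/

set_option autoImplicit false
set_option linter.unusedSectionVars false
noncomputable section
open Set Filter Topology Function Metric TopologicalSpace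
open scoped ContDiff Manifold

namespace Crest.Agent.X212.Cyl58

open Glue52

theorem isOE_exp : IsOE 𝓘(ℝ, ℝ) 𝓘(ℝ, ℝ) Real.exp :=
  ⟨Real.exp_injective, fun t => ld_of_inverse (g := Real.log) isOpen_univ isOpen_Ioi
    Real.contDiff_exp.contMDiff.contMDiffOn
    ((Real.contDiffOn_log.mono fun _ hx => ne_of_gt hx).contMDiffOn)
    (fun x _ => Real.exp_pos x) (fun _ _ => mem_univ _) (fun x _ => Real.log_exp x)
    (fun _ hy => Real.exp_log hy) (mem_univ t)⟩

/-- the sign of a side -/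
def sg (b : Bool) : ℝ := if b then 1 else -1

@[simp] theorem sg_true : sg true = 1 := rfl
@[simp] theorem sg_false : sg false = -1 := rfl
theorem sg_mul_sg (b : Bool) : sg b * sg b = 1 := by cases b <;> simp
theorem abs_sg (b : Bool) : |sg b| = 1 := by cases b <;> simp
theorem sg_ne (b : Bool) : sg b ≠ 0 := by cases b <;> simp

theorem isOE_sg (b : Bool) : IsOE 𝓘(ℝ, ℝ) 𝓘(ℝ, ℝ) fun t : ℝ => sg b * t := by
  cases b
  · simpa using isOE_neg
  · simp only [sg_true, one_mul]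
    exact IsOE.id

/-- `t ↦ ± e⁻ᵗ` -/
def hx (b : Bool) (t : ℝ) : ℝ := sg b * Real.exp (-t)

theorem isOE_hx (b : Bool) : IsOE 𝓘(ℝ, ℝ) 𝓘(ℝ, ℝ) (hx b) :=
  (isOE_sg b).comp (isOE_exp.comp isOE_neg)

theorem hx_ne (b : Bool) (t : ℝ) : hx b t ≠ 0 := mul_ne_zero (sg_ne b) (Real.exp_ne_zero _)

theorem sg_mul_hx (b : Bool) (t : ℝ) : sg b * hx b t = Real.exp (-t) := by
  rw [hx, ← mul_assoc, sg_mul_sg, one_mul]

theorem hx_log (b : Bool) {r : ℝ} (hr : 0 < r) : hx b (-Real.log r) = sg b * r := by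
  rw [hx, neg_neg, Real.exp_log hr]

theorem hx_inj {b b' : Bool} {t t' : ℝ} (h : hx b t = hx b' t') : b = b' := by
  have h1 := Real.exp_pos (-t)
  have h2 := Real.exp_pos (-t')
  cases b <;> cases b' <;> simp only [hx, sg_true, sg_false] at h ⊢ <;> first | rfl | linarith

theorem exists_sg {s : ℝ} (hs : s ≠ 0) : ∃ b, s = sg b * |s| := by
  rcases hs.lt_or_gt with h | h
  · exact ⟨false, by simp [abs_of_neg h]⟩
  · exact ⟨true, by simp [abs_of_pos h]⟩

section Polar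

variable {E : Type} [NormedAddCommGroup E] [InnerProductSpace ℝ E] {n : ℕ}
  [Fact (Module.finrank ℝ E = n + 1)]

/-- polar coordinates -/
def pol (p : sphere (0 : E) 1 × ℝ) : E := Real.exp p.2 • (p.1 : E)

theorem norm_pol (p : sphere (0 : E) 1 × ℝ) : ‖pol p‖ = Real.exp p.2 := by
  rw [pol, norm_smul, norm_eq_of_mem_sphere, mul_one, Real.norm_of_nonneg (Real.exp_pos _).le]

theorem pol_ne (p : sphere (0 : E) 1 × ℝ) : pol p ≠ 0 := by
  rw [← norm_ne_zero_iff, norm_pol]; exact Real.exp_ne_zero _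

/-- the direction of a nonzero vector -/
def dirE {x : E} (hx : x ≠ 0) : sphere (0 : E) 1 :=
  ⟨‖x‖⁻¹ • x, by simp [norm_smul, inv_mul_cancel₀ (norm_ne_zero_iff.2 hx)]⟩

theorem pol_dirE {x : E} (hx : x ≠ 0) : pol (dirE hx, Real.log ‖x‖) = x := by
  simp only [pol, dirE, Real.exp_log (norm_pos_iff.2 hx), smul_smul,
    mul_inv_cancel₀ (norm_ne_zero_iff.2 hx), one_smul]

theorem pol_log (u : sphere (0 : E) 1) {r : ℝ} (hr : 0 < r) : pol (u, Real.log r) = r • (u : E) := by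
  rw [pol, Real.exp_log hr]

theorem range_pol : range (pol : sphere (0 : E) 1 × ℝ → E) = {0}ᶜ :=
  Subset.antisymm (range_subset_iff.2 pol_ne) fun _ hx => ⟨_, pol_dirE hx⟩

theorem image_pol (s : Set ℝ) :
    (pol : sphere (0 : E) 1 × ℝ → E) '' (univ ×ˢ s) = {x | ‖x‖ ∈ Real.exp '' s} := by
  ext x
  constructor
  · rintro ⟨p, hp, rfl⟩
    exact ⟨p.2, hp.2, (norm_pol p).symm⟩
  · rintro ⟨t, ht, e⟩
    have hx : x ≠ 0 := by rw [← norm_ne_zero_iff, ← e]; exact Real.exp_ne_zero _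
    exact ⟨_, ⟨mem_univ _, by rwa [← e, Real.log_exp]⟩, pol_dirE hx⟩

theorem contMDiff_pol : ContMDiff ((𝓡 n).prod 𝓘(ℝ, ℝ)) 𝓘(ℝ, E) ∞ (pol : sphere (0 : E) 1 × ℝ → E) :=
  (Real.contDiff_exp.contMDiff.comp contMDiff_snd).smul (contMDiff_coe_sphere.comp contMDiff_fst)

theorem isOE_pol : IsOE ((𝓡 n).prod 𝓘(ℝ, ℝ)) 𝓘(ℝ, E) (pol : sphere (0 : E) 1 × ℝ → E) := by
  let U : Opens E := ⟨{0}ᶜ, isOpen_compl_singleton⟩
  have hn : ContMDiff 𝓘(ℝ, E) 𝓘(ℝ, ℝ) ∞ fun x : U => ‖(x : E)‖ := fun x =>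
    (contDiffAt_norm ℝ x.2).contMDiffAt.comp x contMDiff_subtype_val.contMDiffAt
  let φ : (sphere (0 : E) 1 × ℝ) ≃ₘ^∞⟮(𝓡 n).prod 𝓘(ℝ, ℝ), 𝓘(ℝ, E)⟯ U :=
    { toFun := fun p => ⟨pol p, pol_ne p⟩
      invFun := fun x => (dirE x.2, Real.log ‖(x : E)‖)
      left_inv := fun p => by
        refine Prod.ext (Subtype.ext ?_) ?_
        · simp only [dirE, norm_pol]
          rw [pol, smul_smul, inv_mul_cancel₀ (Real.exp_ne_zero _), one_smul]
        · simp only [norm_pol, Real.log_exp]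
      right_inv := fun x => Subtype.ext (pol_dirE x.2)
      contMDiff_toFun := (ContMDiff.subtypeVal_comp_iff U _).1 contMDiff_pol
      contMDiff_invFun := by
        refine ContMDiff.prodMk ?_ fun x => ?_
        · exact ((hn.inv₀ fun x => norm_ne_zero_iff.2 x.2).smul
            contMDiff_subtype_val).codRestrict_sphere fun x => (dirE x.2).2
        · exact (Real.contDiffAt_log.2 (norm_ne_zero_iff.2 x.2)).contMDiffAt.comp x (hn x) }
  exact (isOE_val U).comp (IsOE.of_diffeo φ)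

theorem isEnd_pol : IsEnd (𝓡 n) 𝓘(ℝ, E) (pol : sphere (0 : E) 1 × ℝ → E) := by
  refine ⟨isOE_pol, ?_⟩
  rw [image_pol, Real.image_exp_Ici]
  exact isClosed_Ici.preimage continuous_norm

theorem compl_image_pol (T : ℝ) :
    ((pol : sphere (0 : E) 1 × ℝ → E) '' (univ ×ˢ Ioi T))ᶜ = closedBall 0 (Real.exp T) := by
  rw [image_pol, Real.image_exp_Ioi]
  ext x
  simp

end Polar

variable {V W : Type} [NormedAddCommGroup V] [NormedSpace ℝ V] [NormedAddCommGroup W]
  [NormedSpace ℝ W]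

variable (V) in
/-- a manifold with a single end, of cross-section `Y` -/
structure Cap (Y : Pc W) : Type 1 where
  P : Pc V
  [t2 : T2Space P.M]
  [sc : SecondCountableTopology P.M]
  c : Y.M × ℝ → P.M
  isEnd : IsEnd Y.I P.I c
  cpt : IsCompact (c '' (univ ×ˢ Ioi 0))ᶜ

attribute [instance] Cap.t2 Cap.sc

/-- a cap as a manifold with ends -/
def Cap.me {Y : Pc W} [CompactSpace Y.M] (C : Cap V Y) : ME V W where
  P := C.P
  α := Unit
  Y _ := Y
  j _ := C.c
  isEnd _ := C.isEnd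
  disj _ _ _ _ _ := rfl
  cpt := by simpa only [iUnion_const] using C.cpt

/-- the unit sphere as a piece -/
abbrev sph (E : Type) [NormedAddCommGroup E] [InnerProductSpace ℝ E] (n : ℕ)
    [Fact (Module.finrank ℝ E = n + 1)] : Pc (EuclideanSpace ℝ (Fin n)) :=
  Pc.of (𝓡 n) (sphere (0 : E) 1) (ContinuousLinearEquiv.refl ℝ _)

/-- the ball caps the sphere -/
def ballCap {E : Type} [NormedAddCommGroup E] [InnerProductSpace ℝ E] (n : ℕ)
    [h : Fact (Module.finrank ℝ E = n + 1)] (L : E ≃L[ℝ] V) : Cap V (sph E n) :=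
  have : FiniteDimensional ℝ E := Module.finite_of_finrank_eq_succ h.out
  have : ProperSpace E := FiniteDimensional.proper ℝ E
  { P := Pc.of 𝓘(ℝ, E) E L
    c := pol
    isEnd := isEnd_pol
    cpt := by
      have h := compl_image_pol (E := E) 0
      exact h ▸ isCompact_closedBall _ _ }

variable (W) in
/-- finitely many disjoint necks in a manifold -/
structure Nks (X : Pc V) (S : Type) : Type 1 where
  Y : S → Pc W
  [cY : ∀ a, CompactSpace (Y a).M]
  n : ∀ a, (Y a).M × ℝ → X.M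
  oe : ∀ a, IsOE ((Y a).I.prod 𝓘(ℝ, ℝ)) X.I (n a)
  disj : ∀ a b p q, n a p = n b q → a = b

attribute [instance] Nks.cY

namespace Nks

variable {X : Pc V} {S : Type} (N : Nks W X S)

/-- the union of the central hypersurfaces -/
def cores : Set X.M := ⋃ a, N.n a '' (univ ×ˢ {0})

theorem n_mem_cores {a : S} {p : (N.Y a).M × ℝ} : N.n a p ∈ N.cores ↔ p.2 = 0 := by
  refine ⟨fun h => ?_, fun h => mem_iUnion.2 ⟨a, p, ⟨mem_univ _, h⟩, rfl⟩⟩
  obtain ⟨b, q, hq, e⟩ := mem_iUnion.1 h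
  obtain rfl := N.disj _ _ _ _ e
  rw [← (N.oe b).inj e]
  exact hq.2

variable [Finite S] [T2Space X.M]

theorem isCompact_cores : IsCompact N.cores :=
  isCompact_iUnion fun a => (isCompact_univ.prod isCompact_singleton).image (N.oe a).continuous

/-- the complement of the cores -/
def Cut : Opens X.M := ⟨N.coresᶜ, N.isCompact_cores.isClosed.isOpen_compl⟩

/-- the end of the cut manifold on the side `b` of the neck `a` -/
def jc (a : S × Bool) (p : (N.Y a.1).M × ℝ) : N.Cut :=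
  ⟨N.n a.1 (p.1, hx a.2 p.2), fun h => hx_ne _ _ (N.n_mem_cores.1 h)⟩

theorem isOE_jc (a : S × Bool) : IsOE ((N.Y a.1).I.prod 𝓘(ℝ, ℝ)) X.I (N.jc a) :=
  (isOE_val N.Cut).of_comp_left ((N.oe a.1).comp (IsOE.id.prodMap (isOE_hx a.2)))

theorem jc_log (a : S) (b : Bool) (y : (N.Y a).M) {r : ℝ} (hr : 0 < r) :
    (N.jc (a, b) (y, -Real.log r) : X.M) = N.n a (y, sg b * r) := by
  simp only [jc, hx_log b hr]

theorem image_jc (a : S × Bool) : N.jc a '' (univ ×ˢ Ici 0) =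
    Subtype.val ⁻¹' (N.n a.1 '' (univ ×ˢ ((fun r => sg a.2 * r) '' Icc 0 1))) := by
  ext x
  constructor
  · rintro ⟨p, hp, rfl⟩
    exact ⟨(p.1, hx a.2 p.2), ⟨mem_univ _, Real.exp (-p.2), ⟨(Real.exp_pos _).le,
      Real.exp_le_one_iff.2 (neg_nonpos.2 hp.2)⟩, rfl⟩, rfl⟩
  · rintro ⟨⟨y, _⟩, ⟨-, r, hr, rfl⟩, e⟩
    have h0 : 0 < r := hr.1.lt_of_ne fun h => x.2 (e ▸ N.n_mem_cores.2 (by simp [← h]))
    exact ⟨(y, -Real.log r), ⟨mem_univ _, show 0 ≤ -Real.log r from
      neg_nonneg.2 (Real.log_nonpos hr.1 hr.2)⟩, Subtype.ext ((N.jc_log a.1 a.2 y h0).trans e)⟩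

theorem isEnd_jc (a : S × Bool) : IsEnd (N.Y a.1).I X.I (N.jc a) := by
  refine ⟨N.isOE_jc a, ?_⟩
  rw [N.image_jc]
  exact ((isCompact_univ.prod (isCompact_Icc.image (continuous_const.mul continuous_id))).image
    (N.oe a.1).continuous).isClosed.preimage continuous_subtype_val

theorem compl_jc : (⋃ a, N.jc a '' (univ ×ˢ Ioi 0))ᶜ =
    Subtype.val ⁻¹' (⋃ a, N.n a '' (univ ×ˢ Ioo (-1) 1))ᶜ := by
  rw [preimage_compl]
  congr 1
  ext x
  simp only [mem_iUnion, mem_preimage]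
  constructor
  · rintro ⟨a, p, hp, rfl⟩
    refine ⟨a.1, (p.1, hx a.2 p.2), ⟨mem_univ _, abs_lt.1 ?_⟩, rfl⟩
    rw [hx, abs_mul, abs_sg, one_mul, abs_of_pos (Real.exp_pos _)]
    exact Real.exp_lt_one_iff.2 (neg_neg_of_pos hp.2)
  · rintro ⟨a, ⟨y, s⟩, hp, e⟩
    have h0 : s ≠ 0 := fun h => x.2 (e ▸ N.n_mem_cores.2 h)
    obtain ⟨b, hb⟩ := exists_sg h0
    refine ⟨(a, b), (y, -Real.log |s|), ⟨mem_univ _, show 0 < -Real.log |s| from
      neg_pos.2 (Real.log_neg (abs_pos.2 h0) (abs_lt.2 hp.2))⟩, Subtype.ext ?_⟩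
    rw [N.jc_log a b y (abs_pos.2 h0), ← hb, e]

variable [CompactSpace X.M] [SecondCountableTopology X.M]

/-- the cut manifold with its ends -/
def cut : ME V W where
  P := Pc.of X.I N.Cut X.L
  α := S × Bool
  Y a := N.Y a.1
  j := N.jc
  isEnd := N.isEnd_jc
  disj := by
    rintro ⟨a, b⟩ ⟨a', b'⟩ p q e
    have e' := congrArg Subtype.val e
    obtain rfl : a = a' := N.disj _ _ _ _ e'
    rw [show b = b' from hx_inj (Prod.mk.inj ((N.oe a).inj e')).2]
  cpt := by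
    rw [N.compl_jc]
    refine IsInducing.subtypeVal.isCompact_preimage_iff ?_ |>.2 (isOpen_iUnion fun a =>
      (N.oe a).isOpen_image (isOpen_univ.prod isOpen_Ioo)).isClosed_compl.isCompact
    intro x hx
    refine ⟨⟨x, fun h => hx ?_⟩, rfl⟩
    obtain ⟨a, p, hp, e⟩ := mem_iUnion.1 h
    exact mem_iUnion.2 ⟨a, p, ⟨mem_univ _, by rw [show p.2 = 0 from hp.2]; constructor <;> norm_num⟩, e⟩

variable (C : ∀ a : S × Bool, Cap V (N.Y a.1))

/-- the junction graph of the capped manifold -/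
def jg : JG V W (Option (S × Bool)) (S × Bool) where
  M i := match i with
    | none => N.cut
    | some a => (C a).me
  s a := ⟨none, a⟩
  t a := ⟨some a, ()⟩
  s_inj _ _ h := eq_of_heq (Sigma.mk.inj h).2
  t_inj _ _ h := Option.some.inj (congrArg Sigma.fst h)
  s_ne_t _ _ h := by cases congrArg Sigma.fst h
  f _ := Diffeomorph.refl _ _ _

/-- the capped manifold -/
abbrev XS : Type := (N.jg C).X

instance : CompactSpace (N.XS C) := (N.jg C).compactSpace (by
  rintro ⟨_ | a, b⟩ h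
  exacts [h.1 b rfl, h.2 a rfl])

/-- the cut manifold in the capped manifold -/
def i0 (x : N.Cut) : N.XS C := (N.jg C).inc none x

/-- the cap on the side `a.2` of the neck `a.1` -/
def cap (a : S × Bool) (z : (C a).P.M) : N.XS C := (N.jg C).inc (some a) z

theorem isOE_i0 : IsOE X.I 𝓘(ℝ, V) (N.i0 C) := (N.jg C).isOE_inc (i := none) fun _ _ h => by cases h

theorem isOE_cap (a : S × Bool) : IsOE (C a).P.I 𝓘(ℝ, V) (N.cap C a) :=
  (N.jg C).isOE_inc (i := some a) fun _ h => by cases h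

theorem cap_c (a : S × Bool) (p : (N.Y a.1).M × ℝ) :
    N.cap C a ((C a).c p) = N.i0 C (N.jc a (p.1, -p.2)) := (N.jg C).inc_t' a p

theorem surj (x : N.XS C) : (∃ y, N.i0 C y = x) ∨ ∃ a z, N.cap C a z = x := by
  obtain ⟨_ | a, p, rfl⟩ := (N.jg C).surj x
  exacts [.inl ⟨p, rfl⟩, .inr ⟨a, p, rfl⟩]

theorem cap_eq_i0 {a : S × Bool} {z : (C a).P.M} {y : N.Cut} :
    N.cap C a z = N.i0 C y ↔ ∃ p, (C a).c p = z ∧ N.jc a (p.1, -p.2) = y := by
  refine ⟨fun h => ?_, ?_⟩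
  · by_cases h1 : ∀ e p, (N.jg C).inc (some a) z ≠ (N.jg C).neck e p
    · cases congrArg Sigma.fst ((N.jg C).eq_of_inc_eq h h1)
    push Not at h1
    obtain ⟨e, p, h1⟩ := h1
    rcases (N.jg C).inc_eq_neck.1 h1 with h2 | h2
    · cases congrArg Sigma.fst h2
    obtain rfl : a = e := Option.some.inj (congrArg Sigma.fst h2)
    have h3 : z = (C a).c (p.1, -p.2) := eq_of_heq (Sigma.mk.inj h2).2
    exact ⟨_, h3.symm, (N.isOE_i0 C).inj ((N.cap_c C a _).symm.trans (h3 ▸ h))⟩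
  · rintro ⟨p, rfl, rfl⟩
    exact N.cap_c C a p

theorem cap_disj {a b : S × Bool} {z : (C a).P.M} {w : (C b).P.M}
    (h : N.cap C a z = N.cap C b w) : a = b := by
  by_cases h1 : ∀ e p, (N.jg C).inc (some a) z ≠ (N.jg C).neck e p
  · exact Option.some.inj (congrArg Sigma.fst ((N.jg C).eq_of_inc_eq h h1))
  push Not at h1
  obtain ⟨e, p, h1⟩ := h1
  have key : ∀ (c : S × Bool) (z : (C c).P.M), N.cap C c z = (N.jg C).neck e p → c = e := by
    intro c z h
    rcases (N.jg C).inc_eq_neck.1 h with h2 | h2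
    · cases congrArg Sigma.fst h2
    · exact Option.some.inj (congrArg Sigma.fst h2)
  rw [key a z h1, key b w (h.symm.trans h1)]

/-- the new points: the parts of the caps off their ends -/
def pts : Set (N.XS C) := ⋃ a, N.cap C a '' (range (C a).c)ᶜ

theorem range_i0 : range (N.i0 C) = (N.pts C)ᶜ := by
  ext x
  constructor
  · rintro ⟨y, rfl⟩ h
    obtain ⟨a, z, hz, e⟩ := mem_iUnion.1 h
    obtain ⟨p, rfl, -⟩ := (N.cap_eq_i0 C).1 e
    exact hz ⟨p, rfl⟩
  · intro hx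
    rcases N.surj C x with h | ⟨a, z, rfl⟩
    · exact h
    · by_cases hz : z ∈ range (C a).c
      · obtain ⟨p, rfl⟩ := hz
        exact ⟨_, (N.cap_c C a p).symm⟩
      · exact (hx (mem_iUnion.2 ⟨a, z, hz, rfl⟩)).elim

variable [Nonempty N.Cut]

/-- the identification of `X` minus the cores with the capped manifold minus the new points -/
def φ : PartialDiffeomorph X.I 𝓘(ℝ, V) X.M (N.XS C) ∞ := (isOE_val N.Cut).span (N.isOE_i0 C)

theorem φ_source : (N.φ C).source = N.coresᶜ :=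
  (IsOE.span_source _ _).trans Subtype.range_coe

theorem φ_target : (N.φ C).target = (N.pts C)ᶜ := (IsOE.span_target _ _).trans (N.range_i0 C)

theorem φ_val (y : N.Cut) : N.φ C y = N.i0 C y := IsOE.span_apply _ _ y

theorem φ_symm_i0 (y : N.Cut) : (N.φ C).symm (N.i0 C y) = y := IsOE.span_symm_apply _ _ y

/-- radial coordinate `r` on the side `b` of a neck = height `log r` on the end of the cap -/
theorem φ_n (a : S) (b : Bool) (y : (N.Y a).M) {r : ℝ} (hr : 0 < r) :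
    N.φ C (N.n a (y, sg b * r)) = N.cap C (a, b) ((C (a, b)).c (y, Real.log r)) := by
  rw [N.cap_c, ← N.φ_val, N.jc_log a b y hr]

end Nks

end Crest.Agent.X212.Cyl58
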