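import Crest.Agent.X212.Met55.Trf
import Crest.Agent.X212.M.World
import Crest.Agent.X212.M.Api
import Crest.Agent.X212.M.Rel
import Crest.Agent.X212.Cyl58.Cps

-- ▼ part X212/Met55/Hub
section

/-! The hub: the family of cometrics on `X` of a mark. -/

set_option linter.unusedSectionVars false

open scoped Manifold ContDiff Topology InnerProductSpace Classical
open Set Filter Function Module Matrix

noncomputable section
namespace Crest.Agent.X212.Met55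

open Sob92 Pj41 An Cyl58 Prm93 M Cyf70

variable {X : Mf 4} {A κ : Type} [Fintype A] [Fintype κ] (M : Mark X A κ)

/-- the product frame of a band -/
def bF (a : A) : Option κ → VF X.I X.M := fun i =>
  pfv (IC (M.bn a).Y.I) X.I (M.bn a).j (ce (M.gY a).e i)

/-- the model frame of a neck, on `X` -/
def nF (a : A) (t : ℝ) : Option κ → VF X.I X.M := fun i x =>
  M.wt a t ((M.bn a).s x) i • bF M a i x

/-- the weight of a neck -/
def lam (a : A) (t : ℝ) (x : X.M) : ℝ := tau t * chi ((M.bn a).s x)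

/-- the weights of the hub -/
def hl (t : A → ℝ) : Option A → X.M → ℝ
  | none => fun x => ∏ a, (1 - lam M a (t a) x)
  | some a => lam M a (t a)

/-- the frames of the hub -/
def hw (k : Option κ → VF X.I X.M) (t : A → ℝ) : Option A → Option κ → VF X.I X.M
  | none => k
  | some a => nF M a (t a)

/-- **the hub** over the base family `k0` -/
def hub (k0 : ℝ → Option κ → VF X.I X.M) (p : Prm A) : Option κ → VF X.I X.M :=
  eF (k0 p.1) (fun _ => 1) (hl M p.2) (hw M (k0 p.1) p.2)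

/-- `x` is off the broken cores -/
def Gd (t : A → ℝ) (x : X.M) : Prop := ∀ a, (t a, (M.bn a).s x) ∈ Off

variable {M} {a : A} {t : ℝ} {x : X.M} {q : (M.bn a).Y.M × ℝ}

theorem fAt_ce {E : Type} [NormedAddCommGroup E] [NormedSpace ℝ E] [FiniteDimensional ℝ E]
    [MeasurableSpace E] [BorelSpace E] {H : Type} [TopologicalSpace H]
    {I : ModelWithCorners ℝ E H} {Y : Type} [TopologicalSpace Y] [ChartedSpace H Y]
    [IsManifold I ∞ Y] [MeasurableSpace Y] (G : Pre I Y κ) (q : Y × ℝ) : FAt (ce G.e) q :=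
  ⟨fun i => ce_sm G.sm i q, sp_iff.2 (ce_span G.span q)⟩

theorem fAt_bF (q : (M.bn a).Y.M × ℝ) : FAt (bF M a) ((M.bn a).j q) :=
  (fAt_ce (M.gY a).toPre q).pfv (M.bn a).oe

theorem wt_pos {s : ℝ} (h : (t, s) ∈ Off) (i : Option κ) : 0 < M.wt a t s i := by
  cases i <;> simp only [Mark.wt] <;> split_ifs
  exacts [one_pos, sig_pos h, inv_pos.2 (rad_pos h), one_pos]

theorem contDiffAt_wt {p : ℝ × ℝ} (h : p ∈ Off) (i : Option κ) :
    ContDiffAt ℝ ∞ (fun q : ℝ × ℝ => M.wt a q.1 q.2 i) p := by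
  cases i <;> simp only [Mark.wt] <;> split_ifs
  exacts [contDiffAt_const, contDiffAt_sig h, (contDiffAt_rad h).inv (rad_pos h).ne',
    contDiffAt_const]

theorem atx_nF (h : |q.2| ≤ 3) (t : ℝ) : atx (nF M a t) ((M.bn a).j q) =
    fun i => Dr59.mf (IC (M.bn a).Y.I) X.I (M.bn a).j q (M.nf a t q i) := by
  funext i
  rw [Mark.nf, map_smul, atx, nF, (M.bn a).s_j_of_le h]
  exact congrArg _ (pfv_rel (I := IC (M.bn a).Y.I) (I' := X.I) (M.bn a).oe.inj _ q).symm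

theorem sp_nF (h : |(M.bn a).s x| < 3) (ho : (t, (M.bn a).s x) ∈ Off) : Sp (atx (nF M a t) x) := by
  obtain ⟨y, hy⟩ := (M.bn a).exists_of_abs_s_lt h
  have := (fAt_bF (M := M) (y, (M.bn a).s x)).sp
  rw [hy] at this
  exact this.of_range fun i => ⟨(M.wt a t ((M.bn a).s x) i)⁻¹, i,
    (inv_smul_smul₀ (wt_pos ho i).ne' (atx (bF M a) x i)).symm⟩

theorem vJ_nF (h : |(M.bn a).s x| < 3) (ho : (t, (M.bn a).s x) ∈ Off) (i : Option κ) :
    VJ X.I (fun s => nF M a s i) t x := by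
  obtain ⟨y, hy⟩ := (M.bn a).exists_of_abs_s_lt h
  have := (fAt_bF (M := M) (y, (M.bn a).s x)).sm i
  rw [hy] at this
  refine VJ.smul (f := fun s y => M.wt a s ((M.bn a).s y) i) ?_ (VJ.of_fixed this)
  exact ContDiffAt.comp_contMDiffAt (f := fun z : ℝ × X.M => (z.1, (M.bn a).s z.2)) (x := (t, x))
    (contDiffAt_wt (M := M) (a := a) ho i)
    (contMDiffAt_fst.prodMk_space (((M.bn a).contMDiff_s _).comp _ contMDiffAt_snd))

theorem lam_nonneg : 0 ≤ lam M a t x := mul_nonneg (tau_nonneg _) (chi_nonneg _)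

theorem lam_le_one : lam M a t x ≤ 1 := mul_le_one₀ (tau_le_one _) (chi_nonneg _) (chi_le_one _)

theorem abs_lt_of_lam (h : lam M a t x ≠ 0) : |(M.bn a).s x| < 2 :=
  not_le.1 fun h' => h (by rw [lam, chi_eq_zero h', mul_zero])

theorem mem_slab_of_lam (h : lam M a t x ≠ 0) : x ∈ (M.bn a).slab (Icc (-2) 2) := by
  have h1 := abs_lt_of_lam h
  obtain ⟨y, hy⟩ := (M.bn a).exists_of_abs_s_lt (h1.trans (by norm_num))
  exact hy ▸ (M.bn a).j_mem_slab.2 (abs_le.1 h1.le)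

theorem pos_of_lam (h : lam M a t x ≠ 0) : 0 < t :=
  not_le.1 fun h' => h (by rw [lam, tau_eq_zero h', zero_mul])

theorem lam_eq_one (ht : 1 / 2 ≤ t) (h : |q.2| ≤ 1) : lam M a t ((M.bn a).j q) = 1 := by
  rw [lam, tau_eq_one ht, (M.bn a).s_j_of_le (h.trans (by norm_num)), chi_eq_one h, one_mul]

theorem jAt_lam : JAt X.I (lam M a) t x :=
  FSm.mul' (JAt.of_par contDiff_tau.contDiffAt)
    (JAt.of_fixed (contDiff_chi.contDiffAt.comp_contMDiffAt ((M.bn a).contMDiff_s x)))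

variable {t t' : A → ℝ} {k : Option κ → VF X.I X.M} {k0 : ℝ → Option κ → VF X.I X.M} {p : Prm A}

theorem eOk_hub (hk : Sp (atx k x)) (h : Gd M t x) :
    EOk k (fun _ => 1) (hl M t) (hw M k t) x := by
  refine ⟨hk, Adm.one, ?_, ?_, ?_⟩
  · rintro (_ | a)
    exacts [Finset.prod_nonneg fun a _ => sub_nonneg.2 lam_le_one, lam_nonneg]
  · by_cases h0 : ∀ a, lam M a (t a) x = 0
    · exact ⟨none, by simp [hl, h0]⟩
    · obtain ⟨a, ha⟩ := not_forall.1 h0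
      exact ⟨some a, ha⟩
  · rintro (_ | a) h0
    exacts [hk, sp_nF ((abs_lt_of_lam h0).trans (by norm_num)) (h a)]

theorem sp_hub (hk : Sp (atx (k0 p.1) x)) (h : Gd M p.2 x) : Sp (atx (hub M k0 p) x) :=
  (eOk_hub hk h).sp_eF

theorem fP_hub (hk : Sp (atx (k0 p.1) x)) (h : Gd M p.2 x) : fP (hub M k0 p) x = fP (k0 p.1) x :=
  (eOk_hub hk h).fP_eF

theorem vJ_hub (hk : Sp (atx (k0 p.1) x)) (hs : ∀ i, VJ X.I (fun u => k0 u i) p.1 x)
    (h : Gd M p.2 x) (i : Option κ) : VJ X.I (fun p => hub M k0 p i) p x := by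
  have h1 : ∀ i, VJ X.I (fun s : Prm A => k0 s.1 i) p x := fun i =>
    VJ.reparam (X := fun u => k0 u i) contDiffAt_fst (hs i)
  have h2 : ∀ a, ContDiffAt ℝ ∞ (fun s : Prm A => s.2 a) p := fun a => by fun_prop
  have h3 : ∀ a, JAt X.I (fun s : Prm A => lam M a (s.2 a)) p x := fun a =>
    JAt.reparam (f := lam M a) (h2 a) jAt_lam
  refine vJ_eF (r := fun s : Prm A => k0 s.1) (S := fun _ _ => 1) (l := fun s => hl M s.2)
    (w := fun s => hw M (k0 s.1) s.2) (eOk_hub hk h) h1 (MSm.const 1)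
    (.of_forall fun _ => transpose_one) ?_ i
  rintro (_ | a)
  · exact .inr ⟨FSm.prod' fun a _ => contMDiffAt_const.sub (h3 a), h1⟩
  · by_cases h4 : |(M.bn a).s x| < 3
    · exact .inr ⟨h3 a, fun i => VJ.reparam (X := fun s => nF M a s i) (h2 a) (vJ_nF h4 (h a) i)⟩
    · refine .inl ((ev_snd (p := fun y => 2 < |(M.bn a).s y|)
        ((isOpen_lt continuous_const (M.bn a).contMDiff_s.continuous.abs).mem_nhds
          (show 2 < |(M.bn a).s x| by linarith [not_lt.1 h4]))).mono fun z hz => ?_)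
      exact by_contra fun h0 => (abs_lt_of_lam h0).not_gt hz

/-- the cometric of the hub -/
theorem hb_hub (hk : Sp (atx (k0 p.1) x)) (h : Gd M p.2 x) (α β : X.E →ₗ[ℝ] ℝ) :
    hb (atx (hub M k0 p) x) 1 α β = (∏ a, (1 - lam M a (p.2 a) x)) * hb (atx (k0 p.1) x) 1 α β +
      ∑ a, lam M a (p.2 a) x * hb (atx (nF M a (p.2 a)) x) 1 α β := by
  rw [hub, (eOk_hub hk h).hb_eF rfl, Fintype.sum_option]; rfl

/-- locality in `t` -/
theorem hub_loc {u : ℝ} (h : ∀ a, x ∈ (M.bn a).slab (Icc (-2) 2) → t a = t' a) (i : Option κ) :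
    hub M k0 (u, t) i x = hub M k0 (u, t') i x := by
  have h1 : ∀ a, lam M a (t a) x = lam M a (t' a) x := fun a => by
    by_cases ha : x ∈ (M.bn a).slab (Icc (-2) 2)
    · rw [h a ha]
    · rw [of_not_not (mt mem_slab_of_lam ha), of_not_not (mt mem_slab_of_lam ha)]
  refine eF_congr (fun _ => rfl) rfl ?_ ?_ i
  · rintro (_ | a)
    exacts [Finset.prod_congr rfl fun a _ => by rw [h1], h1 a]
  · rintro (_ | a) h0
    · exact Co.refl _
    · simp only [hw, h a (mem_slab_of_lam h0)]; exact Co.refl _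

/-- off the active necks the hub is the base frame -/
theorem hub_of_zero (hk : Sp (atx (k0 p.1) x)) (h : Gd M p.2 x)
    (h0 : ∀ a, lam M a (p.2 a) x = 0) (i : Option κ) : hub M k0 p i x = k0 p.1 i x := by
  refine (eOk_hub hk h).eF_eq ?_ ?_ rfl i
  · rintro (_ | a) ha
    exacts [Co.refl _, (ha (h0 a)).elim]
  · simp [Fintype.sum_option, hl, h0]

theorem lam_eq_zero (hc : M.sys.Cell (support t)) (ha : t a ≠ 0) (hx : x ∈ range (M.bn a).j)
    {b : A} (hb : b ≠ a) : lam M b (t b) x = 0 := by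
  by_contra h0
  exact disjoint_left.1 (hc (pos_of_lam h0).ne' ha hb)
    ((M.bn b).slab_subset _ (mem_slab_of_lam h0)) hx

theorem gd_of_cell (hc : M.sys.Cell (support t)) (ha : t a ≠ 0) (hx : x ∈ range (M.bn a).j)
    (ho : (t a, (M.bn a).s x) ∈ Off) : Gd M t x := fun b => by
  by_cases hb : b = a
  · exact hb ▸ ho
  by_cases h0 : t b = 0
  · exact .inl (by simp [h0])
  · exact .inr fun h => disjoint_left.1 (hc h0 ha hb)
      ((M.bn b).wall.core_subset ((M.bn b).s_eq_zero.1 h)) hx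

/-- on an active neck the cometric is the model -/
theorem co_neck {q : (M.bn a).Y.M × ℝ} (hk : Sp (atx (k0 p.1) ((M.bn a).j q)))
    (h : Gd M p.2 ((M.bn a).j q)) (h0 : ∀ b, b ≠ a → lam M b (p.2 b) ((M.bn a).j q) = 0)
    (ht : 1 / 2 ≤ p.2 a) (hq : |q.2| ≤ 1) :
    Co (atx (nF M a (p.2 a)) ((M.bn a).j q)) (atx (hub M k0 p) ((M.bn a).j q)) := by
  refine co_iff.2 (funext₂ fun α β => ?_)
  rw [hb_hub hk h, Finset.prod_eq_zero (Finset.mem_univ a) (by rw [lam_eq_one ht hq, sub_self]),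
    Finset.sum_eq_single a (fun b _ hb => by rw [h0 b hb, zero_mul]) (by simp), lam_eq_one ht hq]
  simp

/-- the pinched neck at `t = 1` is flat -/
theorem co_flat (ha : M.pin a) (b : Bool) (y : (M.bn a).Y.M) {r : ℝ} (hr : 0 < r) :
    Co (fun i => Dr59.mf (IC (M.bn a).Y.I) 𝓘(ℝ, V4) (fun q => (pm b * q.2) • M.th a q.1)
      (y, pm b * r) (M.nf a 1 (y, pm b * r) i))
      fun i : Fin 4 => (EuclideanSpace.single i 1 : V4) := by
  have h := M.rnd a ha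
  have hθ : ContMDiff (M.bn a).Y.I 𝓘(ℝ, V4) ∞ (M.th a) := by
    simpa using sm_slice_fst h.oe.contMDiff 0
  have hf : MDifferentiableAt (IC (M.bn a).Y.I) 𝓘(ℝ, V4)
      (fun q : (M.bn a).Y.M × ℝ => (pm b * q.2) • M.th a q.1) (y, pm b * r) :=
    (((contMDiff_const.mul contMDiff_snd).smul (hθ.comp contMDiff_fst)) _).mdifferentiableAt
      (by simp)
  have e1 : Dr59.mf (IC (M.bn a).Y.I) 𝓘(ℝ, V4) (fun q => (pm b * q.2) • M.th a q.1)
      (y, pm b * r) (M.nf a 1 (y, pm b * r) none) = pm b • M.th a y := by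
    rw [Mark.nf, map_smul, Mark.wt, if_pos ha, one_smul]
    refine (dv_none (e := (M.gY a).e) hf).trans ?_
    exact (((hasDerivAt_id _).const_mul (pm b)).smul_const (M.th a y)).deriv.trans (by simp)
  have e2 : ∀ k, Dr59.mf (IC (M.bn a).Y.I) 𝓘(ℝ, V4) (fun q => (pm b * q.2) • M.th a q.1)
      (y, pm b * r) (M.nf a 1 (y, pm b * r) (some k)) = (M.gY a).D k (M.th a) y := fun k => by
    rw [Mark.nf, map_smul, Mark.wt, if_pos ha, rad_one, abs_mul, abs_pm, one_mul, abs_of_pos hr]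
    refine (congrArg _ ((dv_some (e := (M.gY a).e) hf k).trans
      (dv_const_smul (pm b * (pm b * r)) ((hθ y).mdifferentiableAt (by simp))))).trans ?_
    rw [← mul_assoc, pm_mul_pm, one_mul, smul_smul, inv_mul_cancel₀ hr.ne', one_smul]; rfl
  refine co_std fun v w => ?_
  rw [Fintype.sum_option]
  simp only [e1, e2, h.gram, inner_smul_right]
  linear_combination (⟪v, M.th a y⟫_ℝ * ⟪w, M.th a y⟫_ℝ) * pm_mul_pm b

end Crest.Agent.X212.Met55
end
end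

-- ▼ part X212/Met55/Wld
section

/-! The standard world over base frames; `ExwStmt` from `Ms1Stmt`. -/

set_option linter.unusedSectionVars false

open scoped Manifold ContDiff Topology InnerProductSpace Classical
open Set Filter Function Module Matrix

noncomputable section
namespace Crest.Agent.X212.Met55

open Sob92 Pj41 An Cyl58 Prm93 M Cyf70
open Dr59 (mf)

variable {X : Mf 4} {A κ : Type} [Fintype A] [Fintype κ] {M : Mark X A κ}

variable (M) in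
/-- the parameter seen on `Z σ` -/
def msk (σ : Set A) (t : A → ℝ) (a : A) : ℝ :=
  if a ∈ σ then 1 else if a ∈ M.sys.fr σ then t a else 0

section msk
variable {σ : Set A} {t t' : A → ℝ} {a b : A} {x : X.M}

theorem msk_mem (h : a ∈ σ) : msk M σ t a = 1 := if_pos h

theorem msk_fr (h : a ∈ M.sys.fr σ) : msk M σ t a = t a := (if_neg h.1).trans (if_pos h)

theorem msk_out (h : a ∉ σ) (h' : a ∉ M.sys.fr σ) : msk M σ t a = 0 :=
  (if_neg h).trans (if_neg h')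

theorem msk_congr (h : a ∈ M.sys.fr σ → t a = t' a) : msk M σ t a = msk M σ t' a := by
  unfold msk; split_ifs with h1 h2
  exacts [rfl, h h2, rfl]

theorem msk_br {p : Prm A} (h : p ∈ M.Br σ) : msk M σ p.2 = p.2 := by
  funext a
  unfold msk; split_ifs with h1 h2
  exacts [(h.2 h1).symm, rfl, (by_contra fun h0 => h2 ⟨h1, fun a' ha' => h.1.2 (Ne.symm h0)
    (Sys.inf_subset _ (h.2 ha')) (by rintro rfl; exact h1 ha')⟩)]

theorem contDiff_msk : ContDiff ℝ ∞ fun p : Prm A => (p.1, msk M σ p.2) := by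
  refine contDiff_fst.prodMk (contDiff_pi.2 fun a => ?_)
  unfold msk; split_ifs <;> fun_prop

theorem msk_cmp (c : M.Cl) (ha : a ∈ c.1) (hb : b ≠ a) (h : msk M c.1 t b ≠ 0) : M.sys.Cmp b a := by
  by_cases h1 : b ∈ c.1
  · exact c.2 h1 ha hb
  · exact (of_not_not fun h2 => h (msk_out h1 h2) : b ∈ M.sys.fr c.1).2 a ha

theorem s_ne {a : A} (h : x ∉ (M.sys.w a).core) : (M.bn a).s x ≠ 0 := mt (M.bn a).s_eq_zero.1 h

theorem s_ne_of_cores (h : x ∉ M.sys.cores σ) (ha : a ∈ σ) : (M.bn a).s x ≠ 0 :=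
  s_ne fun h' => h (mem_biUnion ha h')

theorem gd_par (ht : t ∈ M.sys.Par) (h : x ∉ M.sys.cores (Sys.inf t)) : Gd M t x := fun a =>
  (ht.1 a).2.eq_or_lt.elim (fun h1 => .inr (s_ne_of_cores h h1)) .inl

theorem gd_msk (h : x ∉ M.sys.cores σ) (h' : ∀ a ∈ M.sys.fr σ, t a < 1 ∨ x ∉ (M.sys.w a).core) :
    Gd M (msk M σ t) x := fun a => by
  by_cases h1 : a ∈ σ
  · exact .inr (s_ne_of_cores h h1)
  by_cases h2 : a ∈ M.sys.fr σ
  · rw [msk_fr h2]; exact (h' a h2).imp_right s_ne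
  · exact .inl (by rw [msk_out h1 h2]; exact one_pos)

theorem lam_zero_of_cmp (hc : t b ≠ 0 → M.sys.Cmp b a) (hx : x ∈ range (M.bn a).j) :
    lam M b (t b) x = 0 := by_contra fun h0 => Mark.not_cmp
  ((M.bn b).slab_subset _ (mem_slab_of_lam h0)) hx (hc (pos_of_lam h0).ne')

theorem chi_clp (s : ℝ) : chi (clp s) = chi s := by
  by_cases h : |s| ≤ 3
  · rw [clp_eq h]
  · rw [chi_eq_zero (s := s) (by linarith [not_le.1 h]), chi_eq_zero]
    rcases lt_abs.1 (not_le.1 h) with h | h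
    exacts [le_abs.2 (.inl (by linarith [clp_ge h.le])),
      le_abs.2 (.inr (by linarith [clp_le (s := s) (by linarith)]))]

theorem off_j {r : ℝ} {q : (M.bn a).Y.M × ℝ} (h : (r, q.2) ∈ Off) :
    (r, (M.bn a).s ((M.bn a).j q)) ∈ Off :=
  h.imp_right fun h0 => s_ne (mt (M.bn a).j_mem_core.1 h0)

end msk

variable (C : Caps M) (c : M.Cl)

/-- the cap centred at a point -/
def ctr (z : (C.Z c).M) : W4 → (C.Z c).M :=
  if h : ∃ i : A × Bool, i.1 ∈ c.1 ∧ M.pin i.1 ∧ z = C.β c i.1 i.2 0 then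
    C.β c h.choose.1 h.choose.2 else fun _ => z

variable {C c}

theorem ctr_spec {z : (C.Z c).M} (hz : z ∉ (C.φ c).target) :
    ∃ a ∈ c.1, M.pin a ∧ ∃ b, ctr C c z = C.β c a b ∧ C.β c a b 0 = z := by
  have h : ∃ i : A × Bool, i.1 ∈ c.1 ∧ M.pin i.1 ∧ z = C.β c i.1 i.2 0 := by
    rw [C.tgt] at hz
    simp only [mem_ofPred_eq, not_forall, not_not] at hz
    obtain ⟨a, h1, h2, b, h3⟩ := hz
    exact ⟨(a, b), h1, h2, h3⟩
  exact ⟨_, h.choose_spec.1, h.choose_spec.2.1, _, dif_pos h, h.choose_spec.2.2.symm⟩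

theorem ctr_ctr : Ctr (C.φ c) (ctr C c) := fun z hz => by
  obtain ⟨a, h1, h2, b, h3, h4⟩ := ctr_spec hz
  rw [h3]; exact ⟨C.βoe c a h1 h2 b, h4⟩

theorem mem_src {x : X.M} : x ∈ (C.φ c).source ↔ x ∉ M.sys.cores c.1 := by rw [C.src]; rfl

theorem exists_src {z : (C.Z c).M} (hz : z ∈ (C.φ c).target) : ∃ x ∈ (C.φ c).source, C.φ c x = z :=
  ⟨_, (C.φ c).map_target hz, (C.φ c).right_inv hz⟩

theorem exists_pol {a : A} (ha : M.pin a) {v : V4} (hv : v ≠ 0) : ∃ y, v = ‖v‖ • M.th a y := by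
  have h0 := norm_ne_zero_iff.2 hv
  obtain ⟨y, hy⟩ := (M.rnd a ha).surj (‖v‖⁻¹ • v) (by
    rw [norm_smul, norm_inv, norm_norm, inv_mul_cancel₀ h0])
  exact ⟨y, by rw [hy, smul_inv_smul₀ h0]⟩

theorem half_src {a : A} (ha : a ∈ c.1) (b : Bool) (y : (M.bn a).Y.M) {r : ℝ} (hr : 0 < r) :
    (M.bn a).j (y, pm b * r) ∈ (C.φ c).source := mem_src.2 (Mark.j_not_mem c
  (.inl ⟨ha, mul_ne_zero (left_ne_zero_of_mul_eq_one (pm_mul_pm b)) hr.ne'⟩))

theorem mf_φj {a : A} {q : (M.bn a).Y.M × ℝ} (h : (M.bn a).j q ∈ (C.φ c).source)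
    (v : (M.bn a).Y.E × ℝ) : mf (IC (M.bn a).Y.I) (C.Z c).I (C.φ c ∘ (M.bn a).j) q v =
      dmp X.I (C.Z c).I (C.φ c) ((M.bn a).j q) (mf (IC (M.bn a).Y.I) X.I (M.bn a).j q v) :=
  DFunLike.congr_fun (Dr59.mf_comp ((pd_ld h).contMDiffAt.mdifferentiableAt (by simp))
    (((M.bn a).oe.contMDiff q).mdifferentiableAt (by simp))) v

/-- the broken pinched neck is the flat cap -/
theorem co_cap {a : A} (ha : a ∈ c.1) (hp : M.pin a) (b : Bool) (y : (M.bn a).Y.M) {r : ℝ}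
    (hr : 0 < r) : Co (atx (std (C.Z c).I (C.β c a b)) (C.β c a b (r • M.th a y))) fun i =>
      mf (IC (M.bn a).Y.I) (C.Z c).I (C.φ c ∘ (M.bn a).j) (y, pm b * r)
        (M.nf a 1 (y, pm b * r) i) := by
  have hβ := C.βoe c a ha hp b
  have hθ : ContMDiff (M.bn a).Y.I 𝓘(ℝ, V4) ∞ (M.th a) := by
    simpa using sm_slice_fst (M.rnd a hp).oe.contMDiff 0
  let f : (M.bn a).Y.M × ℝ → V4 := fun q => (pm b * q.2) • M.th a q.1
  have hf : MDifferentiableAt (IC (M.bn a).Y.I) 𝓘(ℝ, V4) f (y, pm b * r) :=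
    (((contMDiff_const.mul contMDiff_snd).smul (hθ.comp contMDiff_fst)) _).mdifferentiableAt
      (by simp)
  have e0 : f (y, pm b * r) = r • M.th a y := by simp only [f, ← mul_assoc, pm_mul_pm, one_mul]
  have e1 : C.φ c ∘ (M.bn a).j =ᶠ[𝓝 (y, pm b * r)] C.β c a b ∘ f := by
    filter_upwards [(isOpen_lt continuous_const (continuous_const.mul continuous_snd)).mem_nhds
      (show 0 < pm b * (y, pm b * r).2 by rwa [← mul_assoc, pm_mul_pm, one_mul])] with q hq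
    have := C.βφ c a ha hp b q.1 (pm b * q.2) hq
    rw [← mul_assoc, pm_mul_pm, one_mul] at this
    exact this.symm
  rw [Dr59.mf_congr e1, Dr59.mf_comp ((hβ.contMDiff _).mdifferentiableAt (by simp)) hf, atx_std hβ,
    e0]
  exact ((co_flat hp b y hr).map _).symm

variable {k0 : ℝ → Option κ → VF X.I X.M}

/-- the hub at a masked parameter is flat on the caps -/
theorem hub_flat (hk : ∀ u x, Sp (atx (k0 u) x)) {z : (C.Z c).M} (hz : z ∉ (C.φ c).target)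
    (p : Prm A) (v : W4) (hv : v ≠ 0) (h1 : ‖v‖ < 1) : ctr C c z v ∈ (C.φ c).target ∧
      Co (atx (std (C.Z c).I (ctr C c z)) (ctr C c z v))
        (atx (pfd (C.φ c) (hub M k0 (p.1, msk M c.1 p.2))) (ctr C c z v)) := by
  obtain ⟨a, ha, hp, b, h3, -⟩ := ctr_spec hz
  obtain ⟨y, hy⟩ := exists_pol hp hv
  have hr := norm_pos_iff.2 hv
  have hs := half_src (C := C) ha b y hr
  have hq : |(y, pm b * ‖v‖).2| ≤ 1 := by
    rw [abs_mul, abs_pm, one_mul, abs_norm]; exact h1.le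
  have h4 := co_cap (C := C) ha hp b y hr
  rw [h3, hy]
  refine ⟨by rw [C.βφ c a ha hp b y _ hr]; exact (C.φ c).map_source hs, h4.trans ?_⟩
  rw [C.βφ c a ha hp b y _ hr, atx_pfd hs]
  simp only [mf_φj hs]
  have h5 := co_neck (k0 := k0) (p := (p.1, msk M c.1 p.2)) (hk _ _)
    (gd_msk (mem_src.1 hs) fun a' h => .inr fun h' => Mark.not_cmp
      ((M.sys.w a').core_subset h') (mem_range_self _) (h.2 a ha))
    (fun b hb => lam_zero_of_cmp (msk_cmp c ha hb) (mem_range_self _))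
    ((show (1 / 2 : ℝ) ≤ 1 by norm_num).trans_eq (msk_mem ha).symm) hq
  simp only [msk_mem ha] at h5
  rw [atx_nF (hq.trans (by norm_num))] at h5
  exact h5.map _

variable (C) in
/-- the frame `r` on `Z c` is literal on the cylindrical bands of `c` and `m` -/
def LitF (m c : M.Cl) (r : Option κ → VF (C.Z c).I (C.Z c).M) : Prop :=
  ∀ a, ¬M.pin a → ∀ q : (M.bn a).Y.M × ℝ, M.Lit m.1 c.1 a q.2 → ∀ i,
    atx r (C.φ c ((M.bn a).j q)) i = mf (IC (M.bn a).Y.I) (C.Z c).I (C.φ c ∘ (M.bn a).j) q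
      (M.nf a (msk M c.1 0 a) q i)

theorem off_lit {m : M.Cl} {a : A} {s : ℝ} (h : M.Lit m.1 c.1 a s) : (msk M c.1 0 a, s) ∈ Off :=
  h.2.elim (fun h => .inr h.2) fun h => .inl (by rw [msk_fr h.2]; exact one_pos)

/-- deforming a model frame to the metric of another model frame gives that frame -/
theorem cF_lit {a : A} (ha : ¬M.pin a) {q : (M.bn a).Y.M × ℝ} (hs : (M.bn a).j q ∈ (C.φ c).source)
    {r : Option κ → VF (C.Z c).I (C.Z c).M} {ι : Type} [Fintype ι] [DecidableEq ι]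
    {w : ι → VF (C.Z c).I (C.Z c).M} {d t : ℝ} (hd : (d, q.2) ∈ Off) (ht : (t, q.2) ∈ Off)
    (hr : ∀ i, atx r (C.φ c ((M.bn a).j q)) i =
      mf (IC (M.bn a).Y.I) (C.Z c).I (C.φ c ∘ (M.bn a).j) q (M.nf a d q i))
    (hw : Co (atx w (C.φ c ((M.bn a).j q)))
      fun i => mf (IC (M.bn a).Y.I) (C.Z c).I (C.φ c ∘ (M.bn a).j) q (M.nf a t q i)) (i : Option κ) :
    atx (cF r w) (C.φ c ((M.bn a).j q)) i =
      mf (IC (M.bn a).Y.I) (C.Z c).I (C.φ c ∘ (M.bn a).j) q (M.nf a t q i) := by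
  have hl := ld_comp (pd_ld hs) ((M.bn a).oe.loc q)
  have h1 : fP r (C.φ c ((M.bn a).j q)) = fP (ce (M.gY a).e) q :=
    (fP_rel hl (e := M.nF a d) (Mark.sp_nf hd) fun i => (hr i).symm).symm.trans
      (fP_eq (Mark.sp_nf hd) (Mark.isP_nf hd))
  have h2 : Sp (atx r (C.φ c ((M.bn a).j q))) :=
    (sp_rel hl (e := M.nF a d) fun i => (hr i).symm).1 (Mark.sp_nf hd)
  let B : Matrix (Option κ) (Option κ) ℝ := diagonal fun i => M.wt a t q.2 i / M.wt a d q.2 i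
  have h3 : mix B (atx r (C.φ c ((M.bn a).j q))) = fun i =>
      mf (IC (M.bn a).Y.I) (C.Z c).I (C.φ c ∘ (M.bn a).j) q (M.nf a t q i) := by
    funext i
    have : mix B (atx r (C.φ c ((M.bn a).j q))) i = (M.wt a t q.2 i / M.wt a d q.2 i) •
        atx r (C.φ c ((M.bn a).j q)) i := by simp [mix, B, diagonal_apply]
    rw [this, hr, Mark.nf, Mark.nf, map_smul, map_smul, smul_smul,
      div_mul_cancel₀ _ (wt_pos hd i).ne']
  refine (cF_of_mix (B := B) h2 ⟨PosDef.diagonal fun i => div_pos (wt_pos ht i) (wt_pos hd i), ?_⟩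
    ?_ (h3 ▸ hw) i).trans (congrFun h3 i)
  · ext i k
    rw [h1, diagonal_mul, mul_diagonal, Mark.fP_ce]
    cases i <;> cases k <;> simp [cP, Mark.wt_some ha]
  · ext i k
    rw [h1, diagonal_mul, Matrix.sub_apply, Mark.fP_ce]
    cases i <;> cases k <;> simp [cP, Mark.wt_some ha, one_apply]

/-- base data of a standard world -/
structure BD (C : Caps M) where
  k0 : ℝ → Option κ → VF X.I X.M
  sm : ∀ u x i, VJ X.I (fun s => k0 s i) u x
  sp : ∀ u x, Sp (atx (k0 u) x)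
  r : ∀ _m c : M.Cl, Option κ → VF (C.Z c).I (C.Z c).M
  fr : ∀ m c z, FAt (r m c) z
  lit : ∀ m c, LitF C m c (r m c)

namespace BD
variable (D : BD C) (m c : M.Cl)

/-- the frames on `Z c` -/
def e (p : Prm A) : Option κ → VF (C.Z c).I (C.Z c).M :=
  trf (C.φ c) (ctr C c) (D.r m c) (hub M D.k0 (p.1, msk M c.1 p.2))

variable {m c}

theorem gd {p : Prm A} {x : X.M} (hx : x ∈ (C.φ c).source) (h : (p, C.φ c x) ∈ M.Ω c.1 (C.φ c)) :
    Gd M (msk M c.1 p.2) x :=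
  gd_msk (mem_src.1 hx) fun a ha => (h a ha).imp_right fun h h' => h (mem_image_of_mem _ h')

theorem spW {p : Prm A} {z : (C.Z c).M} (h : (p, z) ∈ M.Ω c.1 (C.φ c)) :
    Sp (atx (capW (C.φ c) (ctr C c) (hub M D.k0 (p.1, msk M c.1 p.2))) z) :=
  sp_capW ctr_ctr fun hz => sp_hub (D.sp _ _) (gd ((C.φ c).map_target hz)
    (by rwa [show C.φ c ((C.φ c).symm z) = z from (C.φ c).right_inv hz]))

variable (m c) in
/-- the layer `(m, c)` -/
def lay : Lay (C.Z c) (C.o c) (Prm A) (Option κ) (M.Ω c.1 (C.φ c)) where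
  F0 := rFr (D.r m c) (D.fr m c)
  vol := rFr_vol _ _
  e := D.e m c
  sm p z h i := by
    by_cases hz : z ∈ (C.φ c).target
    · obtain ⟨x, hx, rfl⟩ := exists_src hz
      exact vJ_trf (r := fun _ => D.r m c) hx (fun a => VJ.of_fixed ((D.fr m c _).sm a))
        (D.fr m c _).sp (fun a => VJ.reparam (X := fun p => hub M D.k0 p a)
          contDiff_msk.contDiffAt (vJ_hub (D.sp _ _) (D.sm _ _) (gd hx h) a))
        (sp_hub (D.sp _ _) (gd hx h)) i
    · exact vJ_trf_ctr (r := fun _ => D.r m c) ctr_ctr hz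
        (fun a => VJ.of_fixed ((D.fr m c _).sm a)) (D.fr m c _).sp (hub_flat D.sp hz) i
  sp _ _ h := sp_cF (D.fr m c _).sp (D.spW h)
  P _ _ h := fP_cF (D.fr m c _).sp (D.spW h)
  ob _ _ h := oc_cF (D.fr m c _).sp (D.spW h) (C.Z c).dim _

theorem co_e {p : Prm A} (hp : p ∈ M.Br c.1) {x : X.M} (hx : x ∉ M.sys.cores (Sys.inf p.2)) :
    Co (fun i => mf X.I (C.Z c).I (C.φ c) x (atx (hub M D.k0 p) x i)) (atx (D.e m c p) (C.φ c x)) := by
  rw [e, msk_br hp]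
  exact co_trf (mem_src.2 fun h => hx (biUnion_subset_biUnion_left hp.2 h)) (D.fr m c _).sp
    (sp_hub (D.sp _ _) (gd_par hp.1 hx))

theorem co_nk {a : A} {p : Prm A} (hp : p.2 ∈ M.sys.Par) (ht : 1 / 2 ≤ p.2 a)
    {q : (M.bn a).Y.M × ℝ} (hq : |q.2| ≤ 1) (ho : (p.2 a, q.2) ∈ Off) :
    Co (fun i => mf (IC (M.bn a).Y.I) X.I (M.bn a).j q (M.nf a (p.2 a) q i))
      (atx (hub M D.k0 p) ((M.bn a).j q)) := by
  have h0 : p.2 a ≠ 0 := by linarith
  rw [← atx_nF (hq.trans (by norm_num))]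
  exact co_neck (D.sp _ _) (gd_of_cell hp.2 h0 (mem_range_self _) (off_j ho))
    (fun b hb => lam_eq_zero hp.2 h0 (mem_range_self _) hb) ht hq

theorem lit_e {a : A} (ha : ¬M.pin a) {p : Prm A} (hp : p ∈ M.Br c.1) (ht : 1 / 2 ≤ p.2 a)
    {q : (M.bn a).Y.M × ℝ} (hq : M.Lit m.1 c.1 a q.2) (ho : (p.2 a, q.2) ∈ Off) (i : Option κ) :
    atx (D.e m c p) (C.φ c ((M.bn a).j q)) i =
      mf (IC (M.bn a).Y.I) (C.Z c).I (C.φ c ∘ (M.bn a).j) q (M.nf a (p.2 a) q i) := by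
  have hs := mem_src (C := C).2 hq.not_mem
  rw [e, trf]
  refine cF_lit ha hs (off_lit hq) ho (D.lit m c a ha q hq) ?_ i
  refine (co_capW ((C.φ c).map_source hs)).symm.trans ?_
  rw [atx_pfd hs, msk_br hp]
  simp only [mf_φj hs]
  exact ((D.co_nk hp.1 ht hq.1 ho).map _).symm

/-- **the standard world** -/
def world : World M where
  toCaps := C
  k p x := atx (hub M D.k0 p) x
  L := D.lay
  loc m c u t t' z h := funext fun i => trf_congr (fun _ => rfl) (fun x _ hx => by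
    rw [show atx (hub M D.k0 (u, msk M c.1 t)) x = atx (hub M D.k0 (u, msk M c.1 t')) x from
      funext (hub_loc fun a ha => msk_congr fun ha' => h a ha' ⟨x, ha, hx⟩)]
    exact Co.refl _) i
  co _ _ _ hp _ hx := D.co_e hp hx
  neck _ _ hp ht _ hq ho := D.co_nk hp ht hq ho
  lit _ _ _ ha _ hp ht _ hq ho := D.lit_e ha hp ht hq ho

theorem std {B : Bas X univ} (h : ∀ u x, Co (atx (D.k0 u) x) (atx (B.r u) x)) : Std D.world B := by
  refine ⟨fun u t _ x hx => ?_, fun u t ht a ha q ho α β => ?_⟩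
  · have h0 : ∀ a, lam M a (t a) x = 0 := fun a => by_contra fun h0 =>
      hx a (pos_of_lam h0).ne' ((M.bn a).slab_subset _ (mem_slab_of_lam h0))
    have h1 : Gd M t x := fun a => by
      by_cases h0 : t a = 0
      · exact .inl (by simp [h0])
      · exact .inr (s_ne fun h => hx a h0 ((M.sys.w a).core_subset h))
    rw [show D.world.k (u, t) x = atx (D.k0 u) x from
      funext (hub_of_zero (p := (u, t)) (D.sp _ _) h1 h0)]
    exact h u x
  · have h0 := fun b hb => lam_eq_zero ht.2 ha (mem_range_self q) (b := b) hb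
    have h1 := hb_hub (k0 := D.k0) (p := (u, t)) (D.sp _ _)
      (gd_of_cell ht.2 ha (mem_range_self q) (off_j ho)) α β
    rw [Finset.prod_eq_single a (fun b _ hb => by rw [h0 b hb, sub_zero]) (by simp),
      Finset.sum_eq_single a (fun b _ hb => by rw [h0 b hb, zero_mul]) (by simp),
      hb_one, hb_one, hb_one, h u _ α β, lam, (M.bn a).s_j, chi_clp] at h1
    refine h1.trans ?_
    by_cases hq : |q.2| ≤ 3
    · rw [atx_nF hq]; rfl
    · simp only [chi_eq_zero (s := q.2) (by linarith [not_le.1 hq]), mul_zero, zero_mul]; rfl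

end BD

/-! ### existence of base frames -/

theorem exists_frame_Z (C : Caps M) (c : M.Cl) :
    ∃ (ι : Type) (_ : Fintype ι) (e : ι → VF (C.Z c).I (C.Z c).M), ∀ z, FAt e z := by
  have := M.cpt
  obtain ⟨N, f, hf⟩ := exists_frame (I := X.I) (M := X.M)
  have hK : (C.φ c).targetᶜ.Finite :=
    (finite_range fun i : A × Bool => C.β c i.1 i.2 0).subset fun z hz =>
      let ⟨a, _, _, b, _, h⟩ := ctr_spec hz; ⟨(a, b), h⟩
  obtain ⟨N', r, -, -, -, h, -⟩ := exists_patch (e := pfd (C.φ c) f) hK.isCompact isOpen_univ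
    (subset_univ _) fun z hz => by
      obtain ⟨x, hx, rfl⟩ := exists_src (of_not_not hz)
      exact (hf x).pfd hx
  exact ⟨_, inferInstance, r, h⟩

theorem nF_spare {a : A} {k : κ} (h : ∀ y, atx (M.gY a).e y k = 0) (t : ℝ) (x : X.M) :
    nF M a t (some k) x = 0 := by
  have : bF M a (some k) x = 0 := by
    by_cases hx : x ∈ range (M.bn a).j
    · obtain ⟨q, rfl⟩ := hx
      refine (pfv_rel (I := IC (M.bn a).Y.I) (I' := X.I) (M.bn a).oe.inj _ q).symm.trans ?_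
      rw [show ce (M.gY a).e (some k) q = 0 from Prod.ext (h q.1) rfl, map_zero]
    · exact pfv_of_notMem _ hx
  rw [nF, this, smul_zero]

theorem exists_litF (hS : M.Spare) (m c : M.Cl) {e : Fin 8 → VF (C.Z c).I (C.Z c).M}
    (he : ∀ z, FAt e z) : ∃ r, (∀ z, FAt r z) ∧ LitF C m c r := by
  obtain ⟨g, hg⟩ := hS
  have gi : Injective (some ∘ g) := (Option.some_injective _).comp g.injective
  let J : A → Prop := fun a => ¬M.pin a ∧ (a ∈ c.1 ∨ a ∈ m.1 ∧ a ∈ M.sys.fr c.1)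
  let t : A → ℝ := fun a => if J a then 1 else 0
  have hJ : ∀ a, t a ≠ 0 → J a := fun a h => by_contra fun h' => h (if_neg h')
  have hc : M.sys.Cell (support t) := fun a ha b hb hne => by
    rcases (hJ a ha).2 with h | h <;> rcases (hJ b hb).2 with h' | h'
    exacts [c.2 h h' hne, (h'.2.2 a h).symm, h.2.2 b h', m.2 h.1 h'.1 hne]
  let N : Option κ → VF X.I X.M := fun i x => ∑ a, lam M a (t a) x • nF M a (msk M c.1 0 a) i x
  have ho : ∀ x ∈ (C.φ c).source, Gd M (msk M c.1 0) x := fun x hx =>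
    gd_msk (mem_src.1 hx) fun _ _ => .inl one_pos
  have hl : ∀ a x, FSm X.I (lam M a (t a)) x := fun a x => JAt.right jAt_lam
  have hN : ∀ x ∈ (C.φ c).source, ∀ i, VAt X.I (N i) x := fun x hx i => VAt.sum fun a _ => by
    by_cases h4 : |(M.bn a).s x| < 3
    · exact VAt.smul (hl a x) (vJ_nF h4 (ho x hx a) i).right
    · refine VAt.zero.congr (mem_of_superset
        ((isOpen_lt continuous_const (M.bn a).contMDiff_s.continuous.abs).mem_nhds
          (show 2 < |(M.bn a).s x| by linarith [not_lt.1 h4])) fun z hz => ?_)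
      show _ • _ = _
      rw [of_not_not fun h0 => (abs_lt_of_lam h0).not_gt hz, zero_smul]
  have hN1 : ∀ a x, lam M a (t a) x ≠ 0 → ∀ i,
      N i x = lam M a (t a) x • nF M a (msk M c.1 0 a) i x := fun a x h i =>
    Finset.sum_eq_single a (fun b _ hb => by rw [lam_eq_zero hc (pos_of_lam h).ne'
      ((M.bn a).slab_subset _ (mem_slab_of_lam h)) hb, zero_smul]) (by simp)
  let r0 : Option κ → VF (C.Z c).I (C.Z c).M := fun i z => pfd (C.φ c) N i z +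
    Met55.hl M t none ((C.φ c).symm z) • pad (some ∘ g) e i z
  let r : Option κ → VF (C.Z c).I (C.Z c).M := fun i z =>
    if z ∈ (C.φ c).target then r0 i z else pad (some ∘ g) e i z
  have hr : ∀ x ∈ (C.φ c).source, ∀ i, atx r (C.φ c x) i = dmp X.I (C.Z c).I (C.φ c) x (N i x) +
      (∏ a, (1 - lam M a (t a) x)) • atx (pad (some ∘ g) e) (C.φ c x) i := fun x hx i => by
    refine (if_pos ((C.φ c).map_source hx)).trans ?_
    simp only [r0, ← pfd_rel hx, show (C.φ c).symm (C.φ c x) = x from (C.φ c).left_inv hx]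
    rfl
  have hr0 : ∀ x ∈ (C.φ c).source, (∀ a, lam M a (t a) x = 0) → ∀ i,
      r i (C.φ c x) = pad (some ∘ g) e i (C.φ c x) := fun x hx h i =>
    (hr x hx i).trans (by
      rw [show N i x = 0 by simp [N, h], Finset.prod_eq_one fun a _ => by rw [h a, sub_zero],
        one_smul]
      exact (congrArg (· + _) (map_zero _)).trans (zero_add _))
  refine ⟨r, fun z => ?_, fun a ha q hq i => ?_⟩
  · by_cases hz : z ∈ (C.φ c).target
    · obtain ⟨x, hx, rfl⟩ := exists_src hz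
      have e0 : (C.φ c).symm (C.φ c x) = x := (C.φ c).left_inv hx
      refine ⟨fun i => VAt.congr (X := r0 i) (VAt.add (vAt_pbv (pd_ld' hz) (by
          rw [e0]; exact hN x hx i)) (VAt.smul ?_ (((he _).pad gi).sm i)))
        (mem_of_superset ((C.φ c).open_target.mem_nhds hz) fun _ h => if_pos h), ?_⟩
      · exact ContMDiffAt.comp (g := Met55.hl M t none) _
          (FSm.prod' fun a _ => contMDiffAt_const.sub (hl a _)) (pd_ld' hz).contMDiffAt
      by_cases h0 : ∀ a, lam M a (t a) x = 0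
      · rw [show atx r (C.φ c x) = _ from funext (hr0 x hx h0)]
        exact ((he _).pad gi).sp
      obtain ⟨a, ha⟩ := not_forall.1 h0
      refine ((sp_nF ((abs_lt_of_lam ha).trans (by norm_num)) (ho x hx a)).map
        (A := dmp X.I (C.Z c).I (C.φ c) x) (ld_bij (pd_ld hx)).2).of_range fun i => ?_
      by_cases hi : i ∈ range (some ∘ g)
      · obtain ⟨j, rfl⟩ := hi
        exact ⟨0, none, by
          rw [atx, Function.comp_apply, nF_spare (hg a (hJ a (pos_of_lam ha).ne').1 j), zero_smul]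
          exact map_zero _⟩
      · refine ⟨(lam M a (t a) x)⁻¹, i, ?_⟩
        rw [hr x hx, show atx (pad (some ∘ g) e) (C.φ c x) i = 0 from
          congrFun (pad_of_notMem e hi) _, smul_zero, add_zero,
          show N i x = lam M a (t a) x • atx (nF M a (msk M c.1 0 a)) x i from hN1 a x ha i,
          map_smul, inv_smul_smul₀ ha]
    · obtain ⟨a, ha, hp, b, -, rfl⟩ := ctr_spec hz
      refine ((he _).pad gi).congr (mem_of_superset
        ((C.βoe c a ha hp b).isOpen_range.mem_nhds (mem_range_self 0)) ?_)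
      rintro _ ⟨v, rfl⟩ i
      by_cases hv : v = 0
      · subst hv; exact if_neg hz
      obtain ⟨y, hy⟩ := exists_pol hp hv
      rw [hy, C.βφ c a ha hp b y _ (norm_pos_iff.2 hv)]
      refine hr0 _ (half_src ha b y (norm_pos_iff.2 hv)) (fun a' => lam_zero_of_cmp
        (fun h => ?_) (mem_range_self _)) i
      rcases (hJ a' h).2 with h' | h'
      exacts [c.2 h' ha (by rintro rfl; exact (hJ _ h).1 hp), h'.2.2 a ha]
  · have hs := mem_src (C := C).2 hq.not_mem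
    have h1 : lam M a (t a) ((M.bn a).j q) = 1 := lam_eq_one
      (by rw [show t a = 1 from if_pos ⟨ha, hq.2.imp_left And.left⟩]; norm_num) hq.1
    rw [hr _ hs, Finset.prod_eq_zero (Finset.mem_univ a) (by rw [h1, sub_self]), zero_smul,
      add_zero, hN1 a _ (by rw [h1]; exact one_ne_zero), h1, one_smul, mf_φj hs]
    exact congrArg _ (congrFun (atx_nF (hq.1.trans (by norm_num)) _) i)

/-- **EXW** -/
theorem exw (h : Ms1Stmt) : ExwStmt := fun X A κ _ _ M C B hS => by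
  have := M.cpt
  obtain ⟨N, f, hf⟩ := exists_frame (I := X.I) (M := X.M)
  obtain ⟨e, he⟩ := h X _ f hf
  obtain ⟨g, -⟩ := id hS
  have gi : Injective (some ∘ g) := (Option.some_injective _).comp g.injective
  have hr : ∀ m c : M.Cl, ∃ r, (∀ z, FAt r z) ∧ LitF C m c r := fun m c => by
    obtain ⟨ι, _, f, hf⟩ := exists_frame_Z C c
    obtain ⟨e, he⟩ := h _ _ f hf
    exact exists_litF hS m c he
  choose r h1 h2 using hr
  have h3 := fun x => (he x).pad gi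
  let D : BD C := ⟨fun u => cF (pad (some ∘ g) e) (B.r u), fun u x i =>
    vJ_cF (r := fun _ => pad (some ∘ g) e) (fun a => VJ.of_fixed ((h3 x).sm a)) (h3 x).sp
      (B.sm u x trivial) (B.sp u x trivial) (.of_forall fun _ => Co.refl _) i,
    fun u x => sp_cF (h3 x).sp (B.sp u x trivial), r, h1, h2⟩
  exact ⟨D.world, rfl, D.std fun u x => co_cF (h3 x).sp (B.sp u x trivial)⟩

end Crest.Agent.X212.Met55
end
end

-- ▼ part X212/Cyl58/Tr

/-!
# X212/Cyl58/Tr: transfer maps between capped manifolds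

`caps_pd` : local maps out of `Z c`;  `tr` : the partial diffeomorphism `Z c ⇀ Z' c'` of an
identification of marks;  `tr_ball` : the same with unmatched pinch walls that are balls of `X'`.
-/

set_option autoImplicit false
set_option linter.unusedSectionVars false
noncomputable section
open Set Filter Topology Function Metric TopologicalSpace
open scoped ContDiff Manifold

namespace Crest.Agent.X212.Cyl58

open Glue52 M Cyf70 An

variable {X X' : Mf 4} {A A' A₀ κ : Type} [Fintype A] [Fintype A'] [Fintype A₀] [Fintype κ]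
  {M : Mark X A κ} {M' : Mark X' A' κ}

/-- `p` is a capped half band of `c` whose thin part lies in `V` -/
def Thin (M : Mark X A κ) (c : M.Cl) (V : Set X.M) (p : A × Bool) : Prop :=
  p.1 ∈ c.1 ∧ M.pin p.1 ∧ ∃ ε > 0, ∀ y r, 0 < r → r < ε → (M.bn p.1).j (y, pm p.2 * r) ∈ V

theorem Thin.of_half {c : M.Cl} {V : Set X.M} {p : A × Bool} (h : p.1 ∈ c.1) (hp : M.pin p.1)
    (hV : (M.sys.w p.1).half p.2 ⊆ V) : Thin M c V p :=
  ⟨h, hp, 1, one_pos, fun y r hr _ => hV ((M.bn p.1).mem_half.2 ⟨y, r, hr, rfl⟩)⟩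

variable (C : Caps M) (C' : Caps M') {c : M.Cl} {c' : M'.Cl} {V : Set X.M}

theorem φ_mem_cext (hU : V ⊆ (M.sys.cores c.1)ᶜ) {J : Set (A × Bool)}
    (hJ : ∀ p ∈ J, p.1 ∈ c.1 ∧ M.pin p.1) {x : X.M} (hx : x ∉ M.sys.cores c.1) :
    C.φ c x ∈ cext C c V J ↔ x ∈ V := cext_eq C V hJ ▸ (capsD C c).φ_mem_ext hU hx

theorem β_mem_cext {J : Set (A × Bool)} {p : A × Bool} (hp : p ∈ J) (h : p.1 ∈ c.1 ∧ M.pin p.1)
    (hV : (M.sys.w p.1).half p.2 ⊆ V) (z : V4) : C.β c p.1 p.2 z ∈ cext C c V J := by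
  by_cases e : z = 0
  · exact .inr ⟨p, hp, by rw [e]⟩
  · obtain ⟨y, hy⟩ := rnd_exists (M.rnd _ h.2) e
    have h0 := norm_pos_iff.2 e
    exact .inl ⟨_, hV ((M.bn p.1).mem_half.2 ⟨y, _, h0, rfl⟩), by rw [← C.βφ c _ h.1 h.2 _ y _ h0, hy]⟩

theorem Thin.eventually {p : A × Bool} (h : Thin M c V p) :
    ∀ᶠ z in 𝓝[≠] (0 : V4), C.β c p.1 p.2 z ∈ C.φ c '' V := by
  obtain ⟨h1, h2, ε, h0, h⟩ := h
  filter_upwards [self_mem_nhdsWithin, mem_nhdsWithin_of_mem_nhds (ball_mem_nhds 0 h0)] with z e hz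
  obtain ⟨y, hy⟩ := rnd_exists (M.rnd _ h2) e
  have h0 := norm_pos_iff.2 e
  exact ⟨_, h y _ h0 (mem_ball_zero_iff.1 hz), by rw [← C.βφ c _ h1 h2 _ y _ h0, hy]⟩

theorem cext_subset_closure {J : Set (A × Bool)} (hJ : ∀ p ∈ J, Thin M c V p) :
    cext C c V J ⊆ closure (C.φ c '' V) := by
  rintro z (h | ⟨p, hp, rfl⟩)
  · exact subset_closure h
  · exact mem_closure_of_tendsto ((C.βoe c _ (hJ p hp).1 (hJ p hp).2.1 _).continuous.continuousAt.mono_left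
      nhdsWithin_le_nhds) ((hJ p hp).eventually C)

theorem thin_half {J : Set (A × Bool)} (hJ : ∀ p ∈ J, Thin M c V p) :
    ∀ p ∈ (Subtype.val ⁻¹' J : Set (PB M c)), ∃ ε > 0, (mkHB M c).half p (Ioo 0 ε) ⊆ V := fun p hp => by
  obtain ⟨-, -, ε, h0, h⟩ := hJ p hp
  refine ⟨ε, h0, fun x hx => ?_⟩
  obtain ⟨y, r, hr, rfl⟩ := (mkHB M c).mem_half.1 hx
  exact h y r hr.1 hr.2

theorem isOpen_cext (hV : IsOpen V) (hU : V ⊆ (M.sys.cores c.1)ᶜ) {J : Set (A × Bool)}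
    (hJ : ∀ p ∈ J, Thin M c V p) : IsOpen (cext C c V J) :=
  cext_eq C V (fun p hp => ⟨(hJ p hp).1, (hJ p hp).2.1⟩) ▸ (capsD C c).isOpen_ext hV hU (thin_half hJ)

section Gen

variable {EN HN : Type*} [NormedAddCommGroup EN] [NormedSpace ℝ EN] [TopologicalSpace HN]
  {IN : ModelWithCorners ℝ EN HN} {N : Type*} [TopologicalSpace N] [ChartedSpace HN N]

/-- LOCAL maps out of `Z c` -/
theorem caps_pd (hV : IsOpen V) (hU : V ⊆ (M.sys.cores c.1)ᶜ) {J : Set (A × Bool)}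
    (hJ : ∀ p ∈ J, Thin M c V p) {g0 : X.M → N} {g : A × Bool → V4 → N}
    (l0 : ∀ x ∈ V, IsLocalDiffeomorphAt X.I IN ∞ g0 x) (i0 : InjOn g0 V)
    (l1 : ∀ p ∈ J, IsLocalDiffeomorphAt 𝓘(ℝ, V4) IN ∞ (g p) 0)
    (hc : ∀ p ∈ J, ∀ y r, 0 < r → (M.bn p.1).j (y, pm p.2 * r) ∈ V →
      g p (r • M.th p.1 y) = g0 ((M.bn p.1).j (y, pm p.2 * r)))
    (h1 : ∀ p ∈ J, ∀ x ∈ V, g0 x ≠ g p 0) (h2 : ∀ p ∈ J, ∀ q ∈ J, g p 0 = g q 0 → p = q) :
    ∃ Ψ : PartialDiffeomorph (C.Z c).I IN (C.Z c).M N ∞, Ψ.source = cext C c V J ∧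
      Ψ.target = g0 '' V ∪ {z | ∃ p ∈ J, z = g p 0} ∧ (∀ x ∈ V, Ψ (C.φ c x) = g0 x) ∧
      ∀ p ∈ J, ∀ z, C.β c p.1 p.2 z ∈ cext C c V J → Ψ (C.β c p.1 p.2 z) = g p z := by
  have := M.con
  have hz : ∀ (p : PB M c) (z : V4), z ∉ range (mkCap M c p).c → z = 0 := fun p z h =>
    (rndCap_range (M.rnd _ p.2.2)).1 h
  have hJ' : ∀ p ∈ J, p.1 ∈ c.1 ∧ M.pin p.1 := fun p hp => ⟨(hJ p hp).1, (hJ p hp).2.1⟩
  obtain ⟨Ψ, k1, k2, k3, k4⟩ := (capsD C c).exists_pd (IN := IN) hV hU (thin_half hJ)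
    (g := fun p => g p.1) l0 i0 (fun p hp z h => hz p z h ▸ l1 p hp)
    (fun p _ z h w h' _ => (hz p z h).trans (hz p w h').symm)
    (fun p hp y r hr h => (congrArg (g p.1) (rndCap_log (M.rnd _ p.2.2) y hr)).trans (hc p hp y r hr h))
    (fun p hp z h x hx => hz p z h ▸ h1 p hp x hx)
    fun p hp q hq z h w h' e => Subtype.ext (h2 p hp q hq ((congrArg (g p) (hz p z h).symm).trans
      (e.trans (congrArg (g q) (hz q w h')))))
  refine ⟨Ψ, k1.trans (cext_eq C V hJ').symm, k2.trans (congrArg (g0 '' V ∪ ·) (Set.ext fun z =>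
    ⟨fun k => ?_, fun ⟨p, hp, e⟩ => mem_iUnion₂.2 ⟨⟨p, hJ' p hp⟩, hp, (0 : V4),
      (rndCap_range (M.rnd _ (hJ' p hp).2)).2 rfl, e.symm⟩⟩)), k3,
    fun p hp z h => k4 ⟨p, hJ' p hp⟩ hp z (cext_eq C V hJ' ▸ h)⟩
  obtain ⟨p, hp, w, hw, e⟩ := mem_iUnion₂.1 k
  exact ⟨p, hp, by rw [← e, hz p w hw]⟩

end Gen

variable (I : MId M M' A₀)

theorem pos_tr {Ψ : PartialDiffeomorph (C.Z c).I (C'.Z c').I (C.Z c).M (C'.Z c').M ∞} (hV : IsOpen V)
    (hs : V ⊆ I.ψ.source) (hU : V ⊆ (M.sys.cores c.1)ᶜ) (hU' : ∀ x ∈ V, I.ψ x ∉ M'.sys.cores c'.1)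
    (h1 : C.φ c '' V ⊆ Ψ.source) (h2 : Ψ.source ⊆ closure (C.φ c '' V))
    (h3 : ∀ x ∈ V, Ψ (C.φ c x) = C'.φ c' (I.ψ x)) :
    Orx52.Pos (C.Z c).I (C'.Z c').I Ψ Ψ.source (C.o c) (C'.o c') := by
  have p1 : Orx52.Pos X.I (C.Z c).I (C.φ c) V M.o (C.o c) :=
    Orx52.Pos.mono (Orx52.same_symm (C.oφ c)) (C.src c ▸ hU)
  have p2 : Orx52.Pos X'.I (C'.Z c').I (C'.φ c') (C'.φ c').source M'.o (C'.o c') :=
    Orx52.same_symm (C'.oφ c')
  have p3 : Orx52.Pos X.I X'.I I.ψ V M.o M'.o := Orx52.Pos.mono (Orx52.same_symm I.ori) hs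
  have p4 := (p2.comp p3 (fun _ hy => Orx52.ldp _ hy) (fun _ hx => Orx52.ldp _ (hs hx))
    fun x hx => C'.src c' ▸ hU' x hx).congr (f' := Ψ ∘ C.φ c) hV h3
  exact (p4.of_comp p1 (fun x hx => Orx52.ldp _ (h1 ⟨x, hx, rfl⟩)) fun x hx => caps_ld C (hU hx)).closure
    h2 (Orx52.oriOn (C.ori c) _) (Orx52.oriOn (C'.ori c') univ) (fun _ hy => Orx52.ldp _ hy)
    (mapsTo_univ _ _)

/-- TRANSFER with balls: the half bands in `J` are matched, those in `K` are punctured balls `e` of `X'` -/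
theorem tr_ball (hV : IsOpen V) (hs : V ⊆ I.ψ.source) (hU : V ⊆ (M.sys.cores c.1)ᶜ)
    (hU' : ∀ x ∈ V, I.ψ x ∉ M'.sys.cores c'.1) {J : Set (A₀ × Bool)}
    (hJ : ∀ p ∈ J, Thin M c V (I.f p.1, p.2) ∧ I.f' p.1 ∈ c'.1) {K : Set (A × Bool)}
    (hK : ∀ p ∈ K, Thin M c V p ∧ p.1 ∉ range I.f) {e : A × Bool → V4 → X'.M}
    (e1 : ∀ p ∈ K, IsLocalDiffeomorphAt 𝓘(ℝ, V4) X'.I ∞ (e p) 0)
    (e2 : ∀ p ∈ K, e p 0 ∉ M'.sys.cores c'.1 ∧ e p 0 ∉ I.ψ '' V)
    (e3 : ∀ p ∈ K, ∀ y r, 0 < r → (M.bn p.1).j (y, pm p.2 * r) ∈ V →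
      e p (r • M.th p.1 y) = I.ψ ((M.bn p.1).j (y, pm p.2 * r)))
    (e4 : ∀ p ∈ K, ∀ q ∈ K, e p 0 = e q 0 → p = q) :
    ∃ Ψ : PartialDiffeomorph (C.Z c).I (C'.Z c').I (C.Z c).M (C'.Z c').M ∞,
      Ψ.source = cext C c V (Prod.map I.f id '' J ∪ K) ∧
      Ψ.target = cext C' c' (I.ψ '' V ∪ {x | ∃ p ∈ K, x = e p 0}) (Prod.map I.f' id '' J) ∧
      (∀ x ∈ V, Ψ (C.φ c x) = C'.φ c' (I.ψ x)) ∧
      (∀ p ∈ J, ∀ z, C.β c (I.f p.1) p.2 z ∈ Ψ.source →
        Ψ (C.β c (I.f p.1) p.2 z) = C'.β c' (I.f' p.1) p.2 z) ∧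
      (∀ p ∈ K, ∀ z, C.β c p.1 p.2 z ∈ Ψ.source → Ψ (C.β c p.1 p.2 z) = C'.φ c' (e p z)) ∧
      Orx52.Pos (C.Z c).I (C'.Z c').I Ψ Ψ.source (C.o c) (C'.o c') := by
  let g : A × Bool → V4 → (C'.Z c').M := fun p =>
    extend I.f (fun a => C'.β c' (I.f' a) p.2) (fun _ => C'.φ c' ∘ e p) p.1
  have g1 : ∀ p : A₀ × Bool, g (Prod.map I.f id p) = C'.β c' (I.f' p.1) p.2 := fun p =>
    I.f.injective.extend_apply _ _ p.1
  have g2 : ∀ p ∈ K, g p = C'.φ c' ∘ e p := fun p hp => extend_apply' _ _ _ (hK p hp).2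
  have pn : ∀ p ∈ J, M'.pin (I.f' p.1) := fun p hp => (I.pin _).2 (hJ p hp).1.2.1
  have hT : ∀ p ∈ Prod.map I.f id '' J ∪ K, Thin M c V p := by
    rintro _ (⟨p, hp, rfl⟩ | hp)
    exacts [(hJ p hp).1, (hK _ hp).1]
  obtain ⟨Ψ, k1, k2, k3, k4⟩ := caps_pd C (IN := (C'.Z c').I) hV hU hT (g0 := C'.φ c' ∘ I.ψ) (g := g)
    (fun x hx => ld_comp (caps_ld C' (hU' x hx)) (Orx52.ldp _ (hs hx)))
    (fun x hx y hy h => I.ψ.injOn (hs hx) (hs hy) (caps_inj C' (hU' x hx) (hU' y hy) h))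
    (by
      rintro _ (⟨p, hp, rfl⟩ | hp)
      · exact g1 p ▸ (C'.βoe c' _ (hJ p hp).2 (pn p hp) _).loc 0
      · exact g2 _ hp ▸ ld_comp (caps_ld C' (e2 _ hp).1) (e1 _ hp))
    (by
      rintro _ (⟨p, hp, rfl⟩ | hp) y r hr h
      · rw [g1]
        change C'.β c' _ _ (r • M.th (I.f p.1) y) = C'.φ c' (I.ψ ((M.bn (I.f p.1)).j (y, pm p.2 * r)))
        rw [I.jj, ← I.th _ (hJ p hp).1.2.1, C'.βφ c' _ (hJ p hp).2 (pn p hp) _ _ _ hr]
      · rw [g2 _ hp, comp_apply, e3 _ hp y r hr h, comp_apply])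
    (by
      rintro _ (⟨p, hp, rfl⟩ | hp) x hx
      · exact g1 p ▸ caps_ne C' (hU' x hx) (hJ p hp).2 (pn p hp) _
      · exact g2 _ hp ▸ fun h => (e2 _ hp).2 ⟨x, hx, caps_inj C' (hU' x hx) (e2 _ hp).1 h⟩)
    (by
      rintro _ (⟨p, hp, rfl⟩ | hp) _ (⟨q, hq, rfl⟩ | hq) h
      · rw [g1, g1] at h
        obtain ⟨h1, h2⟩ := caps_disj C' (hJ p hp).2 (pn p hp) (hJ q hq).2 (pn q hq) h
        rw [Prod.ext (I.f'.injective h1) h2]
      · rw [g1, g2 _ hq] at h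
        exact (caps_ne C' (e2 _ hq).1 (hJ p hp).2 (pn p hp) _ h.symm).elim
      · rw [g1, g2 _ hp] at h
        exact (caps_ne C' (e2 _ hp).1 (hJ q hq).2 (pn q hq) _ h).elim
      · rw [g2 _ hp, g2 _ hq] at h
        exact e4 _ hp _ hq (caps_inj C' (e2 _ hp).1 (e2 _ hq).1 h))
  refine ⟨Ψ, k1, k2.trans ?_, k3, fun p hp z h => ?_, fun p hp z h => ?_,
    pos_tr C C' I hV hs hU hU' (k1 ▸ subset_union_left) (k1 ▸ cext_subset_closure C hT) k3⟩
  · rw [cext, image_union, image_comp, union_assoc]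
    refine congrArg₂ _ rfl (Set.ext fun z => ⟨?_, ?_⟩)
    · rintro ⟨_, ⟨p, hp, rfl⟩ | hp, rfl⟩
      · exact .inr ⟨_, ⟨p, hp, rfl⟩, congrFun (g1 p) 0⟩
      · exact .inl ⟨_, ⟨_, hp, rfl⟩, (congrFun (g2 _ hp) 0).symm⟩
    · rintro (⟨_, ⟨p, hp, rfl⟩, rfl⟩ | ⟨_, ⟨p, hp, rfl⟩, rfl⟩)
      · exact ⟨p, .inr hp, (congrFun (g2 _ hp) 0).symm⟩
      · exact ⟨_, .inl ⟨p, hp, rfl⟩, (congrFun (g1 p) 0).symm⟩
  · exact (k4 _ (.inl ⟨p, hp, rfl⟩) z (k1 ▸ h)).trans (congrFun (g1 p) z)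
  · exact (k4 _ (.inr hp) z (k1 ▸ h)).trans (congrFun (g2 p hp) z)

/-- TRANSFER -/
theorem tr (hV : IsOpen V) (hs : V ⊆ I.ψ.source) (hU : V ⊆ (M.sys.cores c.1)ᶜ)
    (hU' : ∀ x ∈ V, I.ψ x ∉ M'.sys.cores c'.1) {J : Set (A₀ × Bool)}
    (hJ : ∀ p ∈ J, Thin M c V (I.f p.1, p.2) ∧ I.f' p.1 ∈ c'.1) :
    ∃ Ψ : PartialDiffeomorph (C.Z c).I (C'.Z c').I (C.Z c).M (C'.Z c').M ∞,
      Ψ.source = cext C c V (Prod.map I.f id '' J) ∧
      Ψ.target = cext C' c' (I.ψ '' V) (Prod.map I.f' id '' J) ∧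
      (∀ x ∈ V, Ψ (C.φ c x) = C'.φ c' (I.ψ x)) ∧
      (∀ p ∈ J, ∀ z, C.β c (I.f p.1) p.2 z ∈ Ψ.source →
        Ψ (C.β c (I.f p.1) p.2 z) = C'.β c' (I.f' p.1) p.2 z) ∧
      Orx52.Pos (C.Z c).I (C'.Z c').I Ψ Ψ.source (C.o c) (C'.o c') := by
  have := M'.con
  obtain ⟨Ψ, k1, k2, k3, k4, -, k5⟩ := tr_ball C C' I hV hs hU hU' hJ (K := ∅)
    (e := fun _ _ => Classical.arbitrary _) (by simp) (by simp) (by simp) (by simp) (by simp)
  exact ⟨Ψ, by simpa using k1, by simpa using k2, k3, k4, k5⟩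

/-- matched cells of a global identification have the same cores -/
theorem cores_iff (hc : c.1 ⊆ range I.f) (hc' : c'.1 ⊆ range I.f')
    (h : ∀ a, I.f a ∈ c.1 ↔ I.f' a ∈ c'.1) {x : X.M} (hx : x ∈ I.ψ.source) :
    I.ψ x ∈ M'.sys.cores c'.1 ↔ x ∈ M.sys.cores c.1 := by
  simp only [Sys.cores, mem_iUnion, exists_prop]
  constructor
  · rintro ⟨a', ha, k⟩
    obtain ⟨a, rfl⟩ := hc' ha
    exact ⟨_, (h a).2 ha, fun b hb => k b ((I.sd a b x hx).2 hb)⟩
  · rintro ⟨a', ha, k⟩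
    obtain ⟨a, rfl⟩ := hc ha
    exact ⟨_, (h a).1 ha, fun b hb => k b ((I.sd a b x hx).1 hb)⟩

/-- TRANSFER for a global identification and matched cells: a diffeomorphism -/
theorem tr_glob (hI : I.Glob) (hc : c.1 ⊆ range I.f) (hc' : c'.1 ⊆ range I.f')
    (h : ∀ a, I.f a ∈ c.1 ↔ I.f' a ∈ c'.1) :
    ∃ Ψ : (C.Z c).M ≃ₘ^∞⟮(C.Z c).I, (C'.Z c').I⟯ (C'.Z c').M,
      (∀ x ∉ M.sys.cores c.1, Ψ (C.φ c x) = C'.φ c' (I.ψ x)) ∧
      (∀ a, I.f a ∈ c.1 → M.pin (I.f a) → ∀ b z, Ψ (C.β c (I.f a) b z) = C'.β c' (I.f' a) b z) ∧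
      Orx52.Pos (C.Z c).I (C'.Z c').I Ψ univ (C.o c) (C'.o c') := by
  have hx : ∀ x, x ∈ I.ψ.source := fun x => hI.1 ▸ mem_univ x
  obtain ⟨Ψ, k1, k2, k3, k4, k5⟩ := tr C C' I (c := c) (c' := c') (M.sys.isClosed_cores _).isOpen_compl
    (fun x _ => hx x) subset_rfl (fun x k => mt (cores_iff I hc hc' h (hx x)).1 k)
    (J := {p | I.f p.1 ∈ c.1 ∧ M.pin (I.f p.1)}) fun p hp =>
      ⟨⟨hp.1, hp.2, 1, one_pos, fun y _ hr _ => half_not_mem hp.1 _ y hr⟩, (h _).1 hp.1⟩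
  have s1 : ∀ z, z ∈ Ψ.source := fun z => by
    rw [k1]
    rcases caps_surj C z with ⟨x, k, rfl⟩ | ⟨a', ha, hp, b, rfl⟩
    · exact .inl ⟨x, k, rfl⟩
    · obtain ⟨a, rfl⟩ := hc ha
      exact .inr ⟨_, ⟨(a, b), ⟨ha, hp⟩, rfl⟩, rfl⟩
  have s2 : ∀ z, z ∈ Ψ.target := fun z => by
    rw [k2]
    rcases caps_surj C' z with ⟨x, k, rfl⟩ | ⟨a', ha, hp, b, rfl⟩
    · have e : I.ψ (I.ψ.symm x) = x := I.ψ.right_inv (hI.2 ▸ mem_univ x)
      exact .inl ⟨x, ⟨_, mt (cores_iff I hc hc' h (hx _)).2 (e.symm ▸ k), e⟩, rfl⟩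
    · obtain ⟨a, rfl⟩ := hc' ha
      exact .inr ⟨_, ⟨(a, b), ⟨(h a).2 ha, (I.pin a).1 hp⟩, rfl⟩, rfl⟩
  exact ⟨diffeoOf Ψ Ψ.symm (fun z => (Orx52.ldp Ψ (s1 z)).contMDiffAt)
    (fun z => (Orx52.ldp Ψ.symm (s2 z)).contMDiffAt) (fun z => Ψ.left_inv (s1 z))
    fun z => Ψ.right_inv (s2 z), k3, fun a ha hp b z => k4 (a, b) ⟨ha, hp⟩ z (s1 _),
    k5.mono fun z _ => s1 z⟩

end Crest.Agent.X212.Cyl58
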