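import Crest.Agent.X212.Mon62.Hyp
import Crest.Agent.X212.Mon62.NkE
import Crest.Agent.X212.Lin97.Emb
import Crest.Agent.X212.Cyl58.SmB
import Crest.Agent.X212.Cgr76.Y
import Crest.Agent.X212.Mp86.NkE

-- ▼ part X212/Cyl58/SmA
section

/-! # Row 212, CRIT-SMS (helper58): the model on `Y` in the calculus of `Mon62` -/

set_option autoImplicit false
set_option linter.unusedSectionVars false
noncomputable section
open scoped Manifold ContDiff Topology InnerProductSpace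
open MeasureTheory Set Function Filter

namespace Crest.Agent.X212.Cyl58
open An Sob92 Mon62 Dgr80 Cyf70 Nd18 Crt72 Mon62.Dm
open Lin97 (Hy)

variable {E3 : Type} [NormedAddCommGroup E3] [NormedSpace ℝ E3] [FiniteDimensional ℝ E3]
  [MeasurableSpace E3] [BorelSpace E3]
  {H3 : Type} [TopologicalSpace H3] {I3 : ModelWithCorners ℝ E3 H3} [I3.Boundaryless]
  {Y : Type} [TopologicalSpace Y] [ChartedSpace H3 Y] [IsManifold I3 ∞ Y] [T2Space Y]
  [MeasurableSpace Y] [BorelSpace Y] [SecondCountableTopology Y] [CompactSpace Y]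
  {κ : Type} [Fintype κ] {lam : Type} [Fintype lam] {D : YD I3 Y κ lam} {β : YC Y κ lam}
  {N : Type} [NormedAddCommGroup N] [NormedSpace ℝ N]
  {V : Type} [NormedAddCommGroup V] [InnerProductSpace ℝ V]

theorem cn_cf (y : SP D β) (a : κ) (x : Y) : cn (cf y) a x = cn β a x + opL (y.1.1 x a) := rfl

theorem Φ_cf (y : SP D β) (x : Y) : (cf y).Φ x = β.Φ x + y.2.1 x := rfl

variable (h : Hy D β) (j : ℕ)

/-- the model at `β` -/
def dmY : Dm I3 Y κ (fun _ : Unit => CC D β j) fun _ => SP D β where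
  U _ := univ
  B _ := {0}
  op _ := isOpen_univ
  sub _ := subset_univ _
  F _ := D.F
  C := h.tame.choose
  tame _ := h.tame.choose_spec
  pt _ := pt D β j
  y₀ _ := 0
  mem _ _ := trivial
  dns _ := (Lin97.dense_pt (j := j)).closure_range.ge
  base _ := map_zero _

variable {j} {ε : Prop}

theorem ub_dm {f : Y → N} (hf : Sm I3 f) : Ell97.UB (dmY h j).P fun _ => f :=
  ub_of_finite fun _ => Cb_of_compact hf

theorem sz_dm {w : SP D β → Y → N} (hw : ∀ y, Sm I3 (w y)) : (dmY h j).Sz fun _ => w :=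
  ⟨fun _ y => Cb_of_compact (hw y), ub_dm h (hw _)⟩

theorem uc_dm {f : CC D β j → N} (hf : ContDiff ℝ ∞ f) : UC (dmY h j).toRg fun _ => f :=
  UC.of_compact (fun _ => isCompact_singleton) fun _ => hf.contDiffOn

theorem a0_α (hj : 4 ≤ j) : (dmY h j).A0 ε j fun _ y => y.1.1 :=
  A0.of_coord hj (p := fun _ => pc D β) (δ := fun _ v => v.1) (uc_dm h contDiff_fst)
    (sz_dm h fun y => y.1.2.1) fun _ y => (val_toH h.sup hj y.1).symm

theorem a0_φ (hj : 4 ≤ j) : (dmY h j).A0 ε j fun _ y => y.2.1 :=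
  A0.of_coord hj (p := fun _ => pv D β) (δ := fun _ v => v.2) (uc_dm h contDiff_snd)
    (sz_dm h fun y => y.2.2.1) fun _ y => (val_toH h.sup hj y.2).symm

theorem a0_Φ (hj : 4 ≤ j) : (dmY h j).A0 False j (V := β.m.V) fun _ y => (cf y).Φ :=
  (A0.fixed (ub_dm h h.sm_Φ)).add (a0_φ h hj)

theorem ff_dm : (dmY h j).FF fun _ _ => D.F :=
  ff_fixed (F' := fun _ => D.F) (fun _ => rfl) (fun a => ub_dm h (D.F.dv_sm a))
    (fun a b k => ub_dm h (D.F.c_sm a b k)) (fun _ => Mp86.bumps_of_compact)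
    (ρ := fun _ _ => 1) (ub_dm h contMDiff_const) fun _ _ => by simp only [one_smul]; rfl

theorem rb_dm [FiniteDimensional ℝ V] : (dmY h j).RB V fun _ _ => D.F :=
  rb_of_dr fun _ _ _ => dr_refl _

theorem re_dm [FiniteDimensional ℝ V] : (dmY h j).RE V fun _ _ => D.F :=
  re_compact (ff_dm h) fun _ _ => h.tame

theorem mul_cn (hj : 7 ≤ j) (a : κ) :
    (dmY h j).Mul j (V := β.m.V) (W := β.m.V) fun _ y => cn (cf y) a :=
  (Mul.fixed (ub_dm h (h.sm_cn a))).add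
    ((a0_α h (ε := True) (by omega)).toMul (opL ∘L Map77.pj _ a) hj)

theorem eng_cn (hj : 8 ≤ j) :
    (dmY h j).Eng (V := β.m.V) (fun _ _ => D.F) j fun _ y => cn (cf y) :=
  Eng.of hj (ff_dm h) (rb_dm h) (re_dm h) (mul_cn h (by omega)) fun _ y a x =>
    (h.cf y).hC.sk (some a) (x, 0)

/-- output: the gradient -/
theorem rpT_of {u : YF Y κ lam} (hj : 4 ≤ j)
    (hA : (dmY h j).A0 False j (V := Fm κ β.m.A) fun _ y => u.gA (cf y))
    (hP : (dmY h j).A0 False j (V := β.m.V) fun _ y => u.gP (cf y)) : ∃ T, RpT D β u j j T := by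
  obtain ⟨f, f1, f2⟩ := A0.out hj (ub_dm h h.cb_pc.choose_spec.1) (fun _ => Lin97.prj_pc.idem)
    (hA.pure_compact hj)
  obtain ⟨g, g1, g2⟩ := A0.out hj (ub_dm h h.sm_pv) (fun _ => h.prj_pv.idem) (hP.pure_compact hj)
  exact ⟨fun v => (f () v, g () v), (contDiffOn_univ.1 (f1.sm ())).prodMk
    (contDiffOn_univ.1 (g1.sm ())), fun y x => ⟨f2 () y x, g2 () y x⟩⟩

/-- output: the functional -/
theorem rpf_of {u : YF Y κ lam} (hj : 4 ≤ j) {w : SP D β → Y → ℝ}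
    (hw : (dmY h j).A0 False j fun _ => w) (e : ∀ y, u.f (cf y) = ∫ x, w y x ∂D.F.μ) :
    ∃ f, Rpf D β u j f := by
  obtain ⟨γ, g1, g2⟩ := hw.integral (ContinuousLinearMap.mul ℝ ℝ) hj (s := fun _ _ => 1)
    (fun _ => continuous_const) (fun _ => .of_compactSpace _) ⟨∫ _, ‖(1 : ℝ)‖ ∂D.F.μ, fun _ => le_rfl⟩
  refine ⟨γ (), (contDiffOn_univ.1 (g1.sm ())).continuous, fun y => ?_⟩
  rw [e]
  exact (g2 () y).symm.trans (by simp; rfl)

/-! ### spinor words -/

include h in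
theorem sm_ρ (a : Option κ) : Sm I3 (β.m.ρ a) := sm_slice_fst (h.hm.sρ a) 0

include h in
/-- the letters are smooth -/
theorem ylt_cases {t : YL Y} (ht : t.OK I3) :
    (∃ T, Sm I3 T ∧ ylt D.F β t = .op T) ∨ ylt D.F β t = .G := by
  rcases t with f | (_ | g) | _ | _
  exacts [.inl ⟨_, ContMDiff.smul ht contMDiff_const, rfl⟩, .inl ⟨_, sm_ρ h _, rfl⟩,
    .inl ⟨_, contMDiff_finsetSum fun a _ => (D.F.sm_D (ht g rfl) a).smul (sm_ρ h _), rfl⟩,
    .inl ⟨_, contMDiff_const, rfl⟩, .inr rfl]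

theorem ylt_cf (y : SP D β) (t : YL Y) : ylt D.F (cf y) t = ylt D.F β t := by
  rcases t with f | (_ | g) | _ | _ <;> rfl

theorem map_cf (y : SP D β) (u : List (YL Y)) : u.map (ylt D.F β) = u.map (ylt D.F (cf y)) :=
  congrArg (u.map ·) (funext (ylt_cf y)).symm

theorem pk_cf (y : SP D β) (T : Pk Y lam) : pk (cf y) T = pk β T := by cases T <;> rfl

theorem fa_ylt (hj : 4 ≤ j) {u : List (YL Y)} (hu : ∀ t ∈ u, t.OK I3) :
    Fa ((dmY h j).SLk (V := β.m.V) j) fun _ y => u.map (ylt D.F (cf y)) := by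
  refine cast (congrArg _ (funext₂ fun _ (y : SP D β) => map_cf y u))
    (Fa.list (L := fun t _ _ => ylt D.F β t) fun t ht => ?_)
  rcases ylt_cases h (hu t ht) with ⟨T, h1, e⟩ | e <;> rw [e]
  exacts [SLk.fixed hj (ub_dm h h1), .inr rfl]

section sw
variable (hj : 8 ≤ j) {T : Pk Y lam} {u v : List (YL Y)} (hT : Sm I3 (pk β T))
  (hu : ∀ t ∈ u, t.OK I3) (hv : ∀ t ∈ v, t.OK I3)
include hj hu

theorem a0_yw : (dmY h j).A0 False j (V := β.m.V) fun _ y => yw D.F (cf y) u :=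
  (eng_cn h hj).wd (fa_ylt h (by omega) hu) ((a0_Φ h (by omega)).nrm hj)

include hT

theorem a0_pk :
    (dmY h j).A0 False j (V := β.m.V) fun _ y x => pk (cf y) T x (yw D.F (cf y) u x) := by
  simp only [pk_cf]
  exact (a0_yw h hj hu).app (by omega) (ub_dm h hT)

include hv

theorem a0_ywA : (dmY h j).A0 False j (V := Fm κ β.m.A) fun _ y =>
    ywA D.F (cf y) u fun x => pk (cf y) T x (yw D.F (cf y) v x) :=
  (eng_cn h hj).gc opL ((a0_Φ h (by omega)).nrm hj) (fa_ylt h (by omega) hu) (a0_pk h hj hT hv)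

theorem a0_ywP : (dmY h j).A0 False j (V := β.m.V) fun _ y =>
    ywP D.F (cf y) u fun x => pk (cf y) T x (yw D.F (cf y) v x) :=
  have h0 := a0_Φ h (show 4 ≤ j by omega)
  have h1 := h0.isq hj
  have hl := (eng_cn h hj).bk (fa_ylt h (by omega) hu) (a0_pk h hj hT hv)
  have L : Lev j j j := Lev.self (by omega)
  (A0.smul L (by omega) h1 hl).aff.sub (by omega) (A0.smul L (by omega)
    ((h1.comp hj (contDiff_id.pow 3)).mul (by omega) (h0.inner (by omega) hl)) h0).aff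

include h

theorem rpT_sw : ∃ t, RpT D β (YF.sw D.F T u v) j j t :=
  rpT_of h (by omega) ((a0_ywA h hj hT hu hv).add (a0_ywA h hj hT hv hu))
    ((a0_ywP h hj hT hu hv).add (a0_ywP h hj hT hv hu))

theorem rpf_sw : ∃ f, Rpf D β (YF.sw D.F T u v) j f :=
  rpf_of h (by omega) ((a0_pk h hj hT hu).inner (by omega) (a0_yw h hj hv)).aff fun _ => rfl

end sw

end Crest.Agent.X212.Cyl58
end
end

-- ▼ part X212/Cyl58/SmC

/-! # Row 212, CRIT-SMS (helper58): gradient identity and `L²` Hessian from a Lipschitz bound -/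

set_option autoImplicit false
set_option linter.unusedSectionVars false
noncomputable section
open scoped Manifold ContDiff Topology InnerProductSpace
open MeasureTheory Set Function Filter

namespace Crest.Agent.X212.Cyl58
open An Sob92 Dgr80 Cyf70 Nd18 Crt72
open Lin97 (Hy)

variable {E3 : Type} [NormedAddCommGroup E3] [NormedSpace ℝ E3] [FiniteDimensional ℝ E3]
  [MeasurableSpace E3] [BorelSpace E3]
  {H3 : Type} [TopologicalSpace H3] {I3 : ModelWithCorners ℝ E3 H3} [I3.Boundaryless]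
  {Y : Type} [TopologicalSpace Y] [ChartedSpace H3 Y] [IsManifold I3 ∞ Y] [T2Space Y]
  [MeasurableSpace Y] [BorelSpace Y] [SecondCountableTopology Y] [CompactSpace Y]
  {κ : Type} [Fintype κ] {lam : Type} [Fintype lam] {D : YD I3 Y κ lam} {β : YC Y κ lam}

/-- the square of the `L²` norm of a variation -/
def sz (y : SP D β) : ℝ := ∫ x, (‖y.1.1 x‖ ^ 2 + ‖y.2.1 x‖ ^ 2) ∂D.F.μ

/-- small variations -/
def Sml (y : SP D β) : Prop := ∀ x, ‖y.1.1 x‖ ≤ 1 ∧ ‖y.2.1 x‖ ≤ 1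

variable (D β) in
/-- `L²` Lipschitz bound of the gradient and second order expansion of the functional -/
def Lip (u : YF Y κ lam) : Prop := ∃ C, 0 ≤ C ∧ ∀ y : SP D β, Sml y →
  LB D.F.μ (fun x => ‖(show Fm κ β.m.A from u.gA (cf y) x) - u.gA β x‖ ^ 2) (C * sz y) ∧
  LB D.F.μ (fun x => ‖(show β.m.V from u.gP (cf y) x) - u.gP β x‖ ^ 2) (C * sz y) ∧
  |u.f (cf y) - u.f β - ipg D u β y.1.1 y.2.1| ≤ C * sz y

theorem sz_smul (ε : ℝ) (y : SP D β) : sz (ε • y) = ε ^ 2 * sz y := by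
  rw [sz, sz, ← integral_const_mul]
  simp [norm_smul, mul_pow, mul_add]

theorem sz_le (y : SP D β) : sz y ≤ 2 * ‖pt D β 0 y‖ ^ 2 := by
  have h1 := pow_le_pow_left₀ (norm_nonneg _) (norm_fst_le (pt D β 0 y)) 2
  have h2 := pow_le_pow_left₀ (norm_nonneg _) (norm_snd_le (pt D β 0 y)) 2
  rw [← real_inner_self_eq_norm_sq] at h1 h2
  have h3 := (D.F.inner_toH 0 _ y.1 y.1).symm.trans_le h1
  have h4 := (D.F.inner_toH 0 _ y.2 y.2).symm.trans_le h2
  simp only [Pre.ip, real_inner_self_eq_norm_sq] at h3 h4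
  exact (integral_add (int_of (y.1.2.1.continuous.norm.fun_pow 2))
    (int_of (y.2.2.1.continuous.norm.fun_pow 2))).trans_le (by linarith)

theorem ev_sml (y : SP D β) : ∀ᶠ ε : ℝ in 𝓝 0, Sml (ε • y) := by
  obtain ⟨K, hK⟩ := bd_of y.1.2.1.continuous
  obtain ⟨L, hL⟩ := bd_of y.2.2.1.continuous
  have c : ∀ K : ℝ, ∀ᶠ ε : ℝ in 𝓝 0, ‖ε‖ * K < 1 := fun K =>
    ((continuous_norm.mul continuous_const).tendsto' 0 0 (by simp)).eventually (gt_mem_nhds one_pos)
  filter_upwards [c K, c L] with ε h1 h2 x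
  exact ⟨(norm_smul ε (y.1.1 x)).trans_le
      ((mul_le_mul_of_nonneg_left (hK x) (norm_nonneg _)).trans h1.le),
    (norm_smul ε (y.2.1 x)).trans_le
      ((mul_le_mul_of_nonneg_left (hL x) (norm_nonneg _)).trans h2.le)⟩

variable {u : YF Y κ lam}

theorem ipg_smul (ε : ℝ) (y : SP D β) :
    ipg D u β (ε • y).1.1 (ε • y).2.1 = ε * ipg D u β y.1.1 y.2.1 := by
  rw [ipg, ipg, ← integral_const_mul]
  simp [inner_smul_right, mul_add]

/-- the gradient identity -/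
theorem Lip.grad (hL : Lip D β u) (y : SP D β) :
    HasDerivAt (fun ε : ℝ => u.f (cf (ε • y))) (ipg D u β y.1.1 y.2.1) 0 := by
  obtain ⟨C, -, hC⟩ := hL
  refine hasDerivAt_iff_isLittleO_nhds_zero.2 ((Asymptotics.IsBigO.of_bound (C * sz y) ?_).trans_isLittleO
    (Asymptotics.isLittleO_pow_id one_lt_two))
  filter_upwards [ev_sml y] with ε hε
  have := (hC _ hε).2.2
  rw [ipg_smul, sz_smul] at this
  rw [zero_add, zero_smul, cf_zero, Real.norm_of_nonneg (sq_nonneg ε)]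
  exact this.trans_eq (by ring)

theorem sq_incl (h : Hy D β) {V : Type} [NormedAddCommGroup V] [InnerProductSpace ℝ V]
    [CompleteSpace V] {k : ℕ} (hk : 4 ≤ k) {p : Y → V →L[ℝ] V} (hp : Map77.Prj p) {a b : D.F.H k p}
    {f g : Y → V} (ha : ∀ x, D.F.val k p a x = p x (f x)) (hb : ∀ x, D.F.val k p b x = p x (g x))
    {c : ℝ} (hc : LB D.F.μ (fun x => ‖f x - g x‖ ^ 2) c) :
    ‖D.F.incl k 0 p a - D.F.incl k 0 p b‖ ^ 2 ≤ c := by
  rw [← map_sub, ← real_inner_self_eq_norm_sq, Cgr76.inner_incl h.sup hk hk]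
  refine (integral_mono_of_nonneg (.of_forall fun _ => real_inner_self_nonneg) hc.1
    (.of_forall fun x => ?_)).trans hc.2
  simp only [real_inner_self_eq_norm_sq, val_sub, Pi.sub_apply, ha, hb, ← map_sub]
  exact pow_le_pow_left₀ (norm_nonneg _)
    (Mp86.proj_le (hp.symm x) (ContinuousLinearMap.ext (hp.idem x)) _).2.2 2

theorem iC_pt {j l : ℕ} (h : l ≤ j) (y : SP D β) : iC D β j l (pt D β j y) = pt D β l y :=
  Prod.ext (incl_toH h _) (incl_toH h _)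

theorem iC_iC {j l m : ℕ} (h : l ≤ j) (h' : m ≤ l) (v : CC D β j) :
    iC D β l m (iC D β j l v) = iC D β j m v := Prod.ext (incl_incl h h' _) (incl_incl h h' _)

/-- the derivative of the gradient extends to `L²` -/
theorem Lip.ext (hL : Lip D β u) (h : Hy D β) {j : ℕ} (hj : 4 ≤ j) {T : CC D β j → CC D β j}
    (hT : RpT D β u j j T) : ∃ A : CC D β 0 →L[ℝ] CC D β 0,
      ∀ v, A (iC D β j 0 v) = iC D β j 0 (fderiv ℝ T 0 v) := by
  obtain ⟨C, C0, hC⟩ := hL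
  have hd := (hT.1.differentiable (by simp) 0).hasFDerivAt
  have hb : ∀ y, ‖iC D β j 0 (fderiv ℝ T 0 (pt D β j y))‖ ≤ √(2 * C) * ‖pt D β 0 y‖ := fun y => by
    have h1 : HasDerivAt (fun ε : ℝ => ε • pt D β j y) (pt D β j y) 0 := by
      simpa using (hasDerivAt_id (0 : ℝ)).smul_const (pt D β j y)
    have h2 := (iC D β j 0).hasFDerivAt.comp_hasDerivAt 0
      (hd.comp_hasDerivAt_of_eq 0 h1 (zero_smul _ _).symm)
    refine h2.le_of_lip' (by positivity) ?_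
    filter_upwards [ev_sml y] with ε hε
    obtain ⟨a1, a2, -⟩ := hC _ hε
    have e : C * sz (ε • y) ≤ (√(2 * C) * ‖pt D β 0 y‖ * ‖ε - 0‖) ^ 2 := by
      rw [sz_smul, sub_zero, mul_pow, mul_pow, Real.sq_sqrt (by positivity), Real.norm_eq_abs, sq_abs]
      nlinarith [mul_le_mul_of_nonneg_left (sz_le y) (mul_nonneg C0 (sq_nonneg ε))]
    have g0 := g_cf_zero (D := D) u β
    have b1 := sq_incl h hj Lin97.prj_pc (fun x => (hT.2 _ x).1)
      (fun x => (hT.2 0 x).1.trans (congrArg _ (congrFun g0.1 x))) a1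
    have b2 := sq_incl h hj h.prj_pv (fun x => (hT.2 _ x).2)
      (fun x => (hT.2 0 x).2.trans (congrArg _ (congrFun g0.2 x))) a2
    rw [map_smul, map_zero, ← zero_smul ℝ (pt D β j y)] at b1 b2
    exact norm_prod_le_iff.2 ⟨(abs_le_of_sq_le_sq' (b1.trans e) (by positivity)).2,
      (abs_le_of_sq_le_sq' (b2.trans e) (by positivity)).2⟩
  let L : SP D β →ₗ[ℝ] CC D β 0 := (iC D β j 0 ∘L fderiv ℝ T 0).toLinearMap ∘ₗ pt D β j
  refine ⟨L.extendOfNorm (pt D β 0), fun v => congrFun ((Lin97.dense_pt (j := j)).equalizer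
    (((L.extendOfNorm (pt D β 0)).continuous).comp (iC D β j 0).continuous)
    (iC D β j 0 ∘L fderiv ℝ T 0).continuous (funext fun y => ?_)) v⟩
  simp only [comp_apply]
  rw [iC_pt j.zero_le]
  exact LinearMap.extendOfNorm_eq Lin97.dense_pt ⟨_, hb⟩ y

theorem hs_aux {k : ℕ} {A : CC D β 0 →L[ℝ] CC D β 0} {B : CC D β (k + 1) →L[ℝ] CC D β (k + 1)}
    {B' : CC D β (k + 1) →L[ℝ] CC D β k} (hA : ∀ v, A (iC D β (k + 1) 0 v) = iC D β (k + 1) 0 (B v))
    (hk : 7 ≤ k) (hd : B' = iC D β (k + 1) k ∘L B) (z : CC D β (k + 1) × GG D β (k + 1)) :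
    emb D β 2 0 (A (Lin97.inv D β (1 / 2) 0 (D.F.incl 1 0 _ (D.F.incl (k + 1) 1 _
      (emb D β (1 / 2) (k + 1) z)))).1, 0) = D.F.incl k 0 _ (emb D β 2 k (B' z.1, 0)) := by
  rw [incl_incl (by omega) (by omega), Lin97.incl_emb (by omega), Lin97.inv_emb (by norm_num), hA,
    Lin97.incl_emb (by omega), hd, ContinuousLinearMap.comp_apply, iC_iC (by omega) (by omega),
    map_zero]

/-- the field `hs` of `Sm1` -/
theorem Lip.hs {k : ℕ} {act : ActT D k} {sf : SfT D} {o : (gm D k act sf).X} {i : BB D}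
    (hL : Lip D o.1 (yf D i)) (h : HY D) (hk : 7 ≤ k)
    (hT : ∃ T, RpT D o.1 (yf D i) (k + 1) (k + 1) T) :
    ∃ K, (gm D k act sf).IsHs o (fderiv ℝ ((gm D k act sf).τ i o) 0) K := by
  have hT' : RpT D o.1 (yf D i) (k + 1) (k + 1) (mT D o.1 (yf D i) (k + 1) (k + 1)) :=
    Classical.epsilon_spec hT
  obtain ⟨A, hA⟩ := hL.ext ⟨h, o.2⟩ (by omega) hT'
  have hd := ((iC D o.1 (k + 1) k).hasFDerivAt.comp 0
    (hT'.1.differentiable (by simp) 0).hasFDerivAt).fderiv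
  let K : XX D o.1 0 →L[ℝ] XX D o.1 0 := emb D o.1 2 0 ∘L ContinuousLinearMap.inl ℝ _ _ ∘L A ∘L
    ContinuousLinearMap.fst ℝ _ _ ∘L Lin97.inv D o.1 (1 / 2) 0
  exact ⟨K, fun z => hs_aux hA hk hd z⟩

/-! ### spinor words -/

theorem exp_aux {U V : Type} [NormedAddCommGroup U] [InnerProductSpace ℝ U] [NormedAddCommGroup V]
    [InnerProductSpace ℝ V] {f g : Y → ℝ} {a α : Y → U} {b φ : Y → V}
    (hf : Continuous fun x => f x - g x) (hg : Continuous g) (ha : Continuous a) (hb : Continuous b)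
    (hα : Continuous α) (hφ : Continuous φ) :
    ∫ x, f x ∂D.F.μ - ∫ x, g x ∂D.F.μ - ∫ x, (⟪a x, α x⟫_ℝ + ⟪b x, φ x⟫_ℝ) ∂D.F.μ =
      ∫ x, 1 * (f x - g x) ∂D.F.μ - ∫ x, ⟪α x, a x⟫_ℝ ∂D.F.μ - ∫ x, ⟪φ x, b x⟫_ℝ ∂D.F.μ := by
  simp only [one_mul, real_inner_comm (α _), real_inner_comm (φ _)]
  rw [integral_sub (int_of ((hf.fun_add hg).congr fun _ => sub_add_cancel _ _)) (int_of hg),
    integral_add (int_of (hα.inner ha)) (int_of (hφ.inner hb)), sub_add_eq_sub_sub]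

theorem lip_sw (h : Hy D β) {T : Pk Y lam} {u v : List (YL Y)} (hT : Sm I3 (pk β T))
    (sy : ∀ x v w, ⟪pk β T x v, w⟫_ℝ = ⟪v, pk β T x w⟫_ℝ) (hu : ∀ t ∈ u, t.OK I3)
    (hv : ∀ t ∈ v, t.OK I3) : Lip D β (YF.sw D.F T u v) := by
  obtain ⟨C, hF⟩ := h.tame
  let J := {y : SP D β // Sml y}
  have mc : ∀ {β}, Hy D β → Mp86.Mc I3 (cn β) := fun h =>
    ⟨h.sm_cn, fun a x => h.hC.sk (some a) (x, 0)⟩
  have Z := lz (r := opL) (A' := fun y : J => cn (cf y.1)) (α := fun y : J => y.1.1.1)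
    (φ := fun y : J => y.1.2.1) hF (mc h) (fun y => mc (h.cf y.1)) (fun y => cn_cf y.1)
    (fun y => y.1.1.2.1) fun y => y.1.2.2.1
  have S := lg0 (α := fun y : J => y.1.1.1) h.sm_Φ (fun y : J => y.1.2.2.1) Z.oφ
    fun y x => (y.2 x).2
  have W : ∀ {u : List (YL Y)}, (∀ t ∈ u, t.OK I3) →
      ∀ t ∈ u.map (ylt D.F β), t.Ad (Sm I3) fun _ : J => Sm I3 := fun hu =>
    List.forall_mem_map.2 fun t ht => by
      rcases ylt_cases h (hu t ht) with ⟨T, h1, e⟩ | e <;> rw [e]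
      exacts [ad_op h1, ⟨trivial, fun _ => trivial, trivial⟩]
  have L := (S.wd Z (W hu)).pair Z (S.wd Z (W hv)) (ad_op hT) sy
  have p1 : Pf (cx (fun y : J => y.1.1.1) (fun y : J => y.1.2.1) hF) (fun _ => 1) fun _ _ => 1 :=
    ⟨Cb_const _, fun _ => Cb_const _, ⟨1, fun _ => by simp⟩, ⟨1, zero_le_one, fun _ _ => by simp⟩,
      Cx.o2_zero.congr fun _ _ => sub_self _⟩
  obtain ⟨-, C1, c1, h1⟩ := L.A _ _ p1
  obtain ⟨-, C2, c2, h2⟩ := L.P _ _ p1
  obtain ⟨C3, c3, h3⟩ := L.o1 (cx_big hF) _ (Cb_const 1)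
  have z0 : ∀ y : SP D β, 0 ≤ sz y := fun y => integral_nonneg fun _ => by positivity
  have e : ∀ (y : SP D β) (u : List (YL Y)), u.map (ylt D.F (cf y)) = u.map (ylt D.F β) :=
    fun y u => congrArg (u.map ·) (funext (ylt_cf y))
  refine ⟨C1 + C2 + C3, by positivity, fun y hy => ⟨LB.le ?_ (mul_le_mul_of_nonneg_right
    (show C1 ≤ _ by linarith) (z0 y)), LB.le ?_ (mul_le_mul_of_nonneg_right
    (show C2 ≤ _ by linarith) (z0 y)), le_trans ?_ (mul_le_mul_of_nonneg_right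
    (show C3 ≤ _ by linarith) (z0 y))⟩⟩
  · have := h1 ⟨y, hy⟩
    simp only [cx, RS.pair, RS.wd, sd0, one_mul, one_smul, add_zero] at this
    simp only [YF.sw, ywA, yw, e, pk_cf]
    exact this
  · have := h2 ⟨y, hy⟩
    simp only [cx, RS.pair, RS.wd, sd0, one_mul, one_smul, dq_apply] at this
    simp only [YF.sw, ywP, yw, e, pk_cf]
    exact this
  · refine le_of_eq_of_le (congrArg _ (Eq.trans ?_ (exp_aux (L.h.1 ⟨y, hy⟩) L.c0
      (L.wA _ (Cb_const 1)).1 (L.wP _ (Cb_const 1)).1 y.1.2.1.continuous y.2.2.1.continuous)))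
      (h3 ⟨y, hy⟩)
    simp only [RS.pair, RS.wd, sd0, one_smul, add_zero, dq_apply, ipg, YF.sw, ywA, ywP, yw, e, pk_cf]
    rfl

end Crest.Agent.X212.Cyl58
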