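import Crest.Agent.X212.Cgr76.Act_Mg
import Crest.Agent.X212.Grp76.Dns
import Crest.Agent.X212.Im23.Hes
import Crest.Agent.X212.Lin97.Emb
import Crest.Agent.X212.Im23.Abs
import Crest.Agent.X212.Im23.Wd
import Crest.Agent.X212.Im23.Cls
import Crest.Agent.X212.Sob92.Ops
import Crest.Agent.X212.Cgr76.Y
import Crest.Agent.X212.Top68.Pw
import Crest.Agent.X212.Wrd81.Par
import Crest.Agent.X212.Der92.Fld
import Crest.Agent.X212.Crt72.Props
import Crest.Agent.X212.Cht98.Br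
import Crest.Agent.X212.Cyl58.SmC

-- ▼ part X212/Cgr76/Main
section

/-! CRIT-GRP: the group axioms of the model on `Y`. -/

set_option autoImplicit false
set_option linter.unusedSectionVars false
noncomputable section
open scoped Manifold ContDiff Topology InnerProductSpace
open MeasureTheory Set Function Filter

namespace Crest.Agent.X212.Cgr76
open An An.Pre Sob92 Wz78 Std94 Cyf70 Nd18 Crt72 Grp76
open Eqv71 (ME BE Itw cj csL)

variable {E3 : Type} [NormedAddCommGroup E3] [NormedSpace ℝ E3] [FiniteDimensional ℝ E3]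
  [MeasurableSpace E3] [BorelSpace E3]
  {H3 : Type} [TopologicalSpace H3] {I3 : ModelWithCorners ℝ E3 H3} [I3.Boundaryless]
  {Y : Type} [TopologicalSpace Y] [ChartedSpace H3 Y] [IsManifold I3 ∞ Y] [T2Space Y]
  [MeasurableSpace Y] [BorelSpace Y] [SecondCountableTopology Y] [CompactSpace Y]
  {κ : Type} [Fintype κ] {lam : Type} [Fintype lam] {D : YD I3 Y κ lam} {β β' : YC Y κ lam}
  {w : Y → CL β.m.V β'.m.V} {ζ : Circle} {j k : ℕ}

theorem Hy.iv_ac0 (h : Hy D) (hβ : D.Adm β) (hk : 7 ≤ k) (hj : 7 ≤ k + 1) (y : SP D β)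
    (a : (gX h.toHY hβ hj).Gx) : Iv (ac h.toHY hβ hj a) a.ζ (pt D β (k + 1) y) := by
  have hd : Dense {a : (gX h.toHY hβ hj).Gx |
      Sm I3 ((hyp0 h.toHY hβ hj).gv (gg h.toHY hβ hj a))} :=
    ((hyp0 h.toHY hβ hj).dense_sm.preimage (isOpenMap_fst (Y := Circle))).mono fun a ha => ha.1
  have hc := h.closed hβ hk hβ (T := ac h.toHY hβ hj) (continuous_ac h.toHY hβ hj)
    (ζ := fun a => a.ζ) continuous_snd (v := fun _ => pt D β (k + 1) y) continuous_const
  refine closure_minimal (fun a ha => ?_) hc (hd a)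
  obtain ⟨y', e⟩ := ac_pt h.toHY hβ hj ha y
  exact h.iv_pt hβ hk hβ (mo_ac h.toHY hβ hj a) (sm_uY h.toHY hβ hj ha) e

theorem Hy.iv_ac (h : Hy D) (hβ : D.Adm β) (hk : 7 ≤ k) (hj : 7 ≤ k + 1) (a : (gX h.toHY hβ hj).Gx)
    (v : CC D β (k + 1)) : Iv (ac h.toHY hβ hj a) a.ζ v := by
  have hc := h.closed hβ hk hβ (T := fun _ : CC D β (k + 1) => ac h.toHY hβ hj a)
    (((continuous_ac h.toHY hβ hj).uncurry_left a).comp continuous_snd)
    (ζ := fun _ => a.ζ) continuous_const (v := id) continuous_id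
  exact dense_pt.induction_on v hc fun y => h.iv_ac0 hβ hk hj y a

theorem exp_sq (t : ℝ) : ((Circle.exp t : Circle) : ℂ) ^ 2 = Complex.exp (2 * t * Complex.I) := by
  rw [Circle.coe_exp, ← Complex.exp_nat_mul]
  congr 1
  push_cast
  ring

theorem sm_jv (h : HY D) (hβ : D.Adm β) (hj : 4 ≤ j) : ∃ y, pt D β j y = jv D β j 0 := by
  refine exists_pt h hj ?_ ?_
  · show Sm I3 (D.F.val _ _ 0)
    rw [val_zero]; exact contMDiff_const
  · have : D.F.val _ _ (jv D β j 0).2 = fun y => β.m.J (β.Φ y) := funext fun y => by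
      rw [val_jv2 h hβ hj, sv, Prod.snd_zero, val_zero, Pi.zero_apply, add_zero]
    rw [this]
    exact β.m.J.contMDiff.comp (sm_Φ hβ)

variable (D) in
/-- **CRIT-GRP.** -/
theorem grpStmt : GrpStmt D := fun h0 h1 h2 h3 h4 h5 k hk => by
  have h : Hy D := ⟨h0, h1, h2, h3, h4, h5⟩
  have hj : 7 ≤ k + 1 := by omega
  have tr : ∀ {x y z : YC Y κ lam}, D.Adm x → D.Adm y → D.Adm z → D.Eqv x y → D.Eqv y z →
      D.Eqv x z := fun a b c => Eqv71.IsoOn.trans h.ok.B h.ok.G isOpen_univ a.adm b.adm c.adm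
  let act : ActT D k := fun o η => ac h0 o.2 hj ((gX h0 o.2 hj).e η)
  refine ⟨act, fun sf => ?_⟩
  have mo := fun (o : XY D) η => (ac_aff h0 o.2 hj ((gX h0 o.2 hj).e η)).imp fun A hA =>
    mor_of h0 o.2 o.2 hk act sf (mo_ac h0 o.2 hj _) A hA (h.iv_ac o.2 hk hj _) (ad_uY h0 o.2 hj _)
      fun η' => by simpa only [trn_uY] using ad_uY h0 o.2 hj _ η'
  exact
    { refl := fun x => Eqv71.isoOn_refl h.ok.B h.ok.G isOpen_univ x.2.adm
      symm := fun x y => Eqv71.IsoOn.symm h.ok.B h.ok.G isOpen_univ x.2.adm y.2.adm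
      trans := fun x y z => tr x.2 y.2 z.2
      SI := fun x y e hx hy => hx (lin_of_iso h.ok.B h.ok.G y.2.adm x.2.adm
        (Eqv71.IsoOn.symm h.ok.B h.ok.G isOpen_univ x.2.adm y.2.adm e) hy)
      cd := fun o => continuous_const.add ((ContinuousLinearMap.prodₗᵢ ℝ).continuous.comp
        (((ContinuousLinearMap.continuous _).comp continuous_fst).prodMk
          ((ContinuousLinearMap.continuous _).comp continuous_snd)))
      cJ := fun o => continuous_const.prodMk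
        (((ContinuousLinearMap.continuous _).comp continuous_snd).add continuous_const)
      act0 := fun o v => (congrArg (ac h0 o.2 hj · v) (gX h0 o.2 hj).e_zero).trans (ac_one _ _ _ v)
      strict := fun o => strict_ac h0 o.2 hj
      mor := fun o η => (mo o η).imp fun _ => And.left
      ph := fun o η => exp_sq η.2 ▸ (mo o η).choose_spec.2
      rep0 := fun x y => ⟨fun ⟨z, e, i⟩ => by
        obtain rfl : z = 0 := pt_inj h0 (by omega) (e.trans (map_zero _).symm)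
        rwa [cf_zero] at i, fun e => ⟨0, map_zero _, by rwa [cf_zero]⟩⟩
      rep := fun o v x ⟨y, e, i⟩ => e ▸ h.rep x.2 o.2 hk act sf y i
      orb := fun o v x η ⟨y, e, i⟩ e' => by
        have e2 := (congrArg (act o η) e).trans (e'.trans (map_zero (pt D o.1 (k + 1))).symm)
        have := (mo_ac h0 o.2 hj _).yiso h0 (by omega) (sm_uY h0 o.2 hj (sm_of_ac h0 o.2 hj e2))
          (h1 _ o.2 _) (h1 _ o.2 _) e2
        have h6 := tr x.2 (h1 _ o.2 _) (h1 _ o.2 _) i ⟨_, _, this⟩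
        rwa [cf_zero] at h6
      smoJ := fun o => sm_jv h0 o.2 (by omega) }

end Crest.Agent.X212.Cgr76
end
end

-- ▼ part X212/Im23/One
section

/-!
# Row 212, CRIT-IM (helper23): the spinor part of the total space
-/

set_option autoImplicit false
set_option linter.unusedSectionVars false
noncomputable section
open scoped Manifold ContDiff Topology InnerProductSpace
open MeasureTheory Set Function Filter

namespace Crest.Agent.X212.Im23
open An Sob92 Dgr80 Nd18 Crt72 Cgr76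
open Map77 (fp ext2 maps_s2 maps_i2)

variable {E3 : Type} [NormedAddCommGroup E3] [NormedSpace ℝ E3] [FiniteDimensional ℝ E3]
  [MeasurableSpace E3] [BorelSpace E3]
  {H3 : Type} [TopologicalSpace H3] {I3 : ModelWithCorners ℝ E3 H3} [I3.Boundaryless]
  {Y : Type} [TopologicalSpace Y] [ChartedSpace H3 Y] [IsManifold I3 ∞ Y] [T2Space Y]
  [MeasurableSpace Y] [BorelSpace Y] [SecondCountableTopology Y] [CompactSpace Y]
  {κ : Type} [Fintype κ] {lam : Type} [Fintype lam] {D : YD I3 Y κ lam} {β : YC Y κ lam}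

variable (D β) in
/-- the spinor part -/
def rr : XX D β 0 →L[ℝ] L2 Y β.m.V D.F := D.F.mulH 0 _ _ fun _ => fp

variable (D β) in
/-- its adjoint -/
def ll : L2 Y β.m.V D.F →L[ℝ] XX D β 0 := D.F.mulH 0 _ _ fun y => eP κ _ ∘L pv D β y

theorem isHs_sum {Bc Bw B2 : Type} {Q : GM Bc Bw B2} {o : Q.X} {A : Bw → Q.C o →L[ℝ] Q.E o}
    {K : Bw → Q.X₀ o →L[ℝ] Q.X₀ o} (h : ∀ j, Q.IsHs o (A j) (K j)) (S : Finset Bw) (c : Bw → ℝ) :
    Q.IsHs o (∑ j ∈ S, c j • A j) (∑ j ∈ S, c j • K j) := fun z => by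
  simp only [sum_apply, smul_apply, h _ z, ← map_smul, ← map_sum]
  congr 1
  ext <;> simp [Prod.fst_sum, Prod.snd_sum]

variable (h : HY D) (hβ : D.Adm β)
include h hβ

theorem cbl : D.F.Cb fun y => eP κ _ ∘L pv D β y :=
  Cb_of_compact (contMDiff_const.clm_comp (sm_pv h.ok hβ))

theorem mpl : Maps (triv Y β.m.V) (ph D β) fun y => eP κ _ ∘L pv D β y := fun y v _ =>
  maps_i2 y _ (pv_pv h.ok hβ y v)

theorem ad_lr (x : L2 Y β.m.V D.F) (y : XX D β 0) : ⟪ll D β x, y⟫_ℝ = ⟪x, rr D β y⟫_ℝ :=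
  (mul_adj (ε := 1) (cbl h hβ).choose_spec.1 contMDiff_const (mpl h hβ) (Maps.triv _)
    (fun z v w _ hw => by
      have : pv D β z (fp w) = fp w := maps_s2 z w hw
      rw [one_mul, ← this, pv_eq, ← Std94.pp_sym (ok3 h.ok) (Std94.pmx (mok hβ) z), Map77.inner2]
      simp [eP]) x y).trans (one_mul _)

theorem lrl (x : L2 Y β.m.V D.F) : ll D β (rr D β (ll D β x)) = ll D β x := by
  rw [ll, rr, mulH_mulH (cbl h hβ) (mpl h hβ) (Cb_const _) (Maps.triv _), mulH_mulH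
    (Cb_comp (Cb_const _) (cbl h hβ)) (Maps.triv _) (cbl h hβ) (mpl h hβ), mulH_congr]
  exact fun y v _ => by simp [eP, pv_pv h.ok hβ]

theorem xX_eq (j : ℕ) (x : XX D β 0) : xX D β (D.F.val j β.m.pg 0) 0 x =
    ll D β (D.F.mulH 0 _ _ (fun _ => β.m.J) (rr D β x)) := by
  rw [ll, rr, mulH_mulH (Cb_const _) (Maps.triv _) (Cb_const _) (Maps.triv _), mulH_mulH
    (Cb_const _) (Maps.triv _) (cbl h hβ) (mpl h hβ), xX, mulH_congr]
  exact fun y v hv => ext2 (PiLp.ext fun a => by simp [eP, val_zero, onv, xa, ← Wz78.adcL_apply])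
    (by simp [eP, val_zero, xs, pv_J hβ (maps_s2 y v hv)])

/-- the Hessian of a weight zero invariant at a point where the spinor vanishes -/
theorem isHs (hV : AdmV D) (h0 : ∀ y, β.Φ y = 0) {j : Bw D} (hj : Sm1 D (.sw j)) {k : ℕ}
    (hk : 7 ≤ k) (z : CC D β (k + 1) × GG D β (k + 1)) :
    ll D β (BY D β j.1.1 j.1.2 (rr D β (D.F.incl 1 0 _ (D.F.incl (k + 1) 1 _
      (emb D β (1 / 2) _ z))))) = D.F.incl k 0 _ (emb D β 2 k (fderiv ℝ (fun v => iC D β (k + 1) k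
        (mT D β (yf D (.sw j)) (k + 1) (k + 1) v)) 0 z.1, 0)) := by
  have hT : RpT D β _ _ _ (mT D β (yf D (.sw j)) (k + 1) (k + 1)) :=
    Classical.epsilon_spec (hj.T β hβ k hk)
  obtain ⟨a, b⟩ := hess h hβ j.2.1 j.2.2 hV h0 (by omega) hT z.1
  have e : fderiv ℝ (fun v => iC D β (k + 1) k (mT D β (yf D (.sw j)) (k + 1) (k + 1) v)) 0 = _ :=
    ((iC D β (k + 1) k).hasFDerivAt.comp 0 (hT.1.differentiable (by simp) 0).hasFDerivAt).fderiv
  have r : ∀ c ≠ 0, ∀ w, rr D β (emb D β c 0 w) = fg D.F.toPre 0 _ w.1.2 := fun c hc w =>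
    (DFunLike.congr_fun ((rep_mulH (Cb_const _) (Maps.triv _)).unique
      (RepT_comp rep_fg Lin97.rep_rP)) _).trans
      (congrArg (fun w => fg D.F.toPre 0 _ w.1.2) (Lin97.inv_emb hc w))
  rw [e, incl_incl (by omega) (by omega), Lin97.incl_emb k.succ.zero_le, Lin97.incl_emb k.zero_le,
    r _ (by norm_num), Lin97.emb_apply]
  simp only [iC, ContinuousLinearMap.comp_apply, ContinuousLinearMap.coe_prodMap', Prod.map_fst,
    Prod.map_snd, a, map_zero, smul_zero, zero_add, add_zero, incl_incl k.le_succ k.zero_le, b]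
  exact (mulH_mulH (Cb_of_compact (sm_pv h.ok hβ)) (Maps.of_left (pv_pv h.ok hβ)) (Cb_const _)
    Lin97.maps_eP _).symm

end Crest.Agent.X212.Im23
end
end

-- ▼ part X212/Im23/Sum
section

/-!
# Row 212, CRIT-IM (helper23): direct sums and the algebra of words
-/

set_option autoImplicit false
set_option linter.unusedSectionVars false
noncomputable section
open scoped Manifold ContDiff Topology InnerProductSpace
open MeasureTheory Set Function Filter

namespace Crest.Agent.X212.Im23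
open An Sob92 Dgr80
open Crt72 (rk rk_apply)
open Wrd81 (RH)
open ContinuousLinearMap (adjoint)

section abs
variable {H : Type} [NormedAddCommGroup H] [InnerProductSpace ℝ H] [CompleteSpace H]

theorem star_of {A B : H →L[ℝ] H} {ε : ℝ} (h : ∀ x y, ⟪A x, y⟫_ℝ = ε * ⟪x, B y⟫_ℝ) :
    star A = ε • B :=
  ((ContinuousLinearMap.eq_adjoint_iff _ _).2 fun x y => by
    rw [real_inner_comm (A y), h, smul_apply, real_inner_smul_left, real_inner_comm]).symm

theorem inner_star (A : H →L[ℝ] H) (x y : H) : ⟪A x, y⟫_ℝ = ⟪x, star A y⟫_ℝ :=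
  (ContinuousLinearMap.adjoint_inner_right A x y).symm

variable {Λ : Type} {OK : Λ → Prop} (ℓ : Λ → H →L[ℝ] H)

variable (OK) in
/-- pairs of words -/
abbrev PW : Type := {p : List Λ × List Λ // (∀ t ∈ p.1, OK t) ∧ ∀ t ∈ p.2, OK t}

/-- the operator of a pair of words -/
def Ow (j : PW OK) : H →L[ℝ] H := star (j.1.1.map ℓ).prod * (j.1.2.map ℓ).prod

variable {ℓ}

theorem star_w (h : ∀ t, OK t → ∃ ε : ℝ, star (ℓ t) = ε • ℓ t) : ∀ {u : List Λ}, (∀ t ∈ u, OK t) →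
    ∃ ε : ℝ, star (u.map ℓ).prod = ε • (u.reverse.map ℓ).prod
  | [], _ => ⟨1, by simp⟩
  | t :: u, hu => by
    obtain ⟨a, ha⟩ := h t (hu t (by simp))
    obtain ⟨b, hb⟩ := star_w h (u := u) fun t ht => hu t (by simp [ht])
    exact ⟨a * b, by simp [ha, hb, smul_smul]⟩

theorem lt_mem {t : Λ} (ht : OK t) : ℓ t ∈ Submodule.span ℝ (range (Ow (OK := OK) ℓ)) :=
  Submodule.subset_span ⟨⟨([], [t]), by simp, by simpa using ht⟩, by simp [Ow]⟩

/-- **The abstract form.** -/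
theorem core (h : ∀ t, OK t → ∃ ε : ℝ, star (ℓ t) = ε • ℓ t) {J G : Λ} (hJ : OK J) (hG : OK G)
    (sJ : star (ℓ J) = (-1 : ℝ) • ℓ J) (sG : star (ℓ G) = (1 : ℝ) • ℓ G)
    (hc : IsCompactOperator (ℓ G)) (hi : Injective (ℓ G)) (hJG : ∀ x, ℓ J (ℓ G x) = ℓ G (ℓ J x))
    {ι : Type} [Fintype ι] {X : ι → Type} [∀ m, NormedAddCommGroup (X m)]
    [∀ m, InnerProductSpace ℝ (X m)] [∀ m, CompleteSpace (X m)] {L : ∀ m, H →L[ℝ] X m}
    {R : ∀ m, X m →L[ℝ] H} {n : ι}
    (ad : ∀ x y, ⟪L n x, y⟫_ℝ = ⟪x, R n y⟫_ℝ) {ψ : X n} {X0 : X n →L[ℝ] X n}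
    (hX : X0 ψ = L n (ℓ J (R n ψ))) (hψ : L n (R n ψ) = ψ) (JJ : ∀ x, ℓ J (ℓ J x) = -x)
    (h0 : ∀ m, m ≠ n → L m (R n ψ) = 0 ∧ L m (ℓ J (R n ψ)) = 0)
    (hS : ∀ S : H →L[ℝ] H, (∀ t, OK t → S * ℓ t = ℓ t * S) →
      ∃ r s : ℝ, S (R n ψ) = r • R n ψ + s • ℓ J (R n ψ)) {δ : ℝ} (hδ : 0 < δ) :
    ∃ (S : Finset (PW OK)) (c : PW OK → ℝ),
      ‖∑ j ∈ S, c j • L n ∘L (Ow ℓ j + star (Ow ℓ j)) ∘L R n - rk X0 ψ‖ ≤ δ ∧
      ∀ m, m ≠ n → ‖∑ j ∈ S, c j • L m ∘L (Ow ℓ j + star (Ow ℓ j)) ∘L R m‖ ≤ δ := by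
  set C := ∑ m, ‖L m‖ * ‖R m‖ + 1
  have c0 : ∀ m, ‖L m‖ * ‖R m‖ ≤ C := fun m => (Finset.single_le_sum
    (f := fun m => ‖L m‖ * ‖R m‖) (fun _ _ => by positivity) (Finset.mem_univ m)).trans (by simp [C])
  have c1 : 0 < C := by positivity
  obtain ⟨a, ha, e⟩ := approx (𝒜 := Submodule.span ℝ (range (Ow (OK := OK) ℓ))) (fun a ha b hb => by
      refine mem_of_le_of_mem ?_ (Submodule.mul_mem_mul ha hb)
      rw [Submodule.span_mul_span, Submodule.span_le]
      rintro _ ⟨_, ⟨⟨⟨u, v⟩, hu, hv⟩, rfl⟩, _, ⟨⟨⟨u', v'⟩, hu', hv'⟩, rfl⟩, rfl⟩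
      obtain ⟨ε, hε⟩ := star_w h hu'
      have := Submodule.smul_mem _ ε (Submodule.subset_span (R := ℝ) (mem_range_self (f := Ow ℓ)
        (⟨(u, v ++ u'.reverse ++ v'), hu, by simp only [List.mem_append, List.mem_reverse]; grind⟩ :
          PW OK)))
      simpa [Ow, hε, mul_assoc] using this)
    (fun a ha => ⟨star a, by
      induction ha using Submodule.span_induction with
      | mem _ hj =>
        obtain ⟨⟨⟨u, v⟩, hu, hv⟩, rfl⟩ := hj
        exact Submodule.subset_span ⟨⟨(v, u), hv, hu⟩, by simp [Ow]⟩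
      | zero => simp
      | add _ _ _ _ h1 h2 => simpa using add_mem h1 h2
      | smul c _ _ h1 => simpa using Submodule.smul_mem _ c h1, inner_star a⟩)
    (Submodule.subset_span ⟨⟨([], []), by simp, by simp⟩, by simp [Ow]⟩) (lt_mem hJ)
    (fun x y => by simp [inner_star, sJ]) (lt_mem hG) hc (fun x y => by simp [inner_star, sG]) hi
    hJG (JJ (R n ψ)) (fun S hs => hS S fun t ht => hs _ (lt_mem ht)) (div_pos hδ c1)
  obtain ⟨c, rfl⟩ := Finsupp.mem_span_range_iff_exists_finsupp.1 ha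
  set Q := rk (ℓ J) (R n ψ)
  have sQ : star Q = Q := (star_of (ε := 1) fun x y => by
    simp only [Q, rk_apply, inner_add_left, inner_add_right, real_inner_smul_left,
      real_inner_smul_right, real_inner_comm x]
    ring).trans (one_smul _ _)
  have k : ∀ m, ‖∑ j ∈ c.support, (c j / 2) • L m ∘L (Ow ℓ j + star (Ow ℓ j)) ∘L R m -
      L m ∘L Q ∘L R m‖ ≤ δ := fun m => by
    set b := (c.sum fun j r => r • Ow ℓ j) - Q with hb
    have : ‖(1 / 2 : ℝ) • (b + star b)‖ ≤ δ / C := by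
      rw [norm_smul, show ‖(1 / 2 : ℝ)‖ = 1 / 2 by norm_num]
      linarith [norm_add_le b (star b), norm_star b]
    calc _ = ‖L m ∘L ((1 / 2 : ℝ) • (b + star b)) ∘L R m‖ := by
          congr 1
          ext x
          simp only [hb, star_sub, sQ, Finsupp.sum, star_sum, star_smul, star_trivial, sub_apply,
            sum_apply, smul_apply, ContinuousLinearMap.comp_apply, add_apply, map_add, map_sub,
            map_smul, map_sum, smul_add, smul_sub, Finset.smul_sum, smul_smul,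
            Finset.sum_add_distrib, div_eq_inv_mul, mul_one]
          module
      _ ≤ ‖L m‖ * (δ / C * ‖R m‖) := (ContinuousLinearMap.opNorm_comp_le _ _).trans (by
          gcongr; exact (ContinuousLinearMap.opNorm_comp_le _ _).trans (by gcongr))
      _ ≤ δ := by
          rw [mul_left_comm, div_mul_eq_mul_div, div_le_iff₀ c1]; gcongr; exact c0 m
  refine ⟨c.support, fun j => c j / 2, ?_, fun m hm => ?_⟩
  · convert k n using 3
    ext x
    simp only [Q, rk_apply, ContinuousLinearMap.comp_apply, map_add, map_smul, ← ad, hψ, hX]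
  · convert k m using 2
    refine (sub_eq_self.2 ?_).symm
    ext x
    simp [Q, rk_apply, h0 m hm]

end abs

section blk
variable {ι : Type} [Fintype ι] [DecidableEq ι] {V : ι → Type} [∀ m, NormedAddCommGroup (V m)]
  [∀ m, InnerProductSpace ℝ (V m)]

variable (V) in
/-- projection -/
def prj (m : ι) : PiLp 2 V →L[ℝ] V m := PiLp.proj 2 V m

variable (V) in
/-- inclusion -/
def inj (m : ι) : V m →L[ℝ] PiLp 2 V :=
  (PiLp.continuousLinearEquiv 2 ℝ V).symm.toContinuousLinearMap ∘L ContinuousLinearMap.single ℝ V m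

/-- block diagonal operators -/
def blk (T : ∀ m, V m →L[ℝ] V m) : PiLp 2 V →L[ℝ] PiLp 2 V := ∑ m, inj V m ∘L T m ∘L prj V m

theorem prj_apply (m : ι) (v : PiLp 2 V) : prj V m v = v m := rfl

theorem inj_apply (m l : ι) (v : V m) : inj V m v l = Pi.single (M := V) m v l := rfl

theorem blk_apply (T : ∀ m, V m →L[ℝ] V m) (v : PiLp 2 V) (m : ι) : blk T v m = T m (v m) := by
  simp only [blk, sum_apply, WithLp.ofLp_sum, Finset.sum_apply, ContinuousLinearMap.comp_apply,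
    inj_apply, prj_apply]
  exact congrFun (Finset.univ_sum_single fun m => T m (v m)) m ▸ (Finset.sum_apply _ _ _).symm

theorem blk_inj (T : ∀ m, V m →L[ℝ] V m) (m : ι) (v : V m) : blk T (inj V m v) = inj V m (T m v) :=
  PiLp.ext fun l => by
    rw [blk_apply, inj_apply, inj_apply, Pi.apply_single (fun l => T l) (fun _ => map_zero _)]

theorem inner_inj (m : ι) (v : V m) (w : PiLp 2 V) : ⟪inj V m v, w⟫_ℝ = ⟪v, w m⟫_ℝ := by
  rw [PiLp.inner_apply, Finset.sum_eq_single m (fun l _ h => by simp [inj_apply, h]) (by simp)]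
  simp [inj_apply]

theorem blk_adj {T : ∀ m, V m →L[ℝ] V m} {ε : ℝ} (h : ∀ m v w, ⟪T m v, w⟫_ℝ = ε * ⟪v, T m w⟫_ℝ)
    (v w : PiLp 2 V) : ⟪blk T v, w⟫_ℝ = ε * ⟪v, blk T w⟫_ℝ := by
  simp only [PiLp.inner_apply, blk_apply, h, Finset.mul_sum]

theorem sm_blk {E H M : Type} [NormedAddCommGroup E] [NormedSpace ℝ E] [TopologicalSpace H]
    {I : ModelWithCorners ℝ E H} [TopologicalSpace M] [ChartedSpace H M]
    {T : ∀ m, M → V m →L[ℝ] V m} (h : ∀ m, Sm I (T m)) : Sm I fun x => blk fun m => T m x :=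
  contMDiff_finsetSum fun m _ => contMDiff_const.clm_comp ((h m).clm_comp contMDiff_const)

end blk

end Crest.Agent.X212.Im23
end
end

-- ▼ part X212/Im23/Main
section

/-!
# Row 212, CRIT-IM (helper23): the normal Hessians at finitely many type I points
-/

set_option autoImplicit false
set_option linter.unusedSectionVars false
noncomputable section
open scoped Manifold ContDiff Topology InnerProductSpace
open MeasureTheory Set Function Filter

namespace Crest.Agent.X212.Im23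
open An Sob92 Dgr80 Nd18 Crt72 Cgr76 Cyf70
open Wrd81 (RH)
open Wz78 (nabH nabH_comp nabH_const)

variable {E3 : Type} [NormedAddCommGroup E3] [NormedSpace ℝ E3] [FiniteDimensional ℝ E3]
  [MeasurableSpace E3] [BorelSpace E3]
  {H3 : Type} [TopologicalSpace H3] {I3 : ModelWithCorners ℝ E3 H3} [I3.Boundaryless]
  {Y : Type} [TopologicalSpace Y] [ChartedSpace H3 Y] [IsManifold I3 ∞ Y] [T2Space Y]
  [MeasurableSpace Y] [BorelSpace Y] [SecondCountableTopology Y] [CompactSpace Y]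
  {κ : Type} [Fintype κ] {lam : Type} [Fintype lam] {D : YD I3 Y κ lam}

/-- a homomorphism on `Y` which commutes with the letters -/
theorem iw {β β' : YC Y κ lam} (hβ : D.Adm β) (hβ' : D.Adm β') {s : Y → CL β.m.V β'.m.V}
    (hs : Sm I3 s) (hp : ∀ a y, nabH I3 D.F.e (cn β) (cn β') a s y = 0)
    (hc : ∀ t : YL Y, t.OK I3 → ∀ y v, s y (fld D.F β t y v) = fld D.F β' t y (s y v)) :
    Iw D.G (cy β) (cy β') fun x => s x.1 ∘L β.m.p x.1 := by
  have r : ∀ a y v, s y (β.m.ρ a y v) = β'.m.ρ a y (s y v) := by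
    rintro (_ | b) y v
    · exact hc (.cl none) (fun _ h => by cases h) y v
    · obtain ⟨g, hg, e⟩ := Wrd81.exists_tf_D D.F (O := univ) (x := y) univ_mem b
      have k : ∀ {β : YC Y κ lam}, D.Adm β → fld D.F β (.cl (some g)) y = β.m.ρ (some b) y :=
        fun hβ => by simpa [fld, e, Fintype.sum_option, B3, YD.B, cP]
          using ((mok hβ).cl y).proj (some b)
      rw [← k hβ, ← k hβ']
      exact hc (.cl (some g)) (fun _ h => by cases h; exact hg.sm) y v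
  have k : ∀ {β : YC Y κ lam}, D.Adm β → ∀ y v, β.m.p y v = -β.m.ρ none y (β.m.ρ none y v) :=
    fun hβ y v => by
      have := ap (((mok hβ).cl y).rel none none) v
      simp only [B3, YD.B, cP, add_apply, mul_apply_eq_comp, smul_apply] at this
      exact smul_right_injective _ (two_ne_zero (α := ℝ)) (by linear_combination (norm := module) this)
  have p : ∀ y v, s y (β.m.p y v) = β'.m.p y (s y v) := fun y v => by
    rw [k hβ, k hβ', map_neg, r, r]
  have pp : ∀ y v, β.m.p y (β.m.p y v) = β.m.p y v := fun y => ap ((mok hβ).pidem y)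
  refine ⟨sm_fst (hs.clm_comp (mok hβ).sp), fun a x => ?_, fun x v => ?_, fun x v => ?_,
    fun x a v => ?_, fun x v => ?_⟩
  · refine (nabH_comp (A' := (cy β).W) a (sm_fst hs x) (sm_fst (mok hβ).sp x)).trans
      ((congrArg₂ (fun (a : CL β.m.V β'.m.V) (b : CL β.m.V β.m.V) => a ∘L β.m.p x.1 + s x.1 ∘L b)
        (x' := 0) (y' := 0) ?_ (hβ.adm.conn.cc.par a x)).trans (by simp; rfl))
    rcases a with _ | a
    · exact (congrArg₂ (· + ·) (congrFun (D_none_fst D.F.toPre hs) x)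
        (show β'.W none x.1 ∘L _ - _ ∘L β.W none x.1 = 0 by simp [hβ.tmp, hβ'.tmp])).trans
        (add_zero _)
    · exact (congrArg (fun a : CL β.m.V β'.m.V => a + _)
        (congrFun (D_some_fst D.F.toPre hs a) x)).trans (hp a x.1)
  · exact (p _ _).symm.trans (congrArg _ (pp _ _))
  · exact congrArg (s x.1) (pp _ _)
  · exact (congrArg (s x.1) ((ap (((mok hβ).cl _).pl a) v).trans
      (ap (((mok hβ).cl _).pr a) v).symm)).trans (r _ _ _)
  · exact (congrArg (s x.1) (ap ((mok hβ).Jp _) v).symm).trans (hc .im trivial _ _)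

variable {ι : Type} [Fintype ι] [DecidableEq ι] {β : ι → YC Y κ lam}

variable (β) in
/-- the fibres -/
abbrev Vm (m : ι) : Type := (β m).m.V

variable (β) in
/-- the direct sum -/
abbrev VV : Type := PiLp 2 (Vm β)

variable (β) in
/-- its connection -/
def AA (a : κ) (y : Y) : VV β →L[ℝ] VV β := blk fun m => cn (β m) a y

variable (D β) in
/-- the letters -/
def lt : YL Y → L2 Y (VV β) D.F →L[ℝ] L2 Y (VV β) D.F
  | .G => lo D.F (AA β) .G
  | t => lo D.F (AA β) (.op fun y => blk fun m => fld D.F (β m) t y)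

variable (D β) in
/-- the inclusions -/
def iH (m : ι) : L2 Y (β m).m.V D.F →L[ℝ] L2 Y (VV β) D.F := D.F.mulH 0 _ _ fun _ => inj (Vm β) m

variable (D β) in
/-- the projections -/
def pH (m : ι) : L2 Y (VV β) D.F →L[ℝ] L2 Y (β m).m.V D.F := D.F.mulH 0 _ _ fun _ => prj (Vm β) m

theorem lt_eq (t : YL Y) : t = .G ∨ (lt D β t = lo D.F (AA β) (.op fun y =>
    blk fun m => fld D.F (β m) t y)) ∧ ∀ m, ylt D.F (β m) t = .op (fld D.F (β m) t) := by
  rcases t with _ | (_ | _) | _ | _ <;> first | exact .inr ⟨rfl, fun _ => rfl⟩ | exact .inl rfl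

theorem ad_ip (m : ι) (x : L2 Y (β m).m.V D.F) (y : L2 Y (VV β) D.F) :
    ⟪iH D β m x, y⟫_ℝ = ⟪x, pH D β m y⟫_ℝ :=
  (mul_adj (ε := 1) contMDiff_const contMDiff_const (Maps.triv _) (Maps.triv _)
    (fun _ _ _ _ _ => by rw [one_mul, inner_inj]; rfl) x y).trans (one_mul _)

theorem pH_iH (m : ι) (x : L2 Y (β m).m.V D.F) : pH D β m (iH D β m x) = x :=
  (mulH_mulH (Cb_const _) (Maps.triv _) (Cb_const _) (Maps.triv _) x).trans
    (mulH_id (fun _ _ _ => by simp [prj_apply, inj_apply]) x)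

theorem pH_ne {m n : ι} (e : m ≠ n) (x : L2 Y (β n).m.V D.F) : pH D β m (iH D β n x) = 0 :=
  DFunLike.congr_fun (th_ext (A := pH D β m ∘L iH D β n) (B := 0) fun u hu => by
    rw [ContinuousLinearMap.comp_apply, iH, pH, mul_th contMDiff_const, mul_th contMDiff_const]
    exact (congrArg (D.F.toH 0 _) (Subtype.ext (funext fun y => by
      simp [prj_apply, inj_apply, e]))).trans (map_zero _)) x

variable (h : HY D) (hβ : ∀ m, D.Adm (β m))
include h hβ

theorem rhA : RH D.F (AA β) :=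
  Wrd81.rh_of_tame (tame h).choose_spec (fun a => Cb_of_compact (sm_blk fun m => sm_cn (hβ m) a))
    (fun a y v w => (blk_adj (ε := -1) (fun m v w => by rw [skw_cn (hβ m)]; simp) v w).trans
      (neg_one_mul _)) fun a y => ContinuousLinearMap.ext fun v => PiLp.ext fun m => by
    simp [AA, blk_apply, ← P_cn (hβ m) a y]

theorem star_lt {t : YL Y} (ht : t.OK I3) : star (lt D β t) = sgn t • lt D β t := star_of fun x y => by
  rcases lt_eq (D := D) (β := β) t with rfl | ⟨e, -⟩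
  · exact ((rhA h hβ).rsd.symm x y).trans (one_mul _).symm
  · have s := sm_blk fun m => sm_fld (hβ m) ht
    rw [e]
    exact mul_adj s s (Maps.triv _) (Maps.triv _)
      (fun z v w _ _ => blk_adj (fun m => fld_adj (hβ m) t z) v w) x y

theorem lt_iH {t : YL Y} (ht : t.OK I3) (m : ι) (x : L2 Y (β m).m.V D.F) :
    lt D β t (iH D β m x) = iH D β m (lo D.F (cn (β m)) (ylt D.F (β m) t) x) := by
  rcases lt_eq (D := D) (β := β) t with rfl | ⟨e, e'⟩
  · exact DFunLike.congr_fun (G_map (rhY h (hβ m)) (rhA h hβ) (inj (Vm β) m) fun a y =>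
      ContinuousLinearMap.ext (blk_inj (V := Vm β) _ m)) x
  · rw [e, e', lo, lo, iH, mulH_mulH (Cb_const _) (Maps.triv _) (Cb_of_compact (sm_blk fun m =>
      sm_fld (hβ m) ht)) (Maps.triv _), mulH_mulH (Cb_of_compact (sm_fld (hβ m) ht)) (Maps.triv _)
      (Cb_const _) (Maps.triv _), mulH_congr]
    exact fun y v _ => blk_inj (V := Vm β) _ m v

theorem w_iH (m : ι) (x : L2 Y (β m).m.V D.F) : ∀ {u : List (YL Y)}, (∀ t ∈ u, t.OK I3) →
    (u.map (lt D β)).prod (iH D β m x) = iH D β m (WY D (β m) u x)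
  | [], _ => rfl
  | t :: u, hu => (congrArg (lt D β t) (w_iH m x (u := u) fun t ht => hu t (by simp [ht]))).trans
      (lt_iH h hβ (hu t (by simp)) m _)

theorem BY_eq (m : ι) (j : Bw D) (x : L2 Y (β m).m.V D.F) : pH D β m
    ((Ow (OK := YL.OK I3) (lt D β) j + star (Ow (OK := YL.OK I3) (lt D β) j)) (iH D β m x)) =
      BY D (β m) j.1.1 j.1.2 x := ext_inner_left ℝ fun y => by
  simp only [← ad_ip, Ow, BY, star_mul, star_star, add_apply, mul_apply_eq_comp, inner_add_right,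
    ← inner_star, w_iH h hβ m _ j.2.1, w_iH h hβ m _ j.2.2,
    ContinuousLinearMap.adjoint_inner_right]
  simp only [ad_ip, pH_iH]

theorem comm [ConnectedSpace Y] (h0 : ∀ m y, (β m).Φ y = 0) {n : ι}
    (hL : ¬Lin D.Z (cy (β n)) univ) (hn : ∀ m, D.Eqv (β n) (β m) → n = m)
    (S : L2 Y (VV β) D.F →L[ℝ] L2 Y (VV β) D.F)
    (hS : ∀ t : YL Y, t.OK I3 → S * lt D β t = lt D β t * S) : ∃ r s : ℝ, ∀ ψ,
      S (iH D β n (rr D _ ψ)) = r • iH D β n (rr D _ ψ) + s • lt D β .im (iH D β n (rr D _ ψ)) := by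
  obtain ⟨σ, h1, rfl, h3, h4⟩ := field (rhA h hβ) (hS .G trivial) fun f hf => by
    rw [show (fun y => f y • 1) = fun y => blk fun m => fld D.F (β m) (.mul f) y from
      funext fun y => ContinuousLinearMap.ext fun v => PiLp.ext fun m => by simp [blk_apply, fld]]
    exact hS (.mul f) hf
  have i := fun m => iw (hβ n) (hβ m) (s := fun y => prj (Vm β) m ∘L σ y ∘L inj (Vm β) n)
    (contMDiff_const.clm_comp (h1.clm_comp contMDiff_const)) (fun a y => by
      rw [nabH_comp (A' := AA β) a contMDiffAt_const ((h1 y).clm_comp contMDiffAt_const),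
        nabH_comp (A' := AA β) a (h1 y) contMDiffAt_const,
        nabH_const a (prj (Vm β) m) fun v => (blk_apply (fun m => cn (β m) a y) v m).symm, nabH_const a _ (blk_inj (V := Vm β) _ n),
        show nabH I3 D.F.e (AA β) (AA β) a σ y = 0 from (congrArg (· + _) (h3 a y)).trans
          (by simp [ContinuousLinearMap.mul_def])]
      simp) fun t ht y v => by
      rcases lt_eq (D := D) (β := β) t with rfl | ⟨e, -⟩
      · simp [fld]
      · have := h4 _ (sm_blk fun m => sm_fld (hβ m) ht) (e ▸ hS t ht) y (inj (Vm β) n v)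
        rw [blk_inj] at this
        exact (congrArg (· m) this).trans (blk_apply _ _ m)
  obtain ⟨r, s, e⟩ := (i n).self h.ok.B h.ok.G (hβ n).adm hL
  refine ⟨r, s, fun ψ => DFunLike.congr_fun (Pre.clm_ext (A := _ ∘L iH D β n ∘L rr D _)
    (B := r • iH D β n ∘L rr D _ + s • lt D β .im ∘L iH D β n ∘L rr D _) fun u => ?_) ψ⟩
  simp only [ContinuousLinearMap.comp_apply, add_apply, smul_apply, lt, lo, iH, rr]
  rw [mul_toH contMDiff_const, mul_th contMDiff_const, mul_th h1,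
    mul_th (sm_blk fun m => sm_fld (hβ m) (t := .im) trivial), th, th, th, ← map_smul, ← map_smul,
    ← map_add]
  refine congrArg _ (Subtype.ext (funext fun y => PiLp.ext fun m => ?_))
  obtain ⟨φ, hφ⟩ : ∃ φ, Map77.fp (u.1 y) = φ := ⟨_, rfl⟩
  have p : (β n).m.p y φ = φ := hφ ▸ p_pv (hβ n) (Lin97.maps_rP y _ (u.2.2.2 y))
  show σ y (inj (Vm β) n (Map77.fp (u.1 y))) m = r • inj (Vm β) n (Map77.fp (u.1 y)) m +
    s • blk (V := Vm β) (fun m => (β m).m.J) (inj (Vm β) n (Map77.fp (u.1 y))) m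
  rw [hφ, blk_inj, inj_apply, inj_apply, ← p]
  rcases eq_or_ne m n with rfl | hm
  · simp only [Pi.single_eq_same]
    exact e (y, 0) φ
  · simp only [Pi.single_eq_of_ne hm, smul_zero, add_zero]
    exact ap ((i m).zero h.ok.B h.ok.G (hβ n).adm (hβ m).adm (fun x => h0 n x.1) (fun x => h0 m x.1)
      (Subsingleton.elim _ _) (fun e => hm (hn m e).symm) (y, 0)) φ

theorem JG (x : L2 Y (VV β) D.F) : lt D β .im (lt D β .G x) = lt D β .G (lt D β .im x) :=
  (DFunLike.congr_fun (G_map (rhA h hβ) (rhA h hβ) (blk fun m => (β m).m.J) fun a y =>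
    ContinuousLinearMap.ext fun v => PiLp.ext fun m => by
      simpa [AA, blk_apply] using (ap (J_cn (hβ m) a y) _).symm) x).symm

theorem JJ (x : L2 Y (VV β) D.F) : lt D β .im (lt D β .im x) = -x :=
  DFunLike.congr_fun (th_ext (A := lt D β .im ∘L lt D β .im) (B := -1) fun u hu => by
    have s := sm_blk fun m => sm_fld (hβ m) (t := .im) trivial
    simp only [ContinuousLinearMap.comp_apply, lt, lo]
    rw [mul_th s, mul_th s]
    exact (congrArg (D.F.toH 0 _) (Subtype.ext (funext fun y => PiLp.ext fun m => by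
      simpa [blk_apply, fld] using ap (mok (hβ m)).Jsq _))).trans (map_neg _ _)) x

theorem main (h0 : ∀ m y, (β m).Φ y = 0) {n : ι} (hL : ¬Lin D.Z (cy (β n)) univ)
    (hn : ∀ m, D.Eqv (β n) (β m) → n = m) {X0 : XX D (β n) 0 →L[ℝ] XX D (β n) 0}
    (X : ∀ y, X0 y = ll D _ (D.F.mulH 0 _ _ (fun _ => (β n).m.J) (rr D _ y))) {ψ : XX D (β n) 0}
    (hψ : X0 (X0 ψ) = -ψ) {δ : ℝ} (hδ : 0 < δ) : ∃ (S : Finset (Bw D)) (c : Bw D → ℝ),
      ‖∑ j ∈ S, c j • ll D (β n) ∘L BY D _ j.1.1 j.1.2 ∘L rr D _ - rk X0 ψ‖ ≤ δ ∧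
      ∀ m, m ≠ n → ‖∑ j ∈ S, c j • ll D (β m) ∘L BY D _ j.1.1 j.1.2 ∘L rr D _‖ ≤ δ := by
  have := h.conn
  have l := lt_iH h hβ (t := .im) trivial n (rr D _ ψ)
  have e : ∀ m (j : Bw D), ll D (β m) ∘L BY D _ j.1.1 j.1.2 ∘L rr D _ = (ll D _ ∘L pH D β m) ∘L
      (Ow (OK := YL.OK I3) (lt D β) j + star (Ow (OK := YL.OK I3) (lt D β) j)) ∘L iH D β m ∘L
        rr D _ := fun m j => ContinuousLinearMap.ext fun x => congrArg _ (BY_eq h hβ m j _).symm
  simp only [e]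
  refine core (OK := YL.OK I3) (ℓ := lt D β) (fun t ht => ⟨_, star_lt h hβ ht⟩) (J := .im) (G := .G)
    trivial trivial (star_lt h hβ trivial) (star_lt h hβ trivial) (G_cpt (rhA h hβ))
    ((rhA h hβ).rsd.G_inj (rhA h hβ).mc.sm) (JG h hβ) (L := fun m => ll D (β m) ∘L pH D β m)
    (R := fun m => iH D β m ∘L rr D (β m)) (fun x y => ?_) ?_ ?_ (JJ h hβ) (fun m e => ?_)
    (fun S hS => (comm h hβ h0 hL hn S hS).imp fun _ => .imp fun _ e => e ψ) hδ <;>
    simp only [ContinuousLinearMap.comp_apply, l, pH_iH]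
  · rw [ad_lr h (hβ n), real_inner_comm, ← ad_ip, real_inner_comm]
  · exact X ψ
  · rw [← neg_neg ψ, ← hψ, X, map_neg, map_neg, lrl h (hβ n)]
  · simp [pH_ne e]

omit h hβ in
/-- **CRIT-IM.** -/
theorem im (D : YD I3 Y κ lam) : ImStmt D := by
  intro h hV hs k hk act sf ι _ x hx hn n ψ hψ δ hδ
  classical
  have h0 : ∀ m y, (x m).1.Φ y = 0 := fun m y => by
    have e := val_jv2 h (x m).2 (j := k + 1) (by omega) 0 y
    rw [show jv D (x m).1 (k + 1) 0 = 0 from (hx m).1] at e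
    have := ap (mok (x m).2).Jsq ((x m).1.Φ y)
    simp only [sv, Prod.snd_zero, val_zero, Pi.zero_apply, add_zero] at e
    simpa [← e] using this.symm
  obtain ⟨S, c, a, b⟩ := main h (fun m => (x m).2) h0 (hx n).2 (hn n) (xX_eq h (x n).2 (k + 2)) hψ hδ
  refine ⟨S, c, fun m => ∑ j ∈ S, c j • ll D (x m).1 ∘L BY D _ j.1.1 j.1.2 ∘L rr D _, fun m => ?_,
    a, b⟩
  refine isHs_sum (Q := gm D k act sf) (o := x m) (fun j => ?_) S c
  exact isHs h (x m).2 hV (h0 m) (hs (.sw j) fun _ e => by cases e) hk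

end Crest.Agent.X212.Im23
end
end

-- ▼ part X212/Sg31/Hf
section

/-! High frequency test sections for a first order operator on a closed manifold. -/

set_option autoImplicit false
set_option linter.unusedSectionVars false
noncomputable section
open scoped Manifold ContDiff Topology InnerProductSpace
open MeasureTheory Set Function Filter

namespace Crest.Agent.X212.Sg31
open An An.Pre Sob92 Real

variable {E : Type} [NormedAddCommGroup E] [NormedSpace ℝ E] [FiniteDimensional ℝ E]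
  [MeasurableSpace E] [BorelSpace E]
  {HM : Type} [TopologicalSpace HM] {I : ModelWithCorners ℝ E HM}
  {M : Type} [TopologicalSpace M] [ChartedSpace HM M] [IsManifold I ∞ M]
  [MeasurableSpace M] [T2Space M] [BorelSpace M] [SecondCountableTopology M] [CompactSpace M]
  {ι : Type} [Fintype ι] {V : Type} [NormedAddCommGroup V] [InnerProductSpace ℝ V]
  {F : Pre I M ι} {p : M → V →L[ℝ] V} {σ : ι → M → V →L[ℝ] V} {B : M → V →L[ℝ] V}
  {f g θ : M → ℝ}

/-- a function times a section -/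
def fs (hf : Sm I f) (u : Sec I p) : Sec I p :=
  ⟨fun x => f x • u.1 x, hf.smul u.2.1, .of_compactSpace _, fun x => by rw [map_smul, u.2.2.2]⟩

theorem norm_fs (hf : Sm I f) (h : ∀ x, |f x| ≤ 1) (u : Sec I p) :
    ‖F.toH 0 p (fs hf u)‖ ≤ ‖F.toH 0 p u‖ := by
  rw [norm_toH, norm_toH]
  refine sqrt_le_sqrt (integral_mono (F.integrable_inner (fs hf u).2.1.continuous (fs hf u).2.2.1
    (fs hf u).2.1.continuous) (F.integrable_inner u.2.1.continuous u.2.2.1 u.2.1.continuous)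
    fun x => ?_)
  simp only [fs, real_inner_smul_left, real_inner_smul_right, ← mul_assoc]
  exact mul_le_of_le_one_left real_inner_self_nonneg (abs_le_one_iff_mul_self_le_one.1 (h x))

theorem op_fs (hf : Sm I f) {u : M → V} (hu : Sm I u) (x : M) :
    F.op σ B (fun x => f x • u x) x = f x • F.op σ B u x + ∑ a, F.D a f x • σ a x (u x) := by
  simp only [op, D, dv_smul (hf.mdifferentiableAt (by simp)) (hu.mdifferentiableAt (by simp)),
    map_add, map_smul, Finset.sum_add_distrib, smul_add, Finset.smul_sum]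
  abel

theorem sm_cos (hθ : Sm I θ) (t : ℝ) : Sm I fun x => cos (t * θ x) :=
  contDiff_cos.contMDiff.comp (contMDiff_const.mul hθ)

theorem sm_sin (hθ : Sm I θ) (t : ℝ) : Sm I fun x => sin (t * θ x) :=
  contDiff_sin.contMDiff.comp (contMDiff_const.mul hθ)

theorem D_fn (hθ : Sm I θ) {φ : ℝ → ℝ} {d : ℝ} (a : ι) (x : M) (h : HasDerivAt φ d (θ x)) :
    F.D a (fun x => φ (θ x)) x = d * F.D a θ x :=
  (dv_comp (hθ.mdifferentiableAt (by simp)) h.hasFDerivAt).trans (mul_comm _ _)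

/-- rotation of a pair of sections -/
def rt (hθ : Sm I θ) (t : ℝ) (u u' : Sec I p) : Sec I p := fs (sm_cos hθ t) u + fs (sm_sin hθ t) u'

theorem norm_rt (hθ : Sm I θ) (t : ℝ) (u u' : Sec I p) :
    ‖F.toH 0 p (rt hθ t u u')‖ ≤ ‖F.toH 0 p u‖ + ‖F.toH 0 p u'‖ := by
  rw [rt, map_add]
  exact (norm_add_le _ _).trans (add_le_add (norm_fs _ (fun _ => abs_cos_le_one _) u)
    (norm_fs _ (fun _ => abs_sin_le_one _) u'))

/-- **high frequency sections** -/
theorem high {L : F.H 1 p →L[ℝ] F.H 0 p} (hL : F.Rep L (F.op σ B)) (hθ : Sm I θ)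
    (w w' s s' : Sec I p) (h1 : ∀ x, ∑ a, F.D a θ x • σ a x (w'.1 x) = s.1 x)
    (h2 : ∀ x, ∑ a, F.D a θ x • σ a x (w.1 x) = -s'.1 x)
    (h3 : ∀ x, ⟪w'.1 x, s'.1 x⟫_ℝ = ⟪w.1 x, s.1 x⟫_ℝ)
    (h4 : ∀ x, ⟪w.1 x, s'.1 x⟫_ℝ + ⟪w'.1 x, s.1 x⟫_ℝ = 0) {ε : ℝ}
    (pos : 0 < ε * ∫ x, ⟪w.1 x, s.1 x⟫_ℝ ∂F.μ) (R : ℝ) :
    ∃ (t : ℝ) (v : F.H 1 p), R * (‖L v - F.toH 0 p (t • rt hθ t s s')‖ ^ 2 +
      ‖F.incl 1 0 p v‖ ^ 2) < ε * ⟪F.incl 1 0 p v, F.toH 0 p (t • rt hθ t s s')⟫_ℝ := by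
  let o : Sec I p → Sec I p := fun u => ⟨_, RepT_mem hL u⟩
  set C := (‖F.toH 0 p (o w)‖ + ‖F.toH 0 p (o w')‖) ^ 2 + (‖F.toH 0 p w‖ + ‖F.toH 0 p w'‖) ^ 2
  obtain ⟨t, ht⟩ := ((tendsto_id.atTop_mul_const pos).eventually_gt_atTop (|R| * C)).exists
  refine ⟨t, F.toH 1 p (rt hθ t w w'), ?_⟩
  have e1 : L (F.toH 1 p (rt hθ t w w')) =
      F.toH 0 p (rt hθ t (o w) (o w')) + F.toH 0 p (t • rt hθ t s s') := by
    rw [← map_add, rt, map_add, map_add, RepT_toH hL, RepT_toH hL, ← map_add]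
    refine congrArg _ (Subtype.ext (funext fun x => ?_))
    have a1 := fun a => D_fn (F := F) hθ a x ((hasDerivAt_id' (θ x)).const_mul t).cos
    have a2 := fun a => D_fn (F := F) hθ a x ((hasDerivAt_id' (θ x)).const_mul t).sin
    simp only [rt, fs, o, Submodule.coe_add, Submodule.coe_smul, Pi.add_apply, Pi.smul_apply,
      op_fs (sm_cos hθ t) w.2.1, op_fs (sm_sin hθ t) w'.2.1, a1, a2, mul_smul, ← Finset.smul_sum,
      h1, h2]
    module
  have e2 : ⟪F.toH 0 p (rt hθ t w w'), F.toH 0 p (rt hθ t s s')⟫_ℝ =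
      ∫ x, ⟪w.1 x, s.1 x⟫_ℝ ∂F.μ := by
    rw [inner_toH]
    refine integral_congr_ae (.of_forall fun x => ?_)
    simp only [rt, fs, Submodule.coe_add, Pi.add_apply, inner_add_left, inner_add_right,
      real_inner_smul_left, real_inner_smul_right, h3]
    linear_combination ⟪w.1 x, s.1 x⟫_ℝ * cos_sq_add_sin_sq (t * θ x) +
      cos (t * θ x) * sin (t * θ x) * h4 x
  rw [e1, add_sub_cancel_right, incl_toH zero_le_one, map_smul, real_inner_smul_right, e2,
    mul_left_comm]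
  refine lt_of_le_of_lt ?_ ht
  refine (mul_le_mul_of_nonneg_right (le_abs_self R) (by positivity)).trans
    (mul_le_mul_of_nonneg_left (add_le_add ?_ ?_) (abs_nonneg R)) <;>
    exact pow_le_pow_left₀ (norm_nonneg _) (norm_rt _ _ _ _) 2

end Crest.Agent.X212.Sg31
end
end

-- ▼ part X212/Sg31/Sg
section

/-! CRIT-SG: both signs occur. -/

set_option autoImplicit false
set_option linter.unusedSectionVars false
noncomputable section
open scoped Manifold ContDiff Topology InnerProductSpace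
open MeasureTheory Set Function Filter

namespace Crest.Agent.X212.Sg31
open An An.Pre Sob92 Wz78 Cyf70 Nd18 Crt72 Cgr76 Map77
open Top68 (ap)

section pt
variable {E : Type} [NormedAddCommGroup E] [NormedSpace ℝ E] [FiniteDimensional ℝ E]
  [MeasurableSpace E] [BorelSpace E]
  {HM : Type} [TopologicalSpace HM] {I : ModelWithCorners ℝ E HM}
  {M : Type} [TopologicalSpace M] [ChartedSpace HM M] [IsManifold I ∞ M]
  [MeasurableSpace M] {κ : Type} [Fintype κ] {lam : Type} [Fintype lam]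
  {m : Md M (Option κ) lam} {B : Base M (Option κ) lam} {x : M} {t : κ → ℝ}

variable (m x t) in
/-- the symbol on spinors -/
def sy : En (Fin m.N) := -(m.ρ none x * ∑ a, t a • m.ρ (some a) x)

variable (B x t) in
/-- the squared length of a covector -/
def nq : ℝ := ∑ a, ∑ b, t a * t b * B.P (some a) (some b) x

theorem sy_smul (c : ℝ) : sy m x (fun a => c * t a) = c • sy m x t := by
  simp only [sy, mul_smul, ← Finset.smul_sum, mul_smul_comm, smul_neg]

variable (hB : B.OK I) (H : m.OK I B) (h0 : B.P none none x = 1) (h1 : ∀ a, B.P none (some a) x = 0)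
include H

theorem J_sy (v : m.V) : m.J (sy m x t v) = sy m x t (m.J v) := by
  have e : ∀ a v, m.J (m.ρ a x v) = m.ρ a x (m.J v) := fun a => ap (H.Jρ a x)
  simp only [sy, neg_apply, mul_apply_eq_comp, sum_apply, smul_apply, map_neg, map_sum, map_smul, e]

theorem j_sy (s : Eu lam) (v : m.V) : m.j x s (sy m x t v) = sy m x t (m.j x s v) := by
  have e : ∀ a v, m.j x s (m.ρ a x v) = m.ρ a x (m.j x s v) := fun a => ap (H.jρ a x s)
  simp only [sy, neg_apply, mul_apply_eq_comp, sum_apply, smul_apply, map_neg, map_sum, map_smul, e]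

theorem JJ (v : m.V) : m.J (m.J v) = -v := ap H.Jsq v

theorem pp_J {v : m.V} (hv : m.pp B x v = v) : m.pp B x (m.J v) = m.J v :=
  (ap (J_pp H x) v).symm.trans (congrArg m.J hv)

include hB in
theorem pp_sy {v : m.V} (hv : m.pp B x v = v) : m.pp B x (sy m x t v) = sy m x t v := by
  have e : ∀ a, m.pp B x (m.ρ none x (m.ρ a x v)) = m.ρ none x (m.ρ a x v) := fun a =>
    (ap (pp_rho2 hB H none a x) v).trans (congrArg (fun w => m.ρ none x (m.ρ a x w)) hv)
  simp only [sy, neg_apply, mul_apply_eq_comp, sum_apply, smul_apply, map_neg, map_sum, map_smul, e]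

include h0 in
theorem r0_sq (v : m.V) : m.ρ none x (m.ρ none x v) = -m.p x v := by
  have e := ap ((H.cl x).rel none none) v
  simp only [add_apply, mul_apply_eq_comp, smul_apply, h0] at e
  exact smul_right_injective _ (two_ne_zero (α := ℝ))
    (by simp only [two_smul ℝ (m.ρ none x _), e]; module)

include h1

theorem r0_anti (a : κ) (v : m.V) :
    m.ρ (some a) x (m.ρ none x v) = -m.ρ none x (m.ρ (some a) x v) := by
  have e := ap ((H.cl x).rel none (some a)) v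
  simp only [add_apply, mul_apply_eq_comp, h1, mul_zero, zero_smul, zero_apply] at e
  exact eq_neg_of_add_eq_zero_right e

theorem sy_skw : Skw (sy m x t) := fun v w => by
  simp only [sy, neg_apply, mul_apply_eq_comp, sum_apply, smul_apply, map_sum, map_smul,
    inner_neg_left, inner_neg_right, sum_inner, inner_sum, real_inner_smul_left,
    real_inner_smul_right, H.ρsk _ x _, r0_anti H h1, neg_neg, mul_neg, Finset.sum_neg_distrib]

theorem syJ_sym (v w : m.V) : ⟪sy m x t (m.J v), w⟫_ℝ = ⟪v, sy m x t (m.J w)⟫_ℝ := by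
  rw [sy_skw H h1, H.Jsk, neg_neg, J_sy H]

include h0

theorem sy_sq {v : m.V} (hv : m.p x v = v) : sy m x t (sy m x t v) = -(nq B x t • v) := by
  have e := ap ((H.cl x).sym_sum (S := fun a b => a.elim 0 t * b.elim 0 t) fun a b => mul_comm _ _) v
  have e2 : ∀ a w, m.p x (m.ρ a x w) = m.ρ a x w := fun a => ap ((H.cl x).pl a)
  simp only [Fintype.sum_option, Option.elim, zero_mul, mul_zero, zero_smul, Finset.sum_const_zero,
    zero_add, sum_apply, smul_apply, mul_apply_eq_comp, hv, neg_smul, neg_apply] at e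
  rw [nq, ← e]
  simp only [sy, neg_apply, mul_apply_eq_comp, sum_apply, smul_apply, map_neg, map_sum, map_smul,
    r0_anti H h1, r0_sq H h0, e2, neg_neg, smul_neg, Finset.sum_neg_distrib, Finset.smul_sum,
    mul_smul]
  rw [Finset.sum_comm]
  exact Finset.sum_congr rfl fun a _ => Finset.sum_congr rfl fun b _ => smul_comm _ _ _

theorem syJ_sq {v : m.V} (hv : m.p x v = v) :
    sy m x t (m.J (sy m x t (m.J v))) = nq B x t • v := by
  rw [J_sy H, JJ H, map_neg, map_neg, sy_sq H h0 h1 hv, neg_neg]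

omit h0 h1 in
theorem sy_P (hP : ∀ a, B.P (some a) none x = 0) (b : κ) :
    sy m x (fun a => B.P (some b) (some a) x) = -(m.ρ none x * m.ρ (some b) x) := by
  rw [sy, ← (H.cl x).proj (some b), Fintype.sum_option, hP, zero_smul, zero_add]

include hB

omit H h0 in
theorem nq_P (b : κ) : nq B x (fun a => B.P (some b) (some a) x) = B.P (some b) (some b) x := by
  have i : ∀ a, ∑ k, B.P (some b) (some k) x * B.P a (some k) x = B.P (some b) a x := fun a => by
    rw [← (hB.pr x).idem, Fintype.sum_option, (hB.pr x).symm _ none, h1, zero_mul, zero_add]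
    exact Finset.sum_congr rfl fun k _ => congrArg _ ((hB.pr x).symm _ _)
  simp only [nq, mul_assoc, ← Finset.mul_sum, i]

theorem exists_I : ∃ v b, m.pp B x v = v ∧
    ⟪sy m x (fun a => B.P (some b) (some a) x) (m.J v), v⟫_ℝ ≠ 0 := by
  by_contra hc
  simp only [not_exists, not_and, not_not] at hc
  have hP : ∀ a, B.P (some a) none x = 0 := fun a => ((hB.pr x).symm _ _).trans (h1 a)
  have k : ∀ u, m.pp B x u = 0 := fun u₀ => by
    set u := m.pp B x u₀
    have hu : m.pp B x u = u := ap (pp_pp hB H x) u₀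
    have pu : m.p x u = u := ap (p_pp H x) u₀
    have e : ∀ b, B.P (some b) (some b) x * ⟪u, u⟫_ℝ = 0 := fun b => by
      obtain ⟨t, ht⟩ : ∃ t, t = fun a => B.P (some b) (some a) x := ⟨_, rfl⟩
      have a1 := hc u b hu
      have a2 := hc (u + sy m x t (m.J u)) b (by rw [map_add, hu, pp_sy hB H (pp_J H hu)])
      have a3 := syJ_sym (t := t) H h1 (sy m x t (m.J u)) u
      have n := nq_P hB h1 b
      rw [← ht] at a1 a2 n
      rw [map_add, map_add, syJ_sq H h0 h1 pu, n, inner_add_left, inner_add_right, inner_add_right,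
        a1, real_inner_smul_left, real_inner_smul_left, real_inner_comm (sy m x t _) u, a1] at a2
      rw [syJ_sq H h0 h1 pu, n, real_inner_smul_left] at a3
      linarith
    have r := hB.rk x
    rw [Fintype.sum_option, h0] at r
    have := Finset.sum_eq_zero (s := Finset.univ) fun b _ => e b
    rw [← Finset.sum_mul, show ∑ b, B.P (some b) (some b) x = 3 by linarith] at this
    exact inner_self_eq_zero.1 ((mul_eq_zero.1 this).resolve_left three_ne_zero)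
  have k2 : m.p x = 0 := ContinuousLinearMap.ext fun v => by
    have e : m.pp B x (m.ρ none x (m.pm B x v)) = _ := ap (pp_rho hB H none x) _
    have e' := congrArg (m.ρ none x) e
    rw [k, map_zero, mul_apply_eq_comp, r0_sq H h0, show m.pm B x (m.pm B x v) = _ from
      ap (pm_pm hB H x) v, show m.p x (m.pm B x v) = _ from ap (p_pm H x) v] at e'
    rw [← pp_add_pm (B := B), add_apply, k, zero_add, zero_apply, ← neg_eq_zero, ← e']
  have := H.prk x
  rw [k2] at this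
  simp at this

omit h0 h1 hB in
theorem iso_S {ξ : m.A} {Φ : m.V} (hξ : ξ ∈ m.gS x) (e : opL ξ Φ = m.J Φ) (s : Eu lam) :
    ⟪Φ, m.j x s Φ⟫_ℝ = 0 := by
  have a1 := g_skw hξ Φ (m.j x s (m.J Φ))
  have a2 := H.Jsk Φ (m.j x s (m.J Φ))
  have b1 : ∀ v, m.j x s (m.J v) = -m.J (m.j x s v) := ap (H.jJ x s)
  have b2 : opL ξ (m.j x s (m.J Φ)) = -m.j x s Φ := by
    rw [show opL ξ (m.j x s (m.J Φ)) = m.j x s (opL ξ (m.J Φ)) from (ap (g_j hξ s) _).symm,
      show opL ξ (m.J Φ) = m.J (opL ξ Φ) from (ap (g_J hξ) _).symm, e, JJ H, map_neg]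
  rw [e, b2] at a1
  rw [a1, b1, map_neg, JJ H] at a2
  simp only [inner_neg_right, neg_neg] at a2
  linarith

theorem exists_S {ξ : m.A} {Φ : m.V} (hξ : ξ ∈ m.gS x) (e : opL ξ Φ = m.J Φ)
    (hp : m.pp B x Φ = Φ) (h : Φ ≠ 0) : ∃ s b,
    ⟪sy m x (fun a => B.P (some b) (some a) x) (m.J (m.j x s Φ)), m.j x s Φ⟫_ℝ ≠ 0 := by
  have hP : ∀ a, B.P (some a) none x = 0 := fun a => ((hB.pr x).symm _ _).trans (h1 a)
  have pΦ : m.p x Φ = Φ := by rw [← hp]; exact ap (p_pp H x) Φ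
  have sq := Abel74.g_sq hB H hξ
  have e2 := ap sq Φ
  rw [mul_apply_eq_comp, e, show opL ξ (m.J Φ) = m.J (opL ξ Φ) from (ap (g_J hξ) _).symm, e, JJ H,
    smul_apply, pΦ, ← neg_one_smul ℝ Φ] at e2
  rw [← smul_left_injective ℝ h e2, neg_one_smul] at sq
  have p : Top68.SP I B m x ξ Φ := ⟨hB, H, hξ, sq, hp, e, h⟩
  obtain ⟨s, hs⟩ := Abel74.exists_lf hB x
  have jj : m.j x s (m.j x s Φ) = Φ := by
    rw [← mul_apply_eq_comp, H.jsq, hs.ls, hs.n1, one_pow, one_smul, pΦ]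
  by_contra hc
  simp only [not_exists, not_not] at hc
  have pJ : m.p x (m.J Φ) = m.J Φ := (ap (H.Jp x) Φ).symm.trans (congrArg _ pΦ)
  have := p.par1 (w := m.ρ none x (m.J Φ)) (by rw [p.hf_ρ, p.hf_J, p.hfΦ])
    ((ap (pm_rho hB H none x) _).trans (congrArg (m.ρ none x) (pp_J H hp)))
  rw [Finset.sum_eq_zero fun b _ => ?_, eq_comm, smul_eq_zero, inner_self_eq_zero] at this
  · have a := congrArg (fun w => m.J (m.ρ none x w)) (this.resolve_left h)
    simp only [r0_sq H h0, pJ, map_neg, JJ H, neg_neg, map_zero] at a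
    exact h a
  · cases b with
    | none =>
      have a := H.Jsk Φ Φ
      rw [real_inner_comm] at a
      rw [H.ρsk, r0_sq H h0, pJ, inner_neg_right, show ⟪Φ, m.J Φ⟫_ℝ = 0 by linarith]
      simp
    | some b =>
      have a := hc s b
      rw [show m.J (m.j x s Φ) = -m.j x s (m.J Φ) from by
          rw [show m.j x s (m.J Φ) = _ from ap (H.jJ x s) Φ]; exact (neg_neg _).symm,
        map_neg, ← j_sy H, inner_neg_left, H.jsym, jj, sy_P H hP, neg_apply, inner_neg_left, neg_neg,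
        mul_apply_eq_comp, real_inner_comm] at a
      rw [H.ρsk, r0_anti H h1, inner_neg_right, a]
      simp

end pt

variable {E3 : Type} [NormedAddCommGroup E3] [NormedSpace ℝ E3] [FiniteDimensional ℝ E3]
  [MeasurableSpace E3] [BorelSpace E3]
  {H3 : Type} [TopologicalSpace H3] {I3 : ModelWithCorners ℝ E3 H3} [I3.Boundaryless]
  {Y : Type} [TopologicalSpace Y] [ChartedSpace H3 Y] [IsManifold I3 ∞ Y] [T2Space Y]
  [MeasurableSpace Y] [BorelSpace Y] [SecondCountableTopology Y] [CompactSpace Y]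
  {κ : Type} [Fintype κ] {lam : Type} [Fintype lam] {D : YD I3 Y κ lam} {β : YC Y κ lam}

variable (D β) in
/-- the form part of the gradient -/
def gA1 (α : Y → Fm κ β.m.A) (φ : Y → β.m.V) (y : Y) : Fm κ β.m.A := (YF.z0 D).gA (vy β α φ) y

variable (D β) in
/-- the spinor part of the gradient -/
def gP1 (α : Y → Fm κ β.m.A) (φ : Y → β.m.V) (y : Y) : β.m.V := (YF.z0 D).gP (vy β α φ) y

theorem gP0 (hβ : D.Adm β) {φ : Y → β.m.V} (hφ : Sm I3 φ) (y : Y) :
    gP1 D β 0 φ y = -β.m.ρ none y (∑ a, β.m.ρ (some a) y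
      (nab I3 D.F.e (cn β) a β.Φ y + nab I3 D.F.e (cn β) a φ y)) := by
  have s : Sm I3 fun y => β.Φ y + φ y := (sm_Φ hβ).add hφ
  have e1 := congrFun (D_none_fst D.F.toPre s) (y, 0)
  have e2 := fun a => congrFun (D_some_fst D.F.toPre s a) (y, 0)
  have e : gP1 D β 0 φ y = -β.m.ρ none y (∑ a, β.m.ρ a y
      ((cylP D.F.toPre).D a (fun x => β.Φ x.1 + φ x.1) (y, 0) +
        (β.W a y + opL (up κ β.m.A 0 a)) (β.Φ y + φ y)) - 0) := rfl
  rw [e, Fintype.sum_option, e1, hβ.tmp, map_zero]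
  simp only [e2, PiLp.zero_apply, map_zero, add_zero, zero_apply, Pi.zero_apply, zero_add, sub_zero,
    ← fun a => nab_add (e := D.F.e) (A := cn β) a (sm_Φ hβ y) (hφ y)]
  rfl

theorem lf_eP (hβ : D.Adm β) {φ : Y → β.m.V} (hφ : Sm I3 φ) (y : Y) :
    lf D β (fun y => eP κ _ (φ y)) y =
      (2 : ℝ) • eA κ _ (deriv (fun ε : ℝ => gA1 D β 0 (fun _ => ε • φ y) y) 0) +
        eP κ _ (-β.m.ρ none y (∑ a, β.m.ρ (some a) y (nab I3 D.F.e (cn β) a φ y))) +
        (2 : ℝ) • eG κ _ (sgp β φ y) := by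
  have z : ∀ {V : Type} [NormedAddCommGroup V] [NormedSpace ℝ V] (A : κ → Y → V →L[ℝ] V) a,
      nab I3 D.F.e A a (fun _ => 0) y = 0 := fun A a => by simp [nab]
  have e : ∀ ε : ℝ, gP1 D β 0 (ε • φ) y = -β.m.ρ none y (∑ a, β.m.ρ (some a) y
      (nab I3 D.F.e (cn β) a β.Φ y)) + ε • -β.m.ρ none y (∑ a, β.m.ρ (some a) y
      (nab I3 D.F.e (cn β) a φ y)) := fun ε => by
    rw [gP0 hβ (φ := ε • φ) ((contMDiff_const (I' := 𝓘(ℝ, ℝ)) (c := ε)).smul hφ)]
    simp only [nab, dv_const_smul ε (SA.md (hφ y)), Pi.smul_apply, map_add, map_smul, smul_add,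
      Finset.sum_add_distrib, ← Finset.smul_sum, neg_add, smul_neg]
  have k : ∀ α : Y → Fm κ β.m.A, α = 0 → ∀ m : Y → β.m.A, m = 0 →
      (2 : ℝ) • eA κ _ (deriv (fun ε : ℝ => gA1 D β (ε • α) (ε • φ) y) 0 +
        (1 / 4 : ℝ) • dga D β m y) +
      eP κ _ (deriv (fun ε : ℝ => gP1 D β (ε • α) (ε • φ) y) 0 + dgp β m y) +
      (2 : ℝ) • eG κ _ ((1 / 4 : ℝ) • sga D β α y + sgp β φ y) =
      (2 : ℝ) • eA κ _ (deriv (fun ε : ℝ => gA1 D β 0 (ε • φ) y) 0) +
        eP κ _ (-β.m.ρ none y (∑ a, β.m.ρ (some a) y (nab I3 D.F.e (cn β) a φ y))) +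
        (2 : ℝ) • eG κ _ (sgp β φ y) := by
    rintro _ rfl _ rfl
    have a1 : dga D β 0 y = 0 := PiLp.ext fun a => neg_eq_zero.2 (z _ a)
    have a2 : sga D β 0 y = 0 := Finset.sum_eq_zero fun a _ => by
      rw [show nab I3 D.F.e (an β) a (fun z => (0 : Y → Fm κ β.m.A) z a) y = 0 from z _ a]; simp
    simp only [a1, a2, smul_zero, add_zero, zero_add, e, show dgp β 0 y = 0 by simp [dgp]]
    rw [(((hasDerivAt_id' (0 : ℝ)).smul_const _).const_add _).deriv, one_smul]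
  exact k _ (funext fun z => by simp [eP]) _ (funext fun z => by simp [eP])

theorem lf_smul (hβ : D.Adm β) {φ : Y → β.m.V} (hφ : Sm I3 φ) {f : Y → ℝ} (hf : Sm I3 f) (y : Y) :
    lf D β (fun y => f y • eP κ _ (φ y)) y = f y • lf D β (fun y => eP κ _ (φ y)) y +
      eP κ _ (sy β.m y (fun a => D.F.D a f y) (φ y)) := by
  have e := deriv_comp_mul_left (f y) (fun ε : ℝ => gA1 D β 0 (fun _ => ε • φ y) y) 0
  simp only [← map_smul (eP κ _)]
  rw [lf_eP hβ (Wrd81.sm_smul hf hφ), lf_eP hβ hφ]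
  simp only [mul_zero, mul_smul, smul_comm (f y)] at e
  simp only [e, nab_smul _ (hf y) (hφ y), sgp, ← qL_apply, map_smul, smul_apply, sy, map_add,
    Finset.sum_add_distrib, ← Finset.smul_sum, neg_apply, mul_apply_eq_comp, sum_apply, neg_add,
    map_neg, Pre.D]
  module

/-- a spinor as a section of the total bundle -/
def sP (φ : Sec I3 (pv D β)) : Sec I3 (ph D β) :=
  ⟨fun y => eP κ _ (φ.1 y), (eP κ _).contMDiff.comp φ.2.1, .of_compactSpace _,
    fun y => maps_i2 y _ (φ.2.2.2 y)⟩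

/-- `J` on sections -/
def sJ (hβ : D.Adm β) (φ : Sec I3 (pv D β)) : Sec I3 (pv D β) :=
  ⟨fun y => β.m.J (φ.1 y), β.m.J.contMDiff.comp φ.2.1, .of_compactSpace _,
    fun y => pv_J hβ (φ.2.2.2 y)⟩

theorem inner_eP (u v : β.m.V) : ⟪eP κ _ u, eP κ _ v⟫_ℝ = ⟪u, v⟫_ℝ := by
  rw [inner2]; simp only [eP, f2_i2, s2_i2, inner_zero_left, zero_add]

/-- **high frequency multiples of `ψ`** -/
theorem core (h : D.OK) (hβ : D.Adm β) (O : OpY D β) (ψ : Sec I3 (pv D β)) {y₀ : Y} {b : κ}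
    (h0 : ⟪sy β.m y₀ (fun a => D.F.P b a y₀) (β.m.J (ψ.1 y₀)), ψ.1 y₀⟫_ℝ ≠ 0) {ε : ℝ} (hε : ε ≠ 0)
    (R : ℝ) : ∃ (f g : Y → ℝ) (hf : Sm I3 f) (hg : Sm I3 g) (v : XX D β 1),
      R * (‖D.F.lift 1 0 _ _ (lf D β) v - D.F.toH 0 _ (sP (fs hf ψ + fs hg (sJ hβ ψ)))‖ ^ 2 +
        ‖D.F.incl 1 0 _ v‖ ^ 2) <
        ε * ⟪D.F.incl 1 0 _ v, D.F.toH 0 _ (sP (fs hf ψ + fs hg (sJ hβ ψ)))⟫_ℝ := by
  obtain ⟨σ, B, C, G, -, e, -⟩ := O
  have hB := ok3 h
  have H := mok hβ
  have P0 : ∀ y, (B3 D).P none none y = 1 := fun _ => rfl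
  have P1 : ∀ y a, (B3 D).P none (some a) y = 0 := fun _ _ => rfl
  have r : D.F.Rep (D.F.opH 0 (ph D β) (ph D β) σ B) (D.F.op σ B) :=
    rep_opH (fun a => ⟨C, G.σ a⟩) ⟨C, G.B⟩ G.qσ (Maps.of_left G.qB)
  rw [show D.F.lift 1 0 _ _ (lf D β) = _ from (RepT_congr r e).liftT_eq]
  set c := ⟪sy β.m y₀ (fun a => D.F.P b a y₀) (β.m.J (ψ.1 y₀)), ψ.1 y₀⟫_ℝ with hc
  obtain ⟨ξ, hξ⟩ := Wrd81.exists_covector D.F y₀ b
  obtain ⟨θ, sθ, -, -, dθ⟩ := Wrd81.exists_fun_deriv (I := I3) (univ_mem (f := 𝓝 y₀)) ((ε * c) • ξ)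
  set t : Y → κ → ℝ := fun y a => D.F.D a θ y with ht
  have st : ∀ a, Sm I3 fun y => t y a := D.F.sm_D sθ
  have t0 : t y₀ = fun a => ε * c * D.F.P b a y₀ := funext fun a => by
    rw [← hξ]; exact dθ _
  have sb : ∀ (φ : Sec I3 (pv D β)) y, ∑ a, D.F.D a θ y • σ a y ((sP φ).1 y) =
      eP κ _ (sy β.m y (t y) (φ.1 y)) := fun φ y => by
    have a1 := congrFun (e (fs sθ (sP φ))) y
    have a2 := lf_smul hβ φ.2.1 sθ y
    rw [← show _ = lf D β (fun y => eP κ _ (φ.1 y)) from e (sP φ)] at a2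
    exact add_left_cancel ((op_fs sθ (sP φ).2.1 y).symm.trans (a1.trans a2))
  let T : Sec I3 (pv D β) → Sec I3 (pv D β) := fun φ => ⟨fun y => sy β.m y (t y) (φ.1 y),
    (((H.sρ none).clm_comp (contMDiff_finsetSum fun a _ => Wrd81.sm_smul (st a)
      (H.sρ (some a)))).neg).clm_apply φ.2.1, .of_compactSpace _, fun y => pp_sy hB H (φ.2.2.2 y)⟩
  have sq : ∀ y, sy β.m y (t y) (β.m.J (sy β.m y (t y) (β.m.J (ψ.1 y)))) =
      nq (B3 D) y (t y) • ψ.1 y := fun y => syJ_sq H (P0 y) (P1 y) (p_pv hβ (ψ.2.2.2 y))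
  have sn : Sm I3 fun y => nq (B3 D) y (t y) := contMDiff_finsetSum fun a _ =>
    contMDiff_finsetSum fun b _ => ((st a).mul (st b)).mul (hB.sP _ _)
  let k : Y → ℝ := fun y => ε * (nq (B3 D) y (t y) * ⟪(T (sJ hβ ψ)).1 y, ψ.1 y⟫_ℝ)
  have ck : Continuous k :=
    continuous_const.mul (sn.continuous.mul ((T _).2.1.continuous.inner ψ.2.1.continuous))
  have k0 : 0 < k y₀ := by
    have a1 : ⟪(T (sJ hβ ψ)).1 y₀, ψ.1 y₀⟫_ℝ = ε * c * c := by
      change ⟪sy β.m y₀ (t y₀) (β.m.J (ψ.1 y₀)), ψ.1 y₀⟫_ℝ = _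
      rw [t0, sy_smul, smul_apply, real_inner_smul_left]
    have a2 := syJ_sym (t := t y₀) H (P1 y₀) ((T (sJ hβ ψ)).1 y₀) (ψ.1 y₀)
    have a3 : (T (sJ hβ ψ)).1 y₀ ≠ 0 := fun e0 => by
      rw [e0, inner_zero_left] at a1
      exact mul_ne_zero (mul_ne_zero hε h0) h0 a1.symm
    rw [show sy β.m y₀ (t y₀) (β.m.J ((T (sJ hβ ψ)).1 y₀)) = _ from sq y₀,
      real_inner_smul_left] at a2
    have a4 := (pos_iff_pos_of_mul_pos (a2 ▸ real_inner_self_pos.2 a3)).2 (real_inner_self_pos.2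
      fun e0 => h0 (by rw [hc, e0, inner_zero_right]))
    simp only [k, a1]
    have : ε * (nq (B3 D) y₀ (t y₀) * (ε * c * c)) = nq (B3 D) y₀ (t y₀) * (ε * c) ^ 2 := by ring
    rw [this]
    exact mul_pos a4 (sq_pos_of_ne_zero (mul_ne_zero hε h0))
  obtain ⟨χ, sχ, -, χ1, χ2⟩ := Wrd81.exists_bump (I := I3) (ck.continuousAt.eventually_const_lt k0)
  let u := fs sχ (T (sJ hβ ψ))
  have s0 : ∀ y, (T (sJ hβ u)).1 y = (χ y * nq (B3 D) y (t y)) • ψ.1 y := fun y => by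
    change sy β.m y (t y) (β.m.J (χ y • sy β.m y (t y) (β.m.J (ψ.1 y)))) = _
    rw [map_smul, map_smul, sq, mul_smul]
  obtain ⟨τ, v, hv⟩ := high r sθ (sP u) (sP (sJ hβ u)) (sP (T (sJ hβ u)))
    (sP (sJ hβ (T (sJ hβ u)))) (sb _) (fun y => (sb _ y).trans (by
      change _ = -eP κ _ (β.m.J (sy β.m y (t y) (β.m.J (u.1 y))))
      rw [J_sy H, JJ H, map_neg, map_neg, neg_neg]))
    (fun y => by
      simp only [sP, inner_eP]
      exact (H.Jsk _ _).trans (by rw [show β.m.J ((sJ hβ (T (sJ hβ u))).1 y) = _ from JJ H _,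
        inner_neg_right, neg_neg]))
    (fun y => by
      simp only [sP, inner_eP]
      exact add_eq_zero_iff_neg_eq.2 (H.Jsk _ _).symm) (ε := ε) (by
      rw [← integral_const_mul]
      have e3 : ∀ y, ε * ⟪(sP u).1 y, (sP (T (sJ hβ u))).1 y⟫_ℝ = χ y * χ y * k y := fun y => by
        simp only [sP, inner_eP, s0]
        simp only [u, fs, real_inner_smul_left, real_inner_smul_right, k]
        ring
      simp only [e3]
      refine Continuous.integral_pos_of_hasCompactSupport_nonneg_nonzero (x := y₀)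
        ((sχ.continuous.mul sχ.continuous).mul ck) (.of_compactSpace _) (fun y => ?_) ?_
      · by_cases hy : y ∈ tsupport χ
        · exact mul_nonneg (mul_self_nonneg _) (χ1 hy).le
        · simp [image_eq_zero_of_notMem_tsupport hy]
      · simpa [show χ y₀ = 1 from χ2.eq_of_nhds] using k0.ne') R
  have sf := (contMDiff_const (c := τ)).mul ((sm_cos sθ τ).mul (sχ.mul sn))
  have sg := (contMDiff_const (c := τ)).mul ((sm_sin sθ τ).mul (sχ.mul sn))
  refine ⟨_, _, sf, sg, v, ?_⟩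
  rwa [show sP (fs sf ψ + fs sg (sJ hβ ψ)) = τ • rt sθ τ (sP (T (sJ hβ u)))
    (sP (sJ hβ (T (sJ hβ u)))) from Subtype.ext (funext fun y => ?_)]
  change eP κ _ ((τ * (_ * _)) • _ + (τ * (_ * _)) • β.m.J _) = τ • (_ • eP κ _ ((T (sJ hβ u)).1 y) +
    _ • eP κ _ (β.m.J ((T (sJ hβ u)).1 y)))
  simp only [s0, map_add, map_smul, smul_add, mul_smul, Pi.mul_apply]

theorem X0_sP (hβ : D.Adm β) (k : ℕ) (φ : Sec I3 (pv D β)) :
    xX D β (D.F.val k β.m.pg 0) 0 (D.F.toH 0 _ (sP φ)) = D.F.toH 0 _ (sP (sJ hβ φ)) := by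
  have e : (fun y => sm2 (onv (Option κ) (xa β (D.F.val k β.m.pg 0) y))
      (xs β (D.F.val k β.m.pg 0) y)) = fun _ => sm2 0 β.m.J := funext fun y => by
    rw [val_zero, xa, xs, Pi.zero_apply, map_zero, sub_zero, ← adcL_apply, map_zero, neg_zero]
    congr 1
  have m : Maps (ph D β) (ph D β) fun _ => sm2 0 β.m.J := fun y v hv => by
    rw [show sm2 0 β.m.J v = i2 _ _ (β.m.J (s2 _ _ v)) from ext2 (by simp) (by simp)]
    exact maps_i2 y _ (pv_J hβ (maps_s2 y v hv))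
  rw [xX, e]
  exact RepT_toH' (rep_mulH (Cb_const _) m) _ _
    (funext fun y => ext2 (by simp [sP, sJ, eP]) (by simp [sP, sJ, eP]))

theorem j0_pt (k : ℕ) (φ : Sec I3 (pv D β)) : D.F.incl k 0 _ (emb D β 2 k
    (iC D β (k + 1) k (pt D β (k + 1) (0, φ)), 0)) = D.F.toH 0 _ (sP φ) := by
  rw [← incl_toH k.zero_le, ← RepT_toH' (rep_mulH (k := k) (q := ph D β) (f := fun _ => eP κ β.m.N)
    (Cb_const _) maps_i2) φ (sP φ) rfl, ← incl_toH k.le_succ]
  simp [emb, iC, pt]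

theorem tau_re (h : HY D) (hβ : D.Adm β) {k : ℕ} (hk : 7 ≤ k) (d : B2 D) (hS : Sm1 D (.re d))
    (φ : Sec I3 (pv D β)) (hA : ∀ y, (yf D (.re d)).gA β y = 0)
    (hP : ∀ y, (yf D (.re d)).gP β y = φ.1 y) :
    mT D β (yf D (.re d)) (k + 1) (k + 1) 0 = pt D β (k + 1) (0, φ) := by
  have e := (Classical.epsilon_spec (hS.T β hβ k hk)).2 0
  rw [map_zero, (g_cf_zero _ β).1, (g_cf_zero _ β).2] at e
  refine cc_ext h (by omega) (fun y a => ?_) fun y => ?_
  · rw [mT, (e y).1, hA, map_zero, val_pt1 h (by omega)]; rfl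
  · rw [mT, (e y).2, hP, φ.2.2.2, val_pt2 h (by omega)]

variable (D β) in
/-- the inequality `GM.Sgn` -/
def Sn (ψ : XX D β 0) (ε R : ℝ) : Prop := ∃ v : XX D β 1,
  R * (‖D.F.lift 1 0 _ _ (lf D β) v - ψ‖ ^ 2 + ‖D.F.incl 1 0 _ v‖ ^ 2) < ε * ⟪D.F.incl 1 0 _ v, ψ⟫_ℝ

theorem sgI (h : HY D) (hβ : D.Adm β) (O : OpY D β) (k : ℕ) {ε : ℝ} (ε0 : ε ≠ 0) (R : ℝ) :
    ∃ ψ, xX D β (D.F.val k β.m.pg 0) 0 (xX D β (D.F.val k β.m.pg 0) 0 ψ) = -ψ ∧ Sn D β ψ ε R := by
  obtain ⟨y⟩ := h.conn.toNonempty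
  obtain ⟨v, b, h1, h2⟩ := exists_I (x := y) (ok3 h.ok) (mok hβ) rfl fun _ => rfl
  obtain ⟨f, g, hf, hg, w, hw⟩ := core h.ok hβ O ⟨fun y => pv D β y v,
    (sm_pv h.ok hβ).clm_apply contMDiff_const, .of_compactSpace _, fun y => pv_pv h.ok hβ y v⟩
    (y₀ := y) (b := b) (by simp only [pv_eq, h1]; exact h2) ε0 R
  refine ⟨_, ?_, w, hw⟩
  rw [X0_sP hβ, X0_sP hβ, ← map_neg]
  exact congrArg _ (Subtype.ext (funext fun y => (congrArg _ (JJ (mok hβ) _)).trans (map_neg _ _)))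

theorem sgS (h : HY D) (hβ : D.Adm β) (O : OpY D β) {k : ℕ} (hk : 7 ≤ k)
    (hS : ∀ j, Sw j → Sm1 D j) (ξ : GG D β (k + 1 + 1)) (h0 : jv D β (k + 1) 0 ≠ 0)
    (e : Crt72.dv D β (k + 1) 0 ξ = jv D β (k + 1) 0) {ε : ℝ} (ε0 : ε ≠ 0) (R : ℝ) :
    ∃ d : B2 D, Sn D β (D.F.incl k 0 _ (emb D β 2 k
      (iC D β (k + 1) k (mT D β (yf D (.re d)) (k + 1) (k + 1) 0), 0))) ε R := by
  have H := mok hβ
  have s0 : ∀ y, sv D β (0 : CC D β (k + 1)) y = β.Φ y := fun y => by simp [sv, val_zero]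
  have e1 : ∀ y, opL (D.F.val _ _ ξ y) (β.Φ y) = β.m.J (β.Φ y) := fun y => by
    rw [← s0, ← val_dv2 h hβ (by omega), ← val_jv2 h hβ (by omega), e]
  have e2 : ∀ y, D.F.val _ _ ξ y ∈ β.m.gS y := fun y =>
    val_proj (Cgr76.hS h) (by omega) ξ y ▸ pg_mem y _
  obtain ⟨y, hy⟩ : ∃ y, β.Φ y ≠ 0 := by
    by_contra hc
    simp only [not_exists, not_not] at hc
    exact h0 (cc_ext h (by omega) (fun _ _ => rfl) fun y => by
      rw [val_jv2 h hβ (by omega), s0, hc, map_zero, Prod.snd_zero, val_zero, Pi.zero_apply])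
  obtain ⟨s, b, h2⟩ := exists_S (ok3 h.ok) H rfl (fun _ => rfl) (e2 y) (e1 y) (pv_Φ hβ y) hy
  have n0 : ∀ y, 0 < 1 + ⟪β.Φ y, β.Φ y⟫_ℝ := fun y =>
    add_pos_of_pos_of_nonneg one_pos real_inner_self_nonneg
  have sr : Sm I3 fun y => 2 / (1 + ⟪β.Φ y, β.Φ y⟫_ℝ) := contMDiff_const.div₀
    (contMDiff_const.add fun y => SA.inner (sm_Φ hβ y) (sm_Φ hβ y)) fun y => (n0 y).ne'
  let ψ : Sec I3 (pv D β) := fs sr ⟨fun y => β.m.j y s (β.Φ y),
    (H.sj.clm_apply contMDiff_const).clm_apply (sm_Φ hβ), .of_compactSpace _, fun y =>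
      (ap (j_pp H y s) _).symm.trans (congrArg (β.m.j y s) (pv_Φ hβ y))⟩
  obtain ⟨f, g, hf, hg, w, hw⟩ := core h.ok hβ O ψ (y₀ := y) (b := b) (by
    simp only [ψ, fs, map_smul, real_inner_smul_left, real_inner_smul_right]
    have := div_ne_zero two_ne_zero (n0 y).ne'
    exact mul_ne_zero this (mul_ne_zero this h2)) ε0 R
  let d : B2 D := ⟨⟨fun y => f y • s + g y • D.il s, [], []⟩, (Wrd81.sm_smul hf contMDiff_const).add
    (Wrd81.sm_smul hg contMDiff_const), fun _ h => (nomatch h), fun _ h => nomatch h⟩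
  refine ⟨d, w, ?_⟩
  rw [tau_re h hβ hk d (hS _ fun _ h => nomatch h) (fs hf ψ + fs hg (sJ hβ ψ))
    (fun y => add_zero _) fun y => ?_, j0_pt]
  · exact hw
  · have a := Real.mul_self_sqrt (n0 y).le
    have il : β.m.j y (D.il s) = β.m.J * β.m.j y s := H.jil y s
    have i := iso_S H (e2 y) (e1 y) (f y • s + g y • D.il s)
    change Dgr80.dn β (fun y => β.m.j y (f y • s + g y • D.il s) (Dgr80.nP β y)) y + Dgr80.dn β
      (fun y => β.m.j y (f y • s + g y • D.il s) (Dgr80.nP β y)) y =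
      f y • (2 / (1 + ⟪β.Φ y, β.Φ y⟫_ℝ)) • β.m.j y s (β.Φ y) +
        g y • β.m.J ((2 / (1 + ⟪β.Φ y, β.Φ y⟫_ℝ)) • β.m.j y s (β.Φ y))
    simp only [Dgr80.dn, Dgr80.nP, map_smul (β.m.j y _), real_inner_smul_right, i, mul_zero,
      zero_smul, sub_zero, smul_smul, ← mul_inv, ← real_inner_self_eq_norm_sq, a]
    simp only [map_add, map_smul, add_apply, smul_apply, il, mul_apply_eq_comp, div_eq_mul_inv]
    module

variable (D) in
/-- **CRIT-SG** -/
theorem sgStmt : SgStmt D := fun h h3 hS k hk _ _ =>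
  have n : ∀ {ε : ℝ}, ε = 1 ∨ ε = -1 → ε ≠ 0 := by rintro _ (rfl | rfl) <;> norm_num
  ⟨fun o _ _ hε R => sgI h o.2 (h3 o.1 o.2).1 (k + 2) (n hε) R,
    fun o ξ h0 e _ hε R => sgS h o.2 (h3 o.1 o.2).1 hk hS ξ h0 e (n hε) R⟩

end Crest.Agent.X212.Sg31
end
end

-- ▼ part X212/Der92/Wy
section

/-!
# Row 212, CRIT-DER (helper92), part 2: spinor words on the cross-section and their twins
-/

set_option autoImplicit false
set_option linter.unusedSectionVars false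
noncomputable section
open scoped Manifold ContDiff Topology InnerProductSpace
open MeasureTheory Set Function Filter

namespace Crest.Agent.X212.Der92
open An Sob92 Wrd81 Nt92 Dgr80 Cyf70 Nd18 Crt72 Std94

variable {E3 : Type} [NormedAddCommGroup E3] [NormedSpace ℝ E3] [FiniteDimensional ℝ E3]
  [MeasurableSpace E3] [BorelSpace E3]
  {H3 : Type} [TopologicalSpace H3] {I3 : ModelWithCorners ℝ E3 H3} [I3.Boundaryless]
  {Y : Type} [TopologicalSpace Y] [ChartedSpace H3 Y] [IsManifold I3 ∞ Y] [T2Space Y]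
  [MeasurableSpace Y] [BorelSpace Y] [SecondCountableTopology Y] [CompactSpace Y]
  {κ : Type} [Fintype κ] {lam : Type} [Fintype lam] {D : YD I3 Y κ lam} {β β' : YC Y κ lam}

theorem nT_comp {V W U : Type} [NormedAddCommGroup V] [InnerProductSpace ℝ V]
    [NormedAddCommGroup W] [InnerProductSpace ℝ W] [NormedAddCommGroup U] [InnerProductSpace ℝ U]
    {F : Fr I3 Y κ} (A : κ → Y → V →L[ℝ] V) (A' : κ → Y → W →L[ℝ] W) (A'' : κ → Y → U →L[ℝ] U)
    {S : Y → W →L[ℝ] U} {T : Y → V →L[ℝ] W} (hS : Sm I3 S) (hT : Sm I3 T) (a : κ) (y : Y) :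
    nT F A A'' a (fun z => S z ∘L T z) y =
      nT F A' A'' a S y ∘L T y + S y ∘L nT F A A' a T y := by
  have := dv_bil (e := F.e a) (ContinuousLinearMap.compL ℝ V W U) (md hS y) (md hT y)
  simp only [ContinuousLinearMap.compL_apply] at this
  simp only [nT, Pre.D, this]
  ext v; simp; abel

theorem ok_op {V : Type} [NormedAddCommGroup V] [InnerProductSpace ℝ V] [FiniteDimensional ℝ V]
    [CompleteSpace V] {T : Y → CL V V} (hT : Sm I3 T) : (SL.op T).Ok (Sm I3) := fun _ hu =>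
  ⟨hT.clm_apply hu, ((ContinuousLinearMap.adjoint (𝕜 := ℝ) (E := V) (F := V)).toContinuousLinearEquiv
    |>.toContinuousLinearMap.contMDiff.comp hT).clm_apply hu⟩

variable (D β) in
/-- the facts on `Y` -/
structure YA : Prop where
  pm : ∀ y, PM (fun a b => D.B.P a b (y, 0)) (D.l y) D.il (β.m.p y) β.m.J (fun a => β.m.ρ a y)
    (β.m.j y)
  sp : Sm I3 β.m.p
  sρ : ∀ a, Sm I3 (β.m.ρ a)
  sj : Sm I3 β.m.j
  sΦ : Sm I3 β.Φ
  pΦ : ∀ y, β.m.p y (β.Φ y) = β.Φ y
  rh : RH D.F (cn β)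
  pp : PP D.F (cn β) β.m.p
  nj : ∀ a y s, nT D.F (cn β) (cn β) a (fun z => β.m.j z s) y = β.m.j y (D.a a y s)

theorem proj_some {N : Type} [AddCommGroup N] [Module ℝ N] {f : Option κ → N} {y : Y} {a : κ}
    (h : ∑ b, D.B.P (some a) b (y, 0) • f b = f (some a)) :
    ∑ b, D.F.P a b y • f (some b) = f (some a) := by
  simpa [Fintype.sum_option, YD.B, cP] using h

theorem ya (hD : HY D) (hβ : D.Adm β) : YA D β := by
  have H := hβ.adm.ok
  have C := hβ.adm.conn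
  have sp : Sm I3 β.m.p := sm_slice_fst H.sp 0
  have sj : Sm I3 β.m.j := sm_slice_fst H.sj 0
  obtain ⟨c, hF⟩ := Cht98.exists_tame D.F (hD.dim.le.trans (by norm_num))
  refine ⟨fun y => pmx H (y, 0), sp, fun a => sm_slice_fst (H.sρ a) 0, sj,
    sm_slice_fst hβ.adm.sm 0, fun y => ?_, rh_of_tame hF (fun a => Cb_of_compact
      (sm_slice_fst (u := (cy β).W (some a)) (C.cc.sm _) 0)) (fun a y => C.sk (some a) (y, 0))
      fun a y => proj_some (f := fun b => β.W b y) (C.cc.proj (some a) (y, 0)),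
    ⟨sp, fun y => H.psym (y, 0), fun y v => ?_, fun a y => ?_⟩, fun a y s => ?_⟩
  · have h1 : (cy β).m.pp D.B (y, 0) (β.Φ y) = β.Φ y := hβ.adm.pos (y, 0)
    have h2 := congrArg (· (β.Φ y)) (Wz78.p_pp H (y, 0))
    simp only [mul_apply_eq_comp, h1] at h2
    exact h2
  · exact congrArg (· v) (H.pidem (y, 0))
  · have h1 : (cylP D.F.toPre).D (some a) (fun x => β.m.p x.1) (y, 0) +
      (cn β a y * β.m.p y - β.m.p y * cn β a y) = 0 := C.cc.par (some a) (y, 0)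
    rw [D_some_fst _ sp] at h1
    exact (eq_neg_of_add_eq_zero_left h1).trans (neg_sub _ _)
  · have h1 : (cylP D.F.toPre).D (some a) (fun x => β.m.j x.1) (y, 0) s +
      (cn β a y * β.m.j y s - β.m.j y s * cn β a y) = β.m.j y (D.a a y s) := C.j (some a) (y, 0) s
    rw [D_some_fst _ sj] at h1
    have h2 := dv_clm (e := D.F.e a) (ContinuousLinearMap.apply ℝ (En (Fin β.m.N)) s) (md sj y)
    rw [← h1, nT, add_sub_assoc]
    exact congrArg₂ (· + ·) h2 rfl

/-- smooth words -/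
abbrev WK (I3 : ModelWithCorners ℝ E3 H3) (u : List (YL Y)) : Prop := ∀ t ∈ u, YL.OK I3 t

theorem WK.cons {u : List (YL Y)} (h : WK I3 u) {t : YL Y} (ht : t.OK I3) : WK I3 (t :: u) :=
  List.forall_mem_cons.2 ⟨ht, h⟩

theorem wk_nil : WK I3 ([] : List (YL Y)) := fun _ h => nomatch h

theorem of_some {g : Y → ℝ} (hg : Sm I3 g) : (YL.cl (some g)).OK I3 := fun _ h => by
  cases h; exact hg

theorem of_none : (YL.cl none : YL Y).OK I3 := fun _ h => nomatch h

theorem yw_cons (t : YL Y) (u : List (YL Y)) :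
    yw D.F β (t :: u) = sl D.F (cn β) (ylt D.F β t) (yw D.F β u) := rfl

variable (D β) in
/-- the values of the words -/
def YW : Set (Y → β.m.V) := {w | ∃ u, WK I3 u ∧ w = yw D.F β u}

theorem exists_g (D : YD I3 Y κ lam) (y : Y) (a : Option κ) : ∃ g, (YL.cl g).OK I3 ∧
    ∀ β : YC Y κ lam, YA D β → ∀ w, sl D.F (cn β) (ylt D.F β (.cl g)) w y = β.m.ρ a y (w y) := by
  cases a with
  | none => exact ⟨none, of_none, fun _ _ _ => rfl⟩
  | some a =>
    obtain ⟨g, hg, e⟩ := exists_tf_D D.F (univ_mem : univ ∈ 𝓝 y) a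
    refine ⟨some g, of_some hg.sm, fun β h w => ?_⟩
    simp only [sl, ylt, e, proj_some (f := fun b => β.m.ρ b y) ((h.pm y).cl.proj (some a))]

namespace YA
variable (h : YA D β)
include h

theorem idem (y : Y) (v : β.m.V) : β.m.p y (β.m.p y v) = β.m.p y v := h.pp.idem y v

theorem sm_nP : Sm I3 (nP β) :=
  sm_smul ((((contDiff_const.add (contDiff_norm_sq ℝ)).sqrt fun _ => by positivity).inv
    fun _ => by positivity).contMDiff.comp h.sΦ) h.sΦ

theorem sm_cl {g : Y → ℝ} (hg : Sm I3 g) : Sm I3 fun y => ∑ a, D.F.D a g y • β.m.ρ (some a) y :=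
  contMDiff_finsetSum fun a _ => sm_smul (D.F.sm_D hg a) (h.sρ _)

theorem ok {t : YL Y} (ht : t.OK I3) : (ylt D.F β t).Ok (Sm I3) := by
  rcases t with f | (_ | g) | _ | _
  exacts [ok_op (sm_smul ht contMDiff_const), ok_op (h.sρ _), ok_op (h.sm_cl (ht g rfl)),
    ok_op contMDiff_const, trivial]

theorem oks {u : List (YL Y)} (hu : WK I3 u) : ∀ t ∈ u.map (ylt D.F β), t.Ok (Sm I3) :=
  List.forall_mem_map.2 fun t ht => h.ok (hu t ht)

theorem sm_yw {u : List (YL Y)} (hu : WK I3 u) : Sm I3 (yw D.F β u) :=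
  (cls h.rh).wd h.sm_nP (h.oks hu)

theorem p_sl (t : YL Y) {w : Y → β.m.V} (hw : ∀ y, β.m.p y (w y) = w y) (y : Y) :
    β.m.p y (sl D.F (cn β) (ylt D.F β t) w y) = sl D.F (cn β) (ylt D.F β t) w y := by
  have e := fun a v => congrArg (· v) ((h.pm y).cl.pl a)
  rcases t with f | (_ | g) | _ | _
  · simp [sl, ylt, hw]
  · exact e _ _
  · simp only [mul_apply_eq_comp] at e
    simp [sl, ylt, e]
  · have := congrArg (· (w y)) (h.pm y).Jp
    simp only [mul_apply_eq_comp, hw] at this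
    exact this.symm
  · exact Mp86.res_fix h.rh.bmp h.rh.mc h.sp ⟨1, h.pp.norm_le⟩ h.pp.itw hw y

theorem p_yw (u : List (YL Y)) : ∀ y, β.m.p y (yw D.F β u y) = yw D.F β u y := by
  induction u with
  | nil => exact fun y => (map_smul _ _ _).trans (congrArg _ (h.pΦ y))
  | cons t u ih => exact h.p_sl t ih

theorem fam : Fam univ univ D.F (cn β) (YW D β) :=
  ⟨isClopen_univ, isOpen_univ, Subset.rfl, by simp, fun _ ⟨_, hu, e⟩ => e ▸ h.sm_yw hu,
    fun f hf _ ⟨u, hu, e⟩ => ⟨.mul f :: u, hu.cons hf.sm, e ▸ rfl⟩,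
    fun _ ⟨u, hu, e⟩ => ⟨.G :: u, hu.cons trivial, e ▸ rfl⟩⟩

theorem sm_j (s : Eu lam) : Sm I3 fun y => β.m.j y s := h.sj.clm_apply contMDiff_const

theorem j_p (y : Y) (s : Eu lam) (v : β.m.V) : β.m.j y s (β.m.p y v) = β.m.j y s v :=
  ext_inner_right ℝ fun w => by
    rw [(h.pm y).jsym, (h.pm y).psym, ← mul_apply_eq_comp, (h.pm y).pj, (h.pm y).jsym]

theorem hf {π : Y → En (Fin β.m.N)} (p : Prj univ univ D.F (cn β) (YW D β) π) (y : Y) :
    Hf (cy β).m (y, 0) (π y) := by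
  have k : ∀ {T : Y → En (Fin β.m.N)}, Sm I3 T → (∀ x, An.Skw (T x)) →
      (∀ w ∈ YW D β, (fun y => T y (w y)) ∈ YW D β) → π y * T y = T y * π y :=
    fun {T} h1 h2 h3 => p.comm T (fun x => -T x) h1 h1.neg
      (fun x v w => by rw [h2, neg_apply, inner_neg_right])
      (fun w hw => Submodule.subset_span (h3 w hw))
      (fun w hw => neg_mem (Submodule.subset_span (h3 w hw))) y (mem_univ y)
  refine ⟨p.symm y, ContinuousLinearMap.ext (p.idem y), ContinuousLinearMap.ext fun v =>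
    (p.le isOpen_univ h.sp h.pp.symm (fun _ ⟨u, _, e⟩ => e ▸ h.p_yw u) y v).2,
    k contMDiff_const (fun _ => (h.pm y).Jsk)
      fun _ ⟨u, hu, e⟩ => ⟨.im :: u, hu.cons trivial, e ▸ rfl⟩, fun a => ?_⟩
  cases a with
  | none =>
    exact k (h.sρ _) (fun x => (h.pm x).ρsk _)
      fun _ ⟨u, hu, e⟩ => ⟨.cl none :: u, hu.cons of_none, e ▸ rfl⟩
  | some a =>
    obtain ⟨g, hg, e⟩ := exists_tf_D D.F (univ_mem : univ ∈ 𝓝 y) a
    have := k (h.sm_cl hg.sm) (fun x v w => by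
      simp [sum_inner, inner_sum, real_inner_smul_left, real_inner_smul_right, (h.pm x).ρsk _ v])
      fun _ ⟨u, hu, e⟩ => ⟨.cl (some g) :: u, hu.cons (of_some hg.sm), e ▸ rfl⟩
    simp only [e, proj_some (f := fun b => β.m.ρ b y) ((h.pm y).cl.proj (some a))] at this
    exact this

end YA

/-- the words and their images under `j` span the fibres -/
theorem span_yw (hD : HY D) (hβ : D.Adm β) (h0 : ¬D.Zr β) (y : Y) {v : β.m.V}
    (hv : β.m.p y v = v) (h1 : ∀ u, WK I3 u → ⟪yw D.F β u y, v⟫_ℝ = 0)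
    (h2 : ∀ u, WK I3 u → ∀ s, ⟪β.m.j y s (yw D.F β u y), v⟫_ℝ = 0) : v = 0 := by
  have h := ya hD hβ
  have := hD.conn
  obtain ⟨π, p⟩ := h.fam.exists_prj h.rh
  obtain ⟨z, hz⟩ := not_forall.1 h0
  refine (h.hf p y).ext hD.ok.B hβ.adm.ok (p.ne_zero isPreconnected_univ ⟨[], wk_nil, rfl⟩
    (mem_univ z) (smul_ne_zero (by positivity) hz) (mem_univ y)) hv
    (prj_pt h.fam h.rh p fun _ ⟨u, hu, e⟩ => e ▸ (real_inner_comm _ _).trans (h1 u hu)) fun s =>
    prj_pt h.fam h.rh p fun _ ⟨u, hu, e⟩ => e ▸ ((h.pm y).jsym s _ _).trans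
      ((real_inner_comm _ _).trans (h2 u hu s))

theorem ext_yw (hD : HY D) (hβ : D.Adm β) (h0 : ¬D.Zr β) (y : Y) {N : Type}
    [NormedAddCommGroup N] [InnerProductSpace ℝ N] [FiniteDimensional ℝ N] {S T : CL β.m.V N}
    (hS : ∀ v, S (β.m.p y v) = S v) (hT : ∀ v, T (β.m.p y v) = T v)
    (h1 : ∀ u, WK I3 u → S (yw D.F β u y) = T (yw D.F β u y))
    (h2 : ∀ u, WK I3 u → ∀ s, S (β.m.j y s (yw D.F β u y)) = T (β.m.j y s (yw D.F β u y)))
    (v : β.m.V) : S v = T v := by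
  have := FiniteDimensional.complete ℝ N
  refine ext_inner_right ℝ fun n => sub_eq_zero.1 ?_
  have e : ∀ w, ⟪w, ContinuousLinearMap.adjoint (S - T) n⟫_ℝ = ⟪S w, n⟫_ℝ - ⟪T w, n⟫_ℝ := fun w => by
    rw [ContinuousLinearMap.adjoint_inner_right, sub_apply, inner_sub_left]
  rw [← e, span_yw hD hβ h0 y (v := ContinuousLinearMap.adjoint (S - T) n)
    (ext_inner_left ℝ fun w => by rw [← (ya hD hβ).pp.symm, e, e, hS, hT])
    (fun u hu => by rw [e, h1 u hu, sub_self]) fun u hu s => by rw [e, h2 u hu, sub_self],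
    inner_zero_right]

theorem jj (hD : HY D) (y : Y) (s t : Eu lam) : ∃ a b : ℝ, ∀ β : YC Y κ lam, YA D β → ∀ v,
    β.m.j y t (β.m.j y s v) = a • β.m.p y v + b • β.m.J (β.m.p y v) := by
  obtain ⟨s₀, f⟩ := (plx hD.ok.B (y, 0)).exists_lf
  refine ⟨⟪s₀, t⟫_ℝ * ⟪s₀, s⟫_ℝ + ⟪D.il s₀, t⟫_ℝ * ⟪D.il s₀, s⟫_ℝ,
    ⟪D.il s₀, t⟫_ℝ * ⟪s₀, s⟫_ℝ - ⟪s₀, t⟫_ℝ * ⟪D.il s₀, s⟫_ℝ, fun β h v => ?_⟩
  have P := h.pm y
  have k : ∀ w, β.m.j y s₀ (β.m.j y s₀ w) = β.m.p y w := fun w => by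
    have : D.l y s₀ = s₀ := f.ls
    rw [← mul_apply_eq_comp, P.jsq, this, f.n1]; simp
  have k1 : ∀ w, β.m.j y s₀ (β.m.J w) = -β.m.J (β.m.j y s₀ w) := fun w => congrArg (· w) (P.jJ s₀)
  have k2 : ∀ w, β.m.J (β.m.J w) = -w := fun w => congrArg (· w) P.Jsq
  rw [P.j_eq f t, P.j_eq f s]
  simp only [add_apply, smul_apply, mul_apply_eq_comp, map_add, map_smul, k, k1, map_neg, k2]
  module

variable (D β β') in
/-- twins of the words in a second configuration -/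
structure Tw (α : κ → Y → CL β.m.V β'.m.V) (δ : List (YL Y) → Y → β'.m.V)
    (B : (β.m.V × β'.m.V) →L[ℝ] (β.m.V × β'.m.V) →L[ℝ] ℝ) : Prop where
  sα : ∀ a, Sm I3 (α a)
  pα : ∀ a y, ∑ b, D.F.P a b y • α b y = α a y
  αp : ∀ a y v, α a y (β.m.p y v) = α a y v
  αj : ∀ a y s v, α a y (β.m.j y s v) = β'.m.j y s (α a y v)
  sm : ∀ u, WK I3 u → Sm I3 (δ u)
  p : ∀ u, WK I3 u → ∀ y, β'.m.p y (δ u y) = δ u y
  op : ∀ t u, t ≠ .G → δ (t :: u) = sl D.F (cn β') (ylt D.F β' t) (δ u)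
  G : ∀ u, WK I3 u → ∀ y, lap1 D.F (cn β') (δ (.G :: u)) y =
    δ u y - dm D.F (cn β) (cn β') α (yw D.F β (.G :: u)) y
  symm : ∀ x z, B x z = B z x
  Bj : ∀ y s a a' b b', B (β.m.j y s a, β'.m.j y s a') (b, b') =
    B (a, a') (β.m.j y s b, β'.m.j y s b')
  B1 : ∀ u, WK I3 u → ∀ v, WK I3 v → ∀ y, B (yw D.F β u y, δ u y) (yw D.F β v y, δ v y) = 0
  B2 : ∀ u, WK I3 u → ∀ v, WK I3 v → ∀ y s,
    B (β.m.j y s (yw D.F β u y), β'.m.j y s (δ u y)) (yw D.F β v y, δ v y) = 0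
  nd : ∀ y z, β'.m.p y z = z → B (0, z) (0, z) = 0 →
    (∀ u, WK I3 u → B (0, z) (yw D.F β u y, δ u y) = 0) → (∀ u, WK I3 u → ∀ s,
      B (0, z) (β.m.j y s (yw D.F β u y), β'.m.j y s (δ u y)) = 0) → z = 0

/-- **The twins are the images of the words under a field of intertwiners.** -/
theorem Tw.exists {α : κ → Y → CL β.m.V β'.m.V} {δ : List (YL Y) → Y → β'.m.V}
    {B : (β.m.V × β'.m.V) →L[ℝ] (β.m.V × β'.m.V) →L[ℝ] ℝ} (k : Tw D β β' α δ B) (hD : HY D)
    (hβ : D.Adm β) (hβ' : D.Adm β') (h0 : ¬D.Zr β) : ∃ T : Y → CL β.m.V β'.m.V, Sm I3 T ∧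
      (∀ y, Itw (β.m.p y) β.m.J (fun a => β.m.ρ a y) (β.m.j y) (β'.m.p y) β'.m.J
        (fun a => β'.m.ρ a y) (β'.m.j y) (T y)) ∧ (∀ y, T y (nP β y) = δ [] y) ∧
      (∀ y a b, B (β.m.p y a, T y a) (β.m.p y b, T y b) = 0) ∧
      ∀ a y, nT D.F (cn β) (cn β') a T y + α a y = 0 := by
  have h := ya hD hβ
  have h' := ya hD hβ'
  let 𝒥 : Set ((Y → β.m.V) × (Y → β'.m.V)) := {j | ∃ u, WK I3 u ∧ (j = (yw D.F β u, δ u) ∨
    ∃ s, j = (fun y => β.m.j y s (yw D.F β u y), fun y => β'.m.j y s (δ u y)))}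
  have pj : ∀ {β : YC Y κ lam}, YA D β → ∀ y s v, β.m.p y (β.m.j y s v) = β.m.j y s v :=
    fun h y s v => congrArg (· v) ((h.pm y).pj s)
  have im : ∀ u y, δ (.im :: u) y = β'.m.J (δ u y) := fun u y => by
    rw [k.op _ _ (by simp)]; rfl
  have b0 : ∀ i ∈ 𝒥, ∀ j ∈ 𝒥, ∀ y, B (i.1 y, i.2 y) (j.1 y, j.2 y) = 0 := by
    rintro _ ⟨u, hu, rfl | ⟨s, rfl⟩⟩ _ ⟨v, hv, rfl | ⟨t, rfl⟩⟩ y
    · exact k.B1 u hu v hv y
    · exact (k.symm _ _).trans (k.B2 v hv u hu y t)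
    · exact k.B2 u hu v hv y s
    · obtain ⟨a, b, e⟩ := jj hD y t s
      have e1 := k.B1 u hu _ (hv.cons (t := .im) trivial) y
      rw [im] at e1
      rw [k.Bj, e β h, e β' h', h.p_yw, k.p v hv, ← Prod.mk_add_mk, ← Prod.smul_mk, ← Prod.smul_mk,
        map_add, map_smul, map_smul, k.B1 u hu v hv y]
      simpa using .inr e1
  have b1 : ∀ i ∈ Submodule.span ℝ 𝒥, ∀ y, β'.m.p y (i.2 y) = i.2 y ∧
      ∀ j ∈ Submodule.span ℝ 𝒥, B (i.1 y, i.2 y) (j.1 y, j.2 y) = 0 := fun i hi y => by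
    refine ⟨?_, fun j hj => ?_⟩
    · induction hi using Submodule.span_induction with
      | mem i hi => obtain ⟨u, hu, rfl | ⟨s, rfl⟩⟩ := hi; exacts [k.p u hu y, pj h' _ _ _]
      | zero => simp
      | add i j _ _ a b => simp [a, b]
      | smul c i _ a => simp [a]
    · induction hi, hj using Submodule.span_induction₂ with
      | mem_mem i j hi hj => exact b0 i hi j hj y
      | zero_left => exact DFunLike.congr_fun (map_zero B) _
      | zero_right => exact map_zero _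
      | add_left i j l _ _ _ a b =>
        exact (DFunLike.congr_fun (map_add B (i.1 y, i.2 y) (j.1 y, j.2 y)) _).trans (by simp [a, b])
      | add_right i j l _ _ _ a b =>
        exact (map_add _ (j.1 y, j.2 y) (l.1 y, l.2 y)).trans (by simp [a, b])
      | smul_left c i j _ _ a =>
        exact (DFunLike.congr_fun (map_smul B c (i.1 y, i.2 y)) _).trans (by simp [a])
      | smul_right c i j _ _ a => exact (map_smul _ c (j.1 y, j.2 y)).trans (by simp [a])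
  obtain ⟨T, sT, Tp, hT⟩ := exists_fld (𝒥 := 𝒥) h.sp h.pp.symm h.idem (by
      rintro _ ⟨u, hu, rfl | ⟨s, rfl⟩⟩
      exacts [⟨h.sm_yw hu, k.sm u hu⟩,
        ⟨(h.sm_j s).clm_apply (h.sm_yw hu), (h'.sm_j s).clm_apply (k.sm u hu)⟩])
    (by rintro _ ⟨u, hu, rfl | ⟨s, rfl⟩⟩ y; exacts [h.p_yw u y, pj h _ _ _])
    (fun y v a b => span_yw hD hβ h0 y a (fun u hu => b _ ⟨u, hu, .inl rfl⟩)
      fun u hu s => b _ ⟨u, hu, .inr ⟨s, rfl⟩⟩) fun j hj y e => k.nd y _ (b1 j hj y).1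
      (e ▸ (b1 j hj y).2 j hj)
      (fun u hu => e ▸ (b1 j hj y).2 _ (Submodule.subset_span ⟨u, hu, .inl rfl⟩))
      fun u hu s => e ▸ (b1 j hj y).2 _ (Submodule.subset_span ⟨u, hu, .inr ⟨s, rfl⟩⟩)
  have T1 : ∀ u, WK I3 u → ∀ y, T y (yw D.F β u y) = δ u y := fun u hu => hT _ ⟨u, hu, .inl rfl⟩
  have T2 : ∀ u, WK I3 u → ∀ y s, T y (β.m.j y s (yw D.F β u y)) = β'.m.j y s (δ u y) :=
    fun u hu y s => hT _ ⟨u, hu, .inr ⟨s, rfl⟩⟩ y
  have TJ : ∀ u, WK I3 u → ∀ y, T y (β.m.J (yw D.F β u y)) = β'.m.J (δ u y) := fun u hu y =>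
    (T1 _ (hu.cons (t := .im) trivial) y).trans (im u y)
  have Tj : ∀ y s v, T y (β.m.j y s v) = β'.m.j y s (T y v) := fun y s =>
    ext_yw hD hβ h0 y (S := T y ∘L β.m.j y s) (T := β'.m.j y s ∘L T y)
      (fun v => by simp [h.j_p]) (fun v => by simp [Tp]) (fun u hu => by simp [T1 u hu, T2 u hu])
      fun u hu t => by
        obtain ⟨a, b, e⟩ := jj hD y t s
        simp [e β h, e β' h', h.p_yw, k.p u hu, T1 u hu, T2 u hu, TJ u hu]
  refine ⟨T, sT, fun y => ⟨?_, Tp y, fun a => ?_, ?_, Tj y⟩, T1 [] wk_nil, fun y a b => ?_,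
    fun a y => ?_⟩
  · exact ext_yw hD hβ h0 y (S := β'.m.p y ∘L T y) (fun v => by simp [Tp]) (Tp y)
      (fun u hu => by simp [T1 u hu, k.p u hu]) fun u hu s => by simp [T2 u hu, pj h']
  · obtain ⟨g, hg, e⟩ := exists_g D y a
    have e1 : ∀ u, WK I3 u → T y (β.m.ρ a y (yw D.F β u y)) = β'.m.ρ a y (δ u y) := fun u hu => by
      rw [← e β h, ← e β' h', ← k.op _ _ (by simp)]; exact T1 _ (hu.cons hg) y
    have e2 : ∀ {β : YC Y κ lam}, YA D β → ∀ s v,
        β.m.ρ a y (β.m.j y s v) = β.m.j y s (β.m.ρ a y v) :=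
      fun h s v => (congrArg (· v) ((h.pm y).jρ a s)).symm
    exact ext_yw hD hβ h0 y (S := T y ∘L β.m.ρ a y) (T := β'.m.ρ a y ∘L T y)
      (fun v => congrArg (T y) (congrArg (· v) ((h.pm y).cl.pr a))) (fun v => by simp [Tp])
      (fun u hu => by simp [T1 u hu, e1 u hu])
      fun u hu s => by simp [e2 h, e2 h', Tj, e1 u hu, T1 u hu]
  · have e2 : ∀ {β : YC Y κ lam}, YA D β → ∀ s v, β.m.J (β.m.j y s v) = -β.m.j y s (β.m.J v) :=
      fun h s v => (neg_eq_iff_eq_neg.2 (congrArg (· v) ((h.pm y).jJ s))).symm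
    exact ext_yw hD hβ h0 y (S := T y ∘L β.m.J) (T := β'.m.J ∘L T y)
      (fun v => (congrArg (T y) (congrArg (· v) (h.pm y).Jp)).trans (Tp y _))
      (fun v => by simp [Tp]) (fun u hu => by simp [T1 u hu, TJ u hu])
      fun u hu s => by simp [e2 h, e2 h', Tj, TJ u hu, T1 u hu]
  · have e1 : ∀ x, (∀ j ∈ 𝒥, B x (j.1 y, j.2 y) = 0) → ∀ b, B x (β.m.p y b, T y b) = 0 :=
      fun x hx => ext_yw hD hβ h0 y (S := B x ∘L (β.m.p y).prod (T y)) (T := 0)
        (fun v => by simp [Tp, h.idem]) (fun _ => rfl)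
        (fun u hu => by simpa [h.p_yw, T1 u hu] using hx _ ⟨u, hu, .inl rfl⟩)
        fun u hu s => by simpa [pj h, T2 u hu] using hx _ ⟨u, hu, .inr ⟨s, rfl⟩⟩
    exact e1 _ (fun j hj => (k.symm _ _).trans (e1 _ (b0 j hj · · y) a)) b
  · obtain ⟨π, p⟩ := h.fam.exists_prj h.rh
    have e0 : ∀ u, WK I3 u → (nT D.F (cn β) (cn β') a T y + α a y) (yw D.F β u y) = 0 :=
      fun u hu => by
        rw [← p.fix _ ⟨u, hu, rfl⟩ y (mem_univ y)]
        refine par_fld h.rh h'.rh.mc h'.rh.proj k.sα k.pα h.fam p sT ?_ a y _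
        rintro _ ⟨u, hu, rfl⟩ x
        rw [T1 u hu]
        exact (congrArg (lap1 D.F (cn β') · x)
          (funext (T1 _ (hu.cons (t := .G) trivial)))).trans (k.G u hu x)
    have e1 := nT_comp (F := D.F) (cn β) (cn β) (cn β') sT h.sp a y
    have e2 : nT D.F (cn β) (cn β) a β.m.p y = 0 := by
      rw [nT, h.pp.par]; exact sub_eq_zero.2 (sub_add_cancel _ _)
    rw [show (fun z => T z ∘L β.m.p z) = T from funext fun z => ContinuousLinearMap.ext (Tp z), e2,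
      ContinuousLinearMap.comp_zero, add_zero] at e1
    refine ContinuousLinearMap.ext (ext_yw hD hβ h0 y (T := 0) (fun v => ?_) (fun _ => rfl) e0
      fun u hu s => ?_)
    · rw [add_apply, add_apply, k.αp, ← ContinuousLinearMap.comp_apply, ← e1]
    · have e3 := nT_comp (F := D.F) (cn β) (cn β) (cn β') sT (h.sm_j s) a y
      rw [show (fun z => T z ∘L β.m.j z s) = fun z => β'.m.j z s ∘L T z from
        funext fun z => ContinuousLinearMap.ext (Tj z s),
        nT_comp (cn β) (cn β') (cn β') (h'.sm_j s) sT, h.nj, h'.nj] at e3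
      have e4 := congrArg (· (yw D.F β u y)) e3
      have e5 := congrArg (β'.m.j y s) (e0 u hu)
      simp only [add_apply, ContinuousLinearMap.comp_apply, Tj, map_add, map_zero] at e4 e5
      rw [add_apply, k.αj, zero_apply, ← e5, add_left_inj]
      exact (add_left_cancel (e4.trans (add_comm _ _))).symm

end Crest.Agent.X212.Der92
end
end

-- ▼ part X212/Der92/Main
section

/-!
# Row 212, CRIT-DER (helper92), part 3: `DerStmt` and `SepStmt`
-/

set_option autoImplicit false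
set_option linter.unusedSectionVars false
noncomputable section
open scoped Manifold ContDiff Topology InnerProductSpace
open MeasureTheory Set Function Filter

namespace Crest.Agent.X212.Der92
open An Sob92 Wrd81 Nt92 Dgr80 Cyf70 Nd18 Crt72 Std94

variable {E3 : Type} [NormedAddCommGroup E3] [NormedSpace ℝ E3] [FiniteDimensional ℝ E3]
  [MeasurableSpace E3] [BorelSpace E3]
  {H3 : Type} [TopologicalSpace H3] {I3 : ModelWithCorners ℝ E3 H3} [I3.Boundaryless]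
  {Y : Type} [TopologicalSpace Y] [ChartedSpace H3 Y] [IsManifold I3 ∞ Y] [T2Space Y]
  [MeasurableSpace Y] [BorelSpace Y] [SecondCountableTopology Y] [CompactSpace Y]
  {κ : Type} [Fintype κ] {lam : Type} [Fintype lam] {D : YD I3 Y κ lam} {β β' : YC Y κ lam}

theorem yw_mul (f : Y → ℝ) (u : List (YL Y)) (y : Y) :
    yw D.F β (.mul f :: u) y = f y • yw D.F β u y := rfl

theorem sq_pos1 {V : Type} [NormedAddCommGroup V] (v : V) : 0 < √(1 + ‖v‖ ^ 2) := by positivity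

theorem inner_dn (l φ : Y → β.m.V) (y : Y) : ⟪dn β l y, φ y⟫_ℝ = ⟪l y, dn β φ y⟫_ℝ := by
  simp only [dn, inner_sub_left, inner_sub_right, real_inner_smul_left, real_inner_smul_right,
    real_inner_comm (β.Φ y)]
  ring

theorem YA.sm_dn (h : YA D β) {φ : Y → β.m.V} (hφ : Sm I3 φ) : Sm I3 (dn β φ) := by
  have a : Sm I3 fun y => (√(1 + ‖β.Φ y‖ ^ 2))⁻¹ :=
    (((contDiff_const.add (contDiff_norm_sq ℝ)).sqrt fun _ => by positivity).inv
      fun v => (sq_pos1 v).ne').contMDiff.comp h.sΦ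
  exact (sm_smul a hφ).sub (sm_smul ((a.pow 3).mul (Wrd81.sm_inner h.sΦ hφ)) h.sΦ)

section der
variable {α : Y → Fm κ β.m.A} {φ : Y → β.m.V}

variable (D β α φ) in
/-- the variation of a word -/
def dy (u : List (YL Y)) : Y → β.m.V :=
  vw D.F (cn β) opL α (nP β) (dn β φ) (u.map (ylt D.F β))

theorem dy_op (t : YL Y) (u : List (YL Y)) (ht : t ≠ .G) :
    dy D β α φ (t :: u) = sl D.F (cn β) (ylt D.F β t) (dy D β α φ u) := by
  rcases t with f | (_ | g) | _ | _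
  exacts [rfl, rfl, rfl, rfl, absurd rfl ht]

theorem dy_G (u : List (YL Y)) : dy D β α φ (.G :: u) = D.F.res (cn β) fun y =>
    dy D β α φ u y - dm D.F (cn β) (cn β) (rv opL α) (yw D.F β (.G :: u)) y := rfl

variable (h : YA D β) (hα : Sm I3 α) (hg : ∀ y a, α y a ∈ β.m.gS y) (hφ : Sm I3 φ)
include h hφ

theorem sm_dy {u : List (YL Y)} (hu : WK I3 u) : Sm I3 (dy D β α φ u) :=
  sm_vw (h.sm_dn hφ) (h.oks hu)

include hα hg

theorem ip_dy {u : List (YL Y)} (hu : WK I3 u) {l : Y → β.m.V} (hl : Sm I3 l) :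
    (Sm I3 fun y => ⟪ywA D.F β u l y, α y⟫_ℝ + ⟪ywP D.F β u l y, φ y⟫_ℝ) ∧
    ∫ y, (⟪ywA D.F β u l y, α y⟫_ℝ + ⟪ywP D.F β u l y, φ y⟫_ℝ) ∂D.F.μ =
      ∫ y, ⟪l y, dy D β α φ u y⟫_ℝ ∂D.F.μ := by
  have a : Sm I3 (ywA D.F β u l) := (cls h.rh).sm_gc h.rh.mc.sm (h.oks hu) hl
  have b := (cls h.rh).bk (h.oks hu) hl
  simp only [ywP, inner_dn]
  exact ⟨(Wrd81.sm_inner a hα).add (Wrd81.sm_inner b (h.sm_dn hφ)),
    (integral_add (int_inner a hα) (int_inner b (h.sm_dn hφ))).trans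
      (int_vw h.rh hα (fun y a => (hg y a).1) h.sm_nP (h.sm_dn hφ) (h.oks hu) hl)⟩

theorem gram_dy {T : Pk Y lam} (hT : Sm I3 (pk β T)) {u v : List (YL Y)} (hu : WK I3 u)
    (hv : WK I3 v) (h0 : ∀ f, Sm I3 f → ipg D (YF.sw D.F T (.mul f :: u) v) β α φ = 0) (y : Y) :
    ⟪pk β T y (yw D.F β v y), dy D β α φ u y⟫_ℝ + ⟪pk β T y (yw D.F β u y), dy D β α φ v y⟫_ℝ = 0 := by
  have a := hT.clm_apply (h.sm_yw hv)
  refine zero_of_int (F := D.F) ((Wrd81.sm_inner a (sm_dy h hφ hu)).add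
    (Wrd81.sm_inner (hT.clm_apply (h.sm_yw hu)) (sm_dy h hφ hv))) (fun f hf => ?_) y
  have hu' := hu.cons (t := .mul f) hf
  have b := hT.clm_apply (h.sm_yw hu')
  obtain ⟨c1, c2⟩ := ip_dy h hα hg hφ hu' a
  obtain ⟨d1, d2⟩ := ip_dy h hα hg hφ hv b
  have i := fun {g : Y → ℝ} (hg : Sm I3 g) => hg.continuous.integrable_of_hasCompactSupport
    (μ := D.F.μ) (hcs g)
  have e := h0 f hf
  simp only [ipg, YF.sw, inner_add_left, add_add_add_comm ⟪ywA D.F β (.mul f :: u) _ _, _⟫_ℝ] at e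
  rw [integral_add (i c1) (i d1), c2, d2,
    ← integral_add (int_inner a (sm_dy h hφ hu')) (int_inner b (sm_dy h hφ hv))] at e
  refine Eq.trans (integral_congr_ae (.of_forall fun x => ?_)) e
  simp [dy_op (.mul f) u (by simp), sl, ylt, yw_mul, real_inner_smul_left, real_inner_smul_right,
    mul_add]

theorem p_dy (hp : ∀ y, β.m.p y (φ y) = φ y) {u : List (YL Y)} (hu : WK I3 u) :
    ∀ y, β.m.p y (dy D β α φ u y) = dy D β α φ u y := by
  induction u with
  | nil => exact fun y => by simp [dy, vw, dn, hp, h.pΦ]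
  | cons t u ih =>
    have ih := ih fun t ht => hu t (List.mem_cons_of_mem _ ht)
    by_cases ht : t = .G
    swap
    · rw [dy_op t u ht]; exact h.p_sl t ih
    subst ht
    have e : ∀ a y v, β.m.p y (rv opL α a y v) = rv opL α a y v := fun a y v =>
      congrArg (· v) (hg y a).2.1
    rw [dy_G]
    refine h.p_sl .G fun y => ?_
    simp only [dm, map_sub, map_neg, map_sum, map_add, map_smul, ih, e,
      ← h.pp.cov ((sm_rv hα _).clm_apply (h.sm_yw hu))]

end der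

theorem der : DerStmt D := by
  intro hD β hβ h0 ⟨⟨α, hα, _, pα⟩, ⟨φ, hφ, hc, pφ⟩⟩ hy
  have h := ya hD hβ
  have e1 : ∀ y a, ∑ b, D.F.P a b y • β.m.pg y (α y b) = α y a := fun y a =>
    (Wz78.idx_apply _ _ _ a).symm.trans (congrArg (· a) (pα y))
  have hg : ∀ y a, α y a ∈ β.m.gS y := fun y a =>
    e1 y a ▸ Submodule.sum_mem _ fun b _ => Submodule.smul_mem _ _ (Wz78.pg_mem y _)
  have hp : ∀ y, β.m.p y (φ y) = φ y := fun y => by
    have h2 := congrArg (· (φ y)) (Wz78.p_pp hβ.adm.ok (y, 0))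
    have h1 : (cy β).m.pp D.B (y, 0) (φ y) = φ y := pφ y
    simp only [mul_apply_eq_comp, h1] at h2
    exact h2
  have g1 := fun u hu v hv => gram_dy h hα hg hφ (T := .one) contMDiff_const (u := u) (v := v) hu hv
    fun f hf => hy (.sw ⟨(.mul f :: u, v), hu.cons hf, hv⟩) fun _ => by simp
  have g2 := fun u hu v hv s => gram_dy h hα hg hφ (T := .re fun _ => s) (h.sm_j s) (u := u) (v := v)
    hu hv fun f hf => hy (.re ⟨⟨_, .mul f :: u, v⟩, contMDiff_const, hu.cons hf, hv⟩) fun _ => by simp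
  let B : (β.m.V × β.m.V) →L[ℝ] (β.m.V × β.m.V) →L[ℝ] ℝ :=
    (innerSL ℝ).bilinearComp (ContinuousLinearMap.snd ℝ _ _) (ContinuousLinearMap.fst ℝ _ _) +
    (innerSL ℝ).bilinearComp (ContinuousLinearMap.fst ℝ _ _) (ContinuousLinearMap.snd ℝ _ _)
  have eB : ∀ x z, B x z = ⟪x.2, z.1⟫_ℝ + ⟪x.1, z.2⟫_ℝ := fun _ _ => rfl
  have k : Tw D β β (rv opL α) (dy D β α φ) B :=
    ⟨sm_rv hα, fun a y => by
      simp only [rv, ← map_smul, ← map_sum]
      conv_rhs => rw [← e1]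
      simp only [Wz78.pg_of_mem (hg y _)],
    fun a y v => ext_inner_right ℝ fun w => by
      rw [rv, (hg y a).1, h.pp.symm, ← mul_apply_eq_comp, (hg y a).2.1, (hg y a).1],
    fun a y s v => (congrArg (· v) ((hg y a).2.2.2.2 s)).symm, fun u hu => sm_dy h hφ hu,
    fun u hu => p_dy h hα hg hφ hp hu, dy_op, fun u hu => congrFun (lap1_res h.rh
      ((sm_dy h hφ hu).sub ((ad_dm h.rh.mc h.rh.mc (sm_rv hα)).sm _
        (h.sm_yw (hu.cons (t := .G) trivial))))),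
    fun x z => by rw [eB, eB, add_comm, real_inner_comm z.1, real_inner_comm z.2],
    fun y s a a' b b' => by simp only [eB, (h.pm y).jsym],
    fun u hu v hv y => (congrArg (· + _) (real_inner_comm _ _)).trans (g1 u hu v hv y),
    fun u hu v hv y s => (congrArg (· + _) (((h.pm y).jsym s _ _).trans
      (real_inner_comm _ _))).trans (g2 u hu v hv s y),
    fun y z hz _ a b => span_yw hD hβ h0 y hz
      (fun u hu => by simpa [eB, real_inner_comm z] using a u hu)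
      fun u hu s => by simpa [eB, real_inner_comm z] using b u hu s⟩
  obtain ⟨T, sT, i, t0, tB, tp⟩ := k.exists hD hβ hβ h0
  have sk : ∀ y, An.Skw (T y) := fun y a b => by
    have := tB y a b
    rw [eB, ← h.pp.symm, i y |>.pl, h.pp.symm, i y |>.pl] at this
    exact eq_neg_of_add_eq_zero_left this
  have sξ : Sm I3 fun y => hsL (T y) := hsL.contMDiff.comp sT
  refine ⟨⟨fun y => hsL (T y), sξ, hcs _, fun y => Wz78.pg_of_mem ?_⟩, funext fun y => ?_,
    funext fun y => ?_⟩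
  · simp only [Md.gS, Submodule.mem_mk, AddSubmonoid.mem_mk, AddSubsemigroup.mem_mk, mem_ofPred_eq,
      Wz78.opL_hsL]
    exact ⟨sk y, ContinuousLinearMap.ext (i y).pl, ContinuousLinearMap.ext fun v => ((i y).J v).symm,
      fun a => ContinuousLinearMap.ext fun v => ((i y).ρ a v).symm,
      fun s => ContinuousLinearMap.ext fun v => ((i y).j s v).symm⟩
  · ext1 a
    have e := congrArg hsL (eq_neg_of_add_eq_zero_right (tp a y))
    rw [rv, Wz78.hsL_opL] at e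
    refine e.trans ((map_neg _ _).trans (congrArg Neg.neg ?_))
    rw [Wz78.nab, dv_clm hsL (md sT y), nT, add_sub_assoc, map_add, an, Md.adW, Wz78.adc_apply,
      Wz78.opL_hsL]
    rfl
  · have e : T y (nP β y) = dn β φ y := t0 y
    have c := sq_pos1 (β.Φ y)
    have c2 : √(1 + ‖β.Φ y‖ ^ 2) ^ 2 = 1 + ‖β.Φ y‖ ^ 2 := Real.sq_sqrt (by positivity)
    have e2 := congrArg (⟪·, β.Φ y⟫_ℝ) e
    simp only [nP, dn, map_smul, real_inner_smul_left, Wz78.Skew.self (sk y), inner_sub_left,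
      real_inner_self_eq_norm_sq, real_inner_comm (β.Φ y) (φ y)] at e e2
    have e3 : ⟪β.Φ y, φ y⟫_ℝ = 0 := by
      field_simp at e2
      rw [c2] at e2
      linarith
    rw [e3, mul_zero, zero_smul, sub_zero] at e
    simp only [dgp, Wz78.opL_hsL]
    exact (smul_right_injective _ (inv_ne_zero c.ne') e).symm

theorem gram_eq (h : YA D β) (h' : YA D β') {T : Pk Y lam} (hT : Sm I3 (pk β T))
    (hT' : Sm I3 (pk β' T)) {u v : List (YL Y)} (hu : WK I3 u) (hv : WK I3 v)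
    (h0 : ∀ f, Sm I3 f → (YF.sw D.F T (.mul f :: u) v).f β = (YF.sw D.F T (.mul f :: u) v).f β')
    (y : Y) : ⟪pk β T y (yw D.F β u y), yw D.F β v y⟫_ℝ -
      ⟪pk β' T y (yw D.F β' u y), yw D.F β' v y⟫_ℝ = 0 := by
  refine zero_of_int (F := D.F) ((Wrd81.sm_inner (hT.clm_apply (h.sm_yw hu)) (h.sm_yw hv)).sub
    (Wrd81.sm_inner (hT'.clm_apply (h'.sm_yw hu)) (h'.sm_yw hv))) (fun f hf => ?_) y
  have hu' := hu.cons (t := .mul f) hf
  have e := sub_eq_zero.2 (h0 f hf)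
  simp only [YF.sw] at e
  rw [← integral_sub (int_inner (hT.clm_apply (h.sm_yw hu')) (h.sm_yw hv))
    (int_inner (hT'.clm_apply (h'.sm_yw hu')) (h'.sm_yw hv))] at e
  simpa [yw_mul, real_inner_smul_left, mul_sub] using e

theorem sep : SepStmt D := by
  intro hD β β' hβ hβ' h0 hy
  have h := ya hD hβ
  have h' := ya hD hβ'
  have g1 := fun u hu v hv => gram_eq h h' (T := .one) contMDiff_const contMDiff_const
    (u := u) (v := v) hu hv fun f hf => hy (.sw ⟨(.mul f :: u, v), hu.cons hf, hv⟩) fun _ => by simp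
  have g2 := fun u hu v hv s => gram_eq h h' (T := .re fun _ => s) (h.sm_j s) (h'.sm_j s)
    (u := u) (v := v) hu hv
    fun f hf => hy (.re ⟨⟨_, .mul f :: u, v⟩, contMDiff_const, hu.cons hf, hv⟩) fun _ => by simp
  let B : (β.m.V × β'.m.V) →L[ℝ] (β.m.V × β'.m.V) →L[ℝ] ℝ :=
    (innerSL ℝ).bilinearComp (ContinuousLinearMap.fst ℝ _ _) (ContinuousLinearMap.fst ℝ _ _) -
    (innerSL ℝ).bilinearComp (ContinuousLinearMap.snd ℝ _ _) (ContinuousLinearMap.snd ℝ _ _)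
  have eB : ∀ x z, B x z = ⟪x.1, z.1⟫_ℝ - ⟪x.2, z.2⟫_ℝ := fun _ _ => rfl
  have k : Tw D β β' (fun _ _ => 0) (yw D.F β') B :=
    ⟨fun _ => contMDiff_const, fun _ _ => by simp, fun _ _ _ => rfl, fun _ _ _ _ => by simp,
    fun u hu => h'.sm_yw hu, fun u _ => h'.p_yw u, fun _ _ _ => rfl, fun u hu y => by
      rw [dm_zero, Pi.zero_apply, sub_zero]; exact congrFun (lap1_res h'.rh (h'.sm_yw hu)) y,
    fun x z => by rw [eB, eB, real_inner_comm z.1, real_inner_comm z.2],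
    fun y s a a' b b' => by simp only [eB, (h.pm y).jsym, (h'.pm y).jsym],
    g1, fun u hu v hv y s => g2 u hu v hv s y, fun y z _ a _ _ => by simpa [eB] using a⟩
  obtain ⟨T, sT, i, t0, tB, tp⟩ := k.exists hD hβ hβ' h0
  have is : ∀ y a b, ⟪T y a, T y b⟫_ℝ = ⟪β.m.p y a, b⟫_ℝ := fun y a b => by
    have : ⟪β.m.p y a, β.m.p y b⟫_ℝ - ⟪T y a, T y b⟫_ℝ = 0 := tB y a b
    rw [← sub_eq_zero.1 this, ← h.pp.symm, h.idem]
  have uu : ∀ y, trn (T y) ∘L T y = β.m.p y := fun y => ContinuousLinearMap.ext fun a =>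
    ext_inner_right ℝ fun b => by
      rw [ContinuousLinearMap.comp_apply, ContinuousLinearMap.adjoint_inner_left, is]
  refine ⟨fun x => T x.1, 1, ⟨(sm_fst sT).contMDiffOn, fun x _ => uu x.1, fun x _ => ?_,
    fun x _ => ContinuousLinearMap.ext (i x.1).J, fun x _ b => ?_, fun x _ s => ?_⟩,
    fun x _ a => ?_, fun x _ => ?_, PiLp.ext fun i => i.elim0⟩
  · have P := pmx hβ.adm.ok (x.1, 0)
    have : T x.1 ∘L trn (T x.1) = (hs (T x.1) (T x.1) / 16) • β'.m.p x.1 :=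
      (itx_norm hD.ok.B P (pmx hβ'.adm.ok (x.1, 0)) (A := T x.1) (i x.1)).2
    rw [show hs (T x.1) (T x.1) = 16 by rw [← (h.pm x.1).prk, ← uu, hs]; rfl, div_self (by norm_num),
      one_smul] at this
    exact this
  · exact (ContinuousLinearMap.ext fun v => ((i x.1).ρ b v).symm).trans
      (congrArg (T x.1 ∘L ·) ((hβ.adm.ok.cl x).proj b).symm)
  · exact (congrArg (· ∘L T x.1) ((h'.pm x.1).jl s)).trans
      (ContinuousLinearMap.ext fun v => ((i x.1).j s v).symm)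
  · have e : ∑ b, D.B.P b a x • β'.W b x.1 = β'.W a x.1 := by
      simp only [(hD.ok.B.pr x).symm _ a]; exact hβ'.adm.conn.cc.proj a x
    change (cylP D.F.toPre).D a (fun x => T x.1) x + (∑ b, D.B.P b a x • β'.W b x.1) ∘L T x.1 -
      T x.1 ∘L β.W a x.1 = 0
    rw [e]
    cases a with
    | none => simp [D_none_fst _ sT, hβ.tmp, hβ'.tmp]
    | some a => rw [D_some_fst _ sT]; exact (add_zero _).symm.trans (tp a x.1)
  · have e : T x.1 (nP β x.1) = nP β' x.1 := t0 x.1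
    have c := sq_pos1 (β.Φ x.1)
    have e2 := is x.1 (nP β x.1) (nP β x.1)
    rw [e] at e2
    simp only [nP, map_smul, h.pΦ, real_inner_self_eq_norm_sq, norm_smul, mul_pow, Real.norm_eq_abs,
      sq_abs, inv_pow] at e e2
    have e3 : ‖β'.Φ x.1‖ ^ 2 = ‖β.Φ x.1‖ ^ 2 := by
      rw [Real.sq_sqrt (by positivity), Real.sq_sqrt (by positivity)] at e2
      field_simp at e2
      linarith
    rw [e3] at e
    exact ((Eqv71.cs_one _ _).trans (smul_right_injective _ (inv_ne_zero c.ne') e)).symm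

end Crest.Agent.X212.Der92
end
end

-- ▼ part X212/Cyl58/SmD

/-! # Row 212, CRIT-SMS (helper58): uniform bounds on `Y` and `SmsStmt` -/

set_option autoImplicit false
set_option linter.unusedSectionVars false
noncomputable section
open scoped Manifold ContDiff Topology InnerProductSpace
open MeasureTheory Set Function Filter

namespace Crest.Agent.X212.Cyl58
open An Dgr80 Cyf70 Nd18 Crt72 Mp86
open Lin97 (Hy)
open Wz78 (nab nabE)

variable {E3 : Type} [NormedAddCommGroup E3] [NormedSpace ℝ E3] [FiniteDimensional ℝ E3]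
  [MeasurableSpace E3] [BorelSpace E3]
  {H3 : Type} [TopologicalSpace H3] {I3 : ModelWithCorners ℝ E3 H3} [I3.Boundaryless]
  {Y : Type} [TopologicalSpace Y] [ChartedSpace H3 Y] [IsManifold I3 ∞ Y] [T2Space Y]
  [MeasurableSpace Y] [BorelSpace Y] [SecondCountableTopology Y] [CompactSpace Y]
  {κ : Type} [Fintype κ] {lam : Type} [Fintype lam] {D : YD I3 Y κ lam} {β : YC Y κ lam}

theorem sq_bd {α N : Type} [Fintype α] [NormedAddCommGroup N] {θ : α → Y → N}
    (h : ∀ a, Continuous (θ a)) : ∃ C, 1 ≤ C ∧ ∀ x, ∑ a, ‖θ a x‖ ^ 2 ≤ C :=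
  let ⟨K, hK⟩ := bd_of (continuous_finsetSum Finset.univ fun a _ => (h a).norm.pow 2)
  ⟨max 1 K, le_max_left _ _, fun x => (le_abs_self _).trans ((hK x).trans (le_max_right _ _))⟩

theorem fn_of (F : Fr I3 Y κ) {f : Y → ℝ} (hf : Sm I3 f) : ∃ C, 1 ≤ C ∧ Fn F C f := by
  obtain ⟨C, c, hC⟩ := sq_bd fun _ : Unit => hf.continuous
  obtain ⟨K, -, hK⟩ := sq_bd fun a => (F.sm_D hf a).continuous
  exact ⟨max C K, le_max_of_le_left c, hf, fun x => le_max_of_le_left (by simpa using hC x),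
    fun x => le_max_of_le_right (by simpa using hK x)⟩

theorem mc_cn (h : Hy D β) : Mc I3 (cn β) := ⟨h.sm_cn, fun a x => h.hC.sk (some a) (x, 0)⟩

variable (D) in
/-- uniformly bounded endomorphism fields -/
def UO (T : (β : YC Y κ lam) → Y → En (Fin β.m.N)) : Prop :=
  ∃ C : ℝ, 1 ≤ C ∧ ∀ β, Hy D β → Opr D.F (cn β) (cn β) C (T β)

theorem UO.congr {T T' : (β : YC Y κ lam) → Y → En (Fin β.m.N)} (h : UO D T)
    (e : ∀ β, Hy D β → ∀ x, T' β x = T β x) : UO D T' :=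
  h.imp fun _ k => ⟨k.1, fun β hβ => (funext (e β hβ)).symm ▸ k.2 β hβ⟩

theorem uo_cl {θ : Option κ → Y → ℝ} (hθ : ∀ a, Sm I3 (θ a)) :
    UO D fun β x => ∑ a, θ a x • β.m.ρ a x := by
  let H : κ × Option κ → Y → ℝ := fun s x =>
    D.F.D s.1 (θ s.2) x + ∑ b, θ b x * D.Z.Gam (some s.1) b s.2 (x, 0)
  obtain ⟨C, c, hC⟩ := sq_bd fun a => (hθ a).continuous
  obtain ⟨K, -, hK⟩ := sq_bd (θ := H) fun s => (D.F.sm_D (hθ _) _).continuous.add
    (continuous_finsetSum _ fun b _ => (hθ b).continuous.mul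
      (sm_slice_fst (fun z => (Wz78.lc_gam D.Z).sm (some s.1) b s.2 z) 0).continuous)
  simp only [Real.norm_eq_abs, sq_abs] at hC hK
  refine ⟨max C K, le_max_of_le_left c, fun β h => ?_⟩
  have b : ∀ x (θ : Option κ → ℝ) v, ‖∑ a, θ a • β.m.ρ a x v‖ ^ 2 ≤ (∑ a, θ a ^ 2) * ‖v‖ ^ 2 :=
    fun x => norm_cl (h.hB.pr (x, 0)) (h.hm.cl (x, 0)) (fun a => h.hm.ρsk a (x, 0))
      (h.hm.psym (x, 0)) (h.hm.pidem (x, 0))
  have s1 := fun a x => Wz78.SA.smul (hθ a x) (sm_ρ h a x)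
  refine ⟨fun x => Wz78.SA.sum _ fun a _ => s1 a x, fun x v => ?_, fun x v => ?_⟩
  · simp only [_root_.sum_apply, smul_apply]
    exact (b x _ v).trans (mul_le_mul_of_nonneg_right (le_max_of_le_left (hC x)) (sq_nonneg _))
  have e0 : ∀ a b, nabE I3 D.F.e (cn β) a (β.m.ρ b) x =
      ∑ k, D.Z.Gam (some a) b k (x, 0) • β.m.ρ k x := fun a b =>
    (congrArg (· + _) (congrFun (D_some_fst D.F.toPre (sm_ρ h b) a) (x, 0)).symm).trans
      (h.hC.cc.comp (some a) b (x, 0))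
  have e : ∀ a, nabH D.F (cn β) (cn β) a (fun x => ∑ a, θ a x • β.m.ρ a x) x =
      ∑ k, H (a, k) x • β.m.ρ k x := fun a => by
    change nabE I3 D.F.e (cn β) a _ x = _
    rw [Wz78.nabE_sum a _ fun b => s1 b x]
    simp only [fun b => Wz78.nabE_smul (e := D.F.e) (A := cn β) a (hθ b x) (sm_ρ h b x), e0, H,
      add_smul, Finset.sum_add_distrib, Finset.smul_sum, Finset.sum_smul, smul_smul]
    rw [Finset.sum_comm]; rfl
  simp only [e, _root_.sum_apply, smul_apply]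
  refine (Finset.sum_le_sum fun a _ => b x _ v).trans ?_
  rw [← Finset.sum_mul]
  exact mul_le_mul_of_nonneg_right (le_max_of_le_right
    ((Fintype.sum_prod_type _).symm.trans_le (hK x))) (sq_nonneg _)

theorem uo_j (h0 : HY D) {s : Y → Eu lam} (hs : Sm I3 s) : UO D fun β x => β.m.j x (s x) := by
  have sa : ∀ a, Sm I3 (D.a a) := fun a => sm_slice_fst (h0.ok.G.con.sm (some a)) 0
  obtain ⟨C, c, hC⟩ := sq_bd fun _ : Unit => hs.continuous
  obtain ⟨K, -, hK⟩ := sq_bd fun a => (Wz78.sm_nab (F := D.F) sa a hs).continuous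
  refine ⟨max C K, le_max_of_le_left c, fun β h => ?_⟩
  have sj : Sm I3 β.m.j := sm_slice_fst h.hm.sj 0
  have b : ∀ x s v, ‖β.m.j x s v‖ ^ 2 ≤ ‖s‖ ^ 2 * ‖v‖ ^ 2 := fun x s v =>
    (pow_le_pow_left₀ (norm_nonneg _) (norm_j h.hB h.hm (x, 0) s v) 2).trans_eq (mul_pow _ _ _)
  refine ⟨sj.clm_apply hs, fun x v => (b x _ v).trans (mul_le_mul_of_nonneg_right
    (le_max_of_le_left (by simpa using hC x)) (sq_nonneg _)), fun x v => ?_⟩
  have e0 : ∀ a s, D.F.D a β.m.j x s + (cn β a x * β.m.j x s - β.m.j x s * cn β a x) =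
      β.m.j x (D.a a x s) := fun a s =>
    (congrArg (fun T : CL (Eu lam) (En (Fin β.m.N)) => T s + _)
      (congrFun (D_some_fst D.F.toPre sj a) (x, 0)).symm).trans (h.hC.j (some a) (x, 0) s)
  have e : ∀ a, nabH D.F (cn β) (cn β) a (fun x => β.m.j x (s x)) x =
      β.m.j x (nab I3 D.F.e D.a a s x) := fun a => by
    rw [nab, map_add, ← e0, nabH, Pre.D, Sob92.dv_app (Wz78.SA.md (sj x)) (Wz78.SA.md (hs x))]
    change _ + (cn β a x * _ - _ * cn β a x) = _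
    simp only [Pre.D]; abel
  simp only [e]
  refine (Finset.sum_le_sum fun a _ => b x _ v).trans ?_
  rw [← Finset.sum_mul]
  exact mul_le_mul_of_nonneg_right (le_max_of_le_right (hK x)) (sq_nonneg _)

theorem uo_J : UO D fun β _ => β.m.J :=
  ⟨1, le_rfl, fun β h => Opr.par contMDiff_const (fun x v => by
    simpa [cs] using (norm_cs (J := β.m.J) h.hm.Jsq h.hm.Jsk Complex.I v).le) fun a x => by
      rw [nabH, Pre.D, Mp86.dv_const, zero_add]
      exact sub_eq_zero.2 (h.hC.J (some a) (x, 0)).symm⟩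

theorem uo_mul {f : Y → ℝ} (hf : Sm I3 f) : UO D fun _ x => f x • 1 :=
  (fn_of D.F hf).imp fun _ k => ⟨k.1, fun _ _ => k.2.opr⟩

theorem slo_mono {V : Type} [NormedAddCommGroup V] [InnerProductSpace ℝ V] [CompleteSpace V]
    {F : Fr I3 Y κ} {A : κ → Y → CL V V} {C K : ℝ} {t : SL Y V} (h : SLo F A C t) (k : C ≤ K) :
    SLo F A K t := by
  cases t with
  | op T => exact ⟨h.1.mono k, h.2.mono k⟩
  | G => trivial

theorem UO.skw {T : (β : YC Y κ lam) → Y → En (Fin β.m.N)} (h : UO D T)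
    (k : ∀ β, Hy D β → ∀ x, Skw (T β x)) :
    ∃ C : ℝ, 1 ≤ C ∧ ∀ β, Hy D β → SLo D.F (cn β) C (.op (T β)) :=
  h.imp fun _ h => ⟨h.1, fun β hβ => ⟨h.2 β hβ, by
    simp only [fun x => adj_skw (k β hβ x)]; exact (h.2 β hβ).neg⟩⟩

theorem slo_ylt {t : YL Y} (ht : t.OK I3) :
    ∃ C : ℝ, 1 ≤ C ∧ ∀ β, Hy D β → SLo D.F (cn β) C (ylt D.F β t) := by
  rcases t with f | (_ | g) | _ | _
  · exact (uo_mul (D := D) ht).imp fun _ h => ⟨h.1, fun β hβ => ⟨h.2 β hβ, by
      simpa only [map_smul, ContinuousLinearMap.one_def, ContinuousLinearMap.adjoint_id] using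
        h.2 β hβ⟩⟩
  · exact ((uo_cl (θ := fun a _ => a.elim 1 fun _ => 0) fun _ => contMDiff_const).congr
      fun β _ x => by simp).skw fun β h x => h.hm.ρsk none (x, 0)
  · refine ((uo_cl (θ := fun a => a.elim 0 fun a => D.F.D a g) fun a => ?_).congr
      fun β _ x => by simp).skw fun β h x v w => ?_
    · cases a
      exacts [contMDiff_const, D.F.sm_D (ht g rfl) _]
    · have e : ∀ a v w, ⟪β.m.ρ a x v, w⟫_ℝ = -⟪v, β.m.ρ a x w⟫_ℝ := fun a => h.hm.ρsk a (x, 0)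
      simp only [_root_.sum_apply, smul_apply, sum_inner, inner_sum, real_inner_smul_left,
        real_inner_smul_right, e _ v, mul_neg, Finset.sum_neg_distrib]
  · exact uo_J.skw fun β h _ => h.hm.Jsk
  · exact ⟨1, le_rfl, fun _ _ => trivial⟩

theorem slo_list : ∀ {u : List (YL Y)}, (∀ t ∈ u, t.OK I3) →
    ∃ C : ℝ, 1 ≤ C ∧ ∀ β, Hy D β → ∀ t ∈ u.map (ylt D.F β), SLo D.F (cn β) C t
  | [], _ => ⟨1, le_rfl, by simp⟩
  | t :: u, h => by
    obtain ⟨C, c, hC⟩ := slo_ylt (D := D) (h t (by simp))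
    obtain ⟨K, -, hK⟩ := slo_list (u := u) fun s hs => h s (by simp [hs])
    exact ⟨max C K, le_max_of_le_left c, fun β hβ => List.forall_mem_cons.2
      ⟨slo_mono (hC β hβ) (le_max_left _ _), fun s hs => slo_mono (hK β hβ s hs) (le_max_right _ _)⟩⟩

variable (D) in
/-- uniformly controlled spinors -/
def US (w : (β : YC Y κ lam) → Y → β.m.V) : Prop :=
  ∃ K : ℝ, 1 ≤ K ∧ ∀ β, Hy D β → Ctl D.F (gr2 I3 D.F.e (cn β) β.Φ) 1 K (cn β) (w β)

variable {u v : List (YL Y)} {l : (β : YC Y κ lam) → Y → β.m.V}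

theorem us_yw (hu : ∀ t ∈ u, t.OK I3) : US D fun β => yw D.F β u := by
  obtain ⟨C, c, hC⟩ := slo_list (D := D) hu
  refine ⟨(4 * C) ^ u.length * 1, by rw [mul_one]; exact one_le_pow₀ (by linarith), fun β h => ?_⟩
  exact List.length_map (ylt D.F β) ▸ ctl_wd bumps_of_compact (mc_cn h) zero_le_one
    (fun _ => gr2_nonneg) zero_le_one c (ctl_nf (mc_cn h) h.sm_Φ).2 (hC β h)

theorem US.app {T : (β : YC Y κ lam) → Y → En (Fin β.m.N)} (hl : US D l) (hT : UO D T) :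
    US D fun β x => T β x (l β x) := by
  obtain ⟨C, c, hC⟩ := hT
  obtain ⟨K, k, hK⟩ := hl
  exact ⟨4 * C * K, by nlinarith, fun β h => (hK β h).app zero_le_one (fun _ => gr2_nonneg)
    (by linarith) (by linarith) (hC β h)⟩

theorem US.dn (hl : US D l) : US D fun β => dn β (l β) := by
  obtain ⟨K, k, hK⟩ := hl
  refine ⟨136 * K, by linarith, fun β h => ?_⟩
  have k0 : 0 ≤ K := by linarith
  obtain ⟨a1, a2⟩ := ctl_nf (F := D.F) (mc_cn h) h.sm_Φ
  have := (a1.smul' (hK β h) zero_le_one k0).add (((a1.smul' (a2.inner (mc_cn h) (hK β h)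
    zero_le_one k0) zero_le_one (by positivity)).smul' a2 (by positivity) zero_le_one).neg)
  convert this using 1
  · ring
  · funext x
    simp only [Dgr80.dn, nf, real_inner_smul_left, smul_smul, smul_eq_mul, sub_eq_add_neg]
    congr 3; ring

theorem US.ywP (hl : US D l) (hu : ∀ t ∈ u, t.OK I3) : US D fun β => ywP D.F β u (l β) := by
  obtain ⟨C, c, hC⟩ := slo_list (D := D) hu
  obtain ⟨K, k, hK⟩ := hl
  refine US.dn ⟨(4 * C) ^ u.length * K, one_le_mul_of_one_le_of_one_le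
    (one_le_pow₀ (by linarith)) k, fun β h => ?_⟩
  simpa only [List.length_map] using ctl_bk bumps_of_compact (mc_cn h) zero_le_one
    (fun _ => gr2_nonneg) c (by linarith) (hC β h) (hK β h)

theorem US.ywA (hl : US D l) (hu : ∀ t ∈ u, t.OK I3) : ∃ K : ℝ, 0 ≤ K ∧ ∀ β, Hy D β →
    Dom D.F K fun x => ‖ywA D.F β u (l β) x‖ ^ 2 := by
  obtain ⟨C, c, hC⟩ := slo_list (D := D) hu
  obtain ⟨K, k, hK⟩ := hl
  exact ⟨_, by positivity, fun β h => dom_gc' bumps_of_compact (mc_cn h) norm_opL c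
    ((ctl_nf (F := D.F) (mc_cn h) h.sm_Φ).2.norm_le le_rfl) (n := u.length)
    (List.length_map _).le (fun t ht => (hC β h t ht).le c) ((hK β h).norm_le k)⟩

variable {T : Pk Y lam}

theorem bd_sw (hT : UO D fun β => pk β T) (hu : ∀ t ∈ u, t.OK I3) (hv : ∀ t ∈ v, t.OK I3) :
    ∃ R, ∀ β, Hy D β → |(YF.sw D.F T u v).f β| ≤ R ∧
      Ctl D.F (gr2 I3 D.F.e (cn β) β.Φ) 1 R (cn β) ((YF.sw D.F T u v).gP β) ∧
      ∃ g, Dom D.F R g ∧ ∀ y, ‖(YF.sw D.F T u v).gA β y‖ ^ 2 ≤ R + g y := by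
  have pu := (us_yw hu).app hT
  have pv := (us_yw hv).app hT
  obtain ⟨A1, a1, hA1⟩ := pv.ywA hu
  obtain ⟨A2, a2, hA2⟩ := pu.ywA hv
  obtain ⟨P1, p1, hP1⟩ := pv.ywP hu
  obtain ⟨P2, p2, hP2⟩ := pu.ywP hv
  obtain ⟨K, k, hK⟩ := pu
  obtain ⟨L, l, hL⟩ := us_yw (D := D) hv
  have m : 0 ≤ K * L * D.F.μ.real univ := by positivity
  have f : ∀ β, Hy D β → ‖∫ y, ⟪pk β T y (yw D.F β u y), yw D.F β v y⟫_ℝ ∂D.F.μ‖ ≤ _ := fun β h =>
    norm_integral_le_of_norm_le_const (.of_forall fun x => (norm_inner_le_norm _ _).trans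
      (mul_le_mul ((hK β h).norm_le k x) ((hL β h).norm_le l x) (norm_nonneg _) (by linarith)))
  exact ⟨K * L * D.F.μ.real univ + (2 * P1 + 2 * P2) + (2 * A1 + 2 * A2), fun β h =>
    ⟨(f β h).trans (by linarith), ((hP1 β h).add (hP2 β h)).mono zero_le_one
    (fun _ => gr2_nonneg) (by linarith), _, ((hA1 β h).sq_add (hA2 β h)).mono (by linarith)
      fun _ => le_rfl, fun _ => le_add_of_nonneg_left (by linarith)⟩⟩

theorem sm1_sw (h : HY D) {j : BB D} (e : yf D j = YF.sw D.F T u v) (hT : UO D fun β => pk β T)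
    (sy : ∀ β, Hy D β → ∀ x, Sym (pk β T x)) (hu : ∀ t ∈ u, t.OK I3) (hv : ∀ t ∈ v, t.OK I3) :
    Sm1 D j := by
  have s : ∀ β, D.Adm β → Sm I3 (pk β T) := fun β hβ => (hT.choose_spec.2 β ⟨h, hβ⟩).sm
  have L : ∀ β, D.Adm β → Lip D β (yf D j) := fun β hβ =>
    e ▸ lip_sw ⟨h, hβ⟩ (s β hβ) (sy β ⟨h, hβ⟩) hu hv
  have t : ∀ β, D.Adm β → ∀ k, 7 ≤ k → ∃ T, RpT D β (yf D j) (k + 1) (k + 1) T :=
    fun β hβ k hk => e ▸ rpT_sw ⟨h, hβ⟩ (by omega) (s β hβ) hu hv
  exact ⟨t, fun β hβ k hk => e ▸ rpf_sw ⟨h, hβ⟩ (by omega) (s β hβ) hu hv,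
    fun β hβ => (L β hβ).grad, fun k hk act sf o => (L _ o.2).hs h hk (t _ o.2 k hk),
    e ▸ (bd_sw hT hu hv).imp fun _ k β hβ => k β ⟨h, hβ⟩⟩

variable (D) in
/-- **CRIT-SMS** -/
theorem smsStmt : SmsStmt D := fun h _ j hj => by
  rcases j with c | p | d | d
  · exact (hj c rfl).elim
  · exact sm1_sw h rfl ((uo_mul (f := fun _ => 1) contMDiff_const).congr fun _ _ _ =>
      (one_smul _ _).symm) (fun _ _ _ _ _ => rfl) p.2.1 p.2.2
  · exact sm1_sw h rfl (uo_j h d.2.1) (fun β hβ x => hβ.hm.jsym (x, 0) _) d.2.2.1 d.2.2.2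
  · have e : ∀ β, Hy D β → ∀ x, pk β (.im d.1.s) x = β.m.j x (D.il (d.1.s x)) := fun β hβ x =>
      (hβ.hm.jil (x, 0) _).symm
    exact sm1_sw h rfl ((uo_j h (D.il.contMDiff.comp d.2.1)).congr e)
      (fun β hβ x => e β hβ x ▸ hβ.hm.jsym (x, 0) _) d.2.2.1 d.2.2.2

end Crest.Agent.X212.Cyl58
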