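import Crest.Agent.X212.Cyl58.OE
import Crest.Agent.X212.Glue52.Cov

-- ▼ part X212/Cyl58/Gr
section

/-!
# X212/Cyl58/Gr: graphs of manifolds

Pieces `P i`, overlaps `A e`, two smooth open embeddings `j0 e : A e → P (s e)`,
`j1 e : A e → P (t e)` with pairwise disjoint images and closed graph.  `G.M` is the glued manifold:
junctions along product ends, self-junctions, linear and cyclic chains, connected and fibre sums.
-/

set_option autoImplicit false
set_option linter.unusedSectionVars false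
noncomputable section
open Set Filter Topology Function
open scoped ContDiff Manifold

namespace Crest.Agent.X212.Cyl58

open Glue52

/-- the graph of a span is closed when the source is covered by a part that is closed on the left
and a part that is closed on the right -/
theorem isClosed_graph {A B C : Type*} [TopologicalSpace A] [TopologicalSpace B]
    [TopologicalSpace C] [T2Space B] [T2Space C] {f : A → B} {g : A → C} (hf : IsEmbedding f)
    (hg : IsEmbedding g) {s t : Set A} (hst : s ∪ t = univ) (hs : IsClosed (f '' s))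
    (ht : IsClosed (g '' t)) : IsClosed (range fun a => (f a, g a)) := by
  have h0 : Continuous fun a => (f a, g a) := hf.continuous.prodMk hg.continuous
  have h1 : IsProperMap (fun a : s => (f a, g a)) :=
    isProperMap_of_comp_of_t2 (g := Prod.fst) (h0.comp continuous_subtype_val) continuous_fst
      (IsClosedEmbedding.isProperMap ⟨hf.comp .subtypeVal, by
        rwa [show range (Prod.fst ∘ fun a : s => (f a, g a)) = f '' s from
          (image_eq_range f s).symm]⟩)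
  have h2 : IsProperMap (fun a : t => (f a, g a)) :=
    isProperMap_of_comp_of_t2 (g := Prod.snd) (h0.comp continuous_subtype_val) continuous_snd
      (IsClosedEmbedding.isProperMap ⟨hg.comp .subtypeVal, by
        rwa [show range (Prod.snd ∘ fun a : t => (f a, g a)) = g '' t from
          (image_eq_range g t).symm]⟩)
  have h3 := h1.isClosed_range.union h2.isClosed_range
  rwa [← image_eq_range (fun a => (f a, g a)) s, ← image_eq_range (fun a => (f a, g a)) t,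
    ← image_union, hst, image_univ] at h3

/-- a graph of manifolds -/
structure Gr (V V' : Type) [NormedAddCommGroup V] [NormedSpace ℝ V] [NormedAddCommGroup V']
    [NormedSpace ℝ V'] (ι κ : Type) : Type 1 where
  P : ι → Pc V
  A : κ → Pc V'
  s : κ → ι
  t : κ → ι
  j0 : ∀ e, (A e).M → (P (s e)).M
  j1 : ∀ e, (A e).M → (P (t e)).M
  o0 : ∀ e, IsOE (A e).I (P (s e)).I (j0 e)
  o1 : ∀ e, IsOE (A e).I (P (t e)).I (j1 e)
  d00 : ∀ e e' a a', (⟨s e, j0 e a⟩ : Σ i, (P i).M) = ⟨s e', j0 e' a'⟩ → e = e'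
  d11 : ∀ e e' a a', (⟨t e, j1 e a⟩ : Σ i, (P i).M) = ⟨t e', j1 e' a'⟩ → e = e'
  d01 : ∀ e e' a a', (⟨s e, j0 e a⟩ : Σ i, (P i).M) ≠ ⟨t e', j1 e' a'⟩
  cl : ∀ e, IsClosed (range fun a => (j0 e a, j1 e a))
  fin : ∀ i, {e | s e = i ∨ t e = i}.Finite

namespace Gr

variable {V V' : Type} [NormedAddCommGroup V] [NormedSpace ℝ V] [NormedAddCommGroup V']
  [NormedSpace ℝ V'] {ι κ : Type} (G : Gr V V' ι κ)

/-- the disjoint union of the pieces -/
abbrev S : Type := Σ i, (G.P i).M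

/-- left copy of an overlap point -/
abbrev J0 (e : κ) (a : (G.A e).M) : G.S := ⟨G.s e, G.j0 e a⟩

/-- right copy of an overlap point -/
abbrev J1 (e : κ) (a : (G.A e).M) : G.S := ⟨G.t e, G.j1 e a⟩

theorem mk_inj {i : ι} {p q : (G.P i).M} (h : (⟨i, p⟩ : G.S) = ⟨i, q⟩) : p = q :=
  sigma_mk_injective (β := fun i => (G.P i).M) h

theorem J0_inj {e : κ} {a a' : (G.A e).M} (h : G.J0 e a = G.J0 e a') : a = a' :=
  (G.o0 e).inj (G.mk_inj h)

theorem J1_inj {e : κ} {a a' : (G.A e).M} (h : G.J1 e a = G.J1 e a') : a = a' :=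
  (G.o1 e).inj (G.mk_inj h)

/-- the oriented relation -/
def R (x y : G.S) : Prop := ∃ e a, x = G.J0 e a ∧ y = G.J1 e a

theorem R_R {x y z : G.S} (h : G.R x y) (h' : G.R y z) : False := by
  obtain ⟨e, a, -, rfl⟩ := h
  obtain ⟨e', a', h, -⟩ := h'
  exact G.d01 e' e a' a h.symm

theorem R_left {x y z : G.S} (h : G.R x y) (h' : G.R x z) : y = z := by
  obtain ⟨e, a, rfl, rfl⟩ := h
  obtain ⟨e', a', h, rfl⟩ := h'
  obtain rfl := G.d00 e e' a a' h
  rw [G.J0_inj h]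

theorem R_right {x y z : G.S} (h : G.R x z) (h' : G.R y z) : x = y := by
  obtain ⟨e, a, rfl, rfl⟩ := h
  obtain ⟨e', a', rfl, h⟩ := h'
  obtain rfl := G.d11 e e' a a' h
  rw [G.J1_inj h]

/-- the equivalence relation -/
def r : Setoid G.S where
  r x y := x = y ∨ G.R x y ∨ G.R y x
  iseqv := by
    refine ⟨fun _ => .inl rfl, ?_, ?_⟩
    · rintro x y (h | h | h)
      exacts [.inl h.symm, .inr (.inr h), .inr (.inl h)]
    · rintro x y z (rfl | h | h) (rfl | h' | h')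
      exacts [.inl rfl, .inr (.inl h'), .inr (.inr h'), .inr (.inl h), (G.R_R h h').elim,
        .inl (G.R_right h h'), .inr (.inr h), .inl (G.R_left h h'), (G.R_R h' h).elim]

theorem r_iff {x y : G.S} : G.r x y ↔ x = y ∨ G.R x y ∨ G.R y x := Iff.rfl

theorem isClosed_R (i j : ι) :
    IsClosed {x : (G.P i).M × (G.P j).M | G.R ⟨i, x.1⟩ ⟨j, x.2⟩} := by
  have h : {x : (G.P i).M × (G.P j).M | G.R ⟨i, x.1⟩ ⟨j, x.2⟩} =
      ⋃ e ∈ {e | G.s e = i ∨ G.t e = i},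
        (Prod.map (Sigma.mk (β := fun i => (G.P i).M) i) (Sigma.mk (β := fun i => (G.P i).M) j)) ⁻¹'
        (Prod.map (Sigma.mk (β := fun i => (G.P i).M) (G.s e))
          (Sigma.mk (β := fun i => (G.P i).M) (G.t e)) ''
          range fun a => (G.j0 e a, G.j1 e a)) := by
    ext x
    simp only [mem_ofPred_eq, mem_iUnion, mem_preimage, exists_prop]
    constructor
    · rintro ⟨e, a, h0, h1⟩
      exact ⟨e, .inl (congrArg Sigma.fst h0).symm, _, ⟨a, rfl⟩, Prod.ext h0.symm h1.symm⟩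
    · rintro ⟨e, -, _, ⟨a, rfl⟩, h⟩
      exact ⟨e, a, (congrArg Prod.fst h).symm, (congrArg Prod.snd h).symm⟩
  rw [h]
  refine (G.fin i).isClosed_biUnion fun e _ => IsClosed.preimage
    (continuous_sigmaMk.prodMap continuous_sigmaMk) ?_
  have h1 : IsClosedEmbedding (Sigma.mk (β := fun i => (G.P i).M) (G.s e)) :=
    ⟨.sigmaMk, isClosed_range_sigmaMk⟩
  have h2 : IsClosedEmbedding (Sigma.mk (β := fun i => (G.P i).M) (G.t e)) :=
    ⟨.sigmaMk, isClosed_range_sigmaMk⟩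
  exact (h1.isProperMap.prodMap h2.isProperMap).isClosedMap _ (G.cl e)

theorem not_R_self (x : G.S) : ¬ G.R x x := fun h => G.R_R h h

/-- the gluing data -/
def gd : GD V ι where
  P := G.P
  r := G.r
  etale := by
    have key : ∀ x y : G.S, G.R x y →
        ∃ φ : PartialDiffeomorph (G.P x.1).I (G.P y.1).I (G.P x.1).M (G.P y.1).M ∞,
          x.2 ∈ φ.source ∧ φ x.2 = y.2 ∧ ∀ z ∈ φ.source, G.R ⟨x.1, z⟩ ⟨y.1, φ z⟩ := by
      rintro _ _ ⟨e, a, rfl, rfl⟩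
      have : Nonempty (G.A e).M := ⟨a⟩
      refine ⟨(G.o0 e).span (G.o1 e), ?_, IsOE.span_apply _ _ a, fun z hz => ?_⟩
      · rw [IsOE.span_source]; exact ⟨a, rfl⟩
      · rw [IsOE.span_source] at hz
        obtain ⟨b, rfl⟩ := hz
        exact ⟨e, b, rfl, by rw [IsOE.span_apply]⟩
    rintro i j p q (h | h | h)
    · obtain rfl : i = j := congrArg Sigma.fst h
      obtain rfl : p = q := G.mk_inj h
      exact ⟨pdRefl _ _, mem_univ _, rfl, fun z _ => .inl rfl⟩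
    · obtain ⟨φ, h1, h2, h3⟩ := key _ _ h
      exact ⟨φ, h1, h2, fun z hz => .inr (.inl (h3 z hz))⟩
    · obtain ⟨φ, h1, h2, h3⟩ := key _ _ h
      dsimp only at φ h1 h2 h3
      refine ⟨φ.symm, h2 ▸ φ.map_source h1, h2 ▸ φ.left_inv h1, fun z hz => .inr (.inr ?_)⟩
      have h4 := h3 _ (φ.map_target hz)
      rwa [show φ (φ.toPartialEquiv.symm z) = z from φ.right_inv hz] at h4
  inj i p := by
    have h1 : {x : (G.P i).M × (G.P i).M | G.R ⟨i, x.1⟩ ⟨i, x.2⟩}ᶜ ∈ 𝓝 (p, p) :=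
      (G.isClosed_R i i).isOpen_compl.mem_nhds (G.not_R_self _)
    obtain ⟨s, hs, t, ht, hst⟩ := mem_nhds_prod_iff.1 h1
    refine ⟨s ∩ t, inter_mem hs ht, ?_⟩
    rintro z hz w hw (h | h | h)
    exacts [G.mk_inj h, (hst (mk_mem_prod hz.1 hw.2) h).elim,
      (hst (mk_mem_prod hw.1 hz.2) h).elim]

/-- the glued manifold -/
abbrev M : Type := G.gd.M

/-- the map of the `i`-th piece -/
def inc (i : ι) (p : (G.P i).M) : G.M := G.gd.inc i p

theorem inc_eq_inc {i j : ι} {p : (G.P i).M} {q : (G.P j).M} :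
    G.inc i p = G.inc j q ↔
      (⟨i, p⟩ : G.S) = ⟨j, q⟩ ∨ G.R ⟨i, p⟩ ⟨j, q⟩ ∨ G.R ⟨j, q⟩ ⟨i, p⟩ := G.gd.inc_eq_inc

theorem surj (x : G.M) : ∃ i p, G.inc i p = x := G.gd.surj x

theorem ld (i : ι) : IsLocalDiffeomorph (G.P i).I 𝓘(ℝ, V) ∞ (G.inc i) := G.gd.ld i

theorem continuous_inc (i : ι) : Continuous (G.inc i) := G.gd.continuous_inc i

theorem isOpenMap_inc (i : ι) : IsOpenMap (G.inc i) := G.gd.isOpenMap_inc i

theorem inc_j1 (e : κ) (a : (G.A e).M) : G.inc _ (G.j1 e a) = G.inc _ (G.j0 e a) :=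
  (G.inc_eq_inc.2 (.inr (.inl ⟨e, a, rfl, rfl⟩))).symm

/-- a piece without loop embeds -/
theorem isOE_inc {i : ι} (h : ∀ e, G.s e = i → G.t e ≠ i) : IsOE (G.P i).I 𝓘(ℝ, V) (G.inc i) := by
  refine ⟨fun p q hpq => ?_, G.ld i⟩
  rcases G.inc_eq_inc.1 hpq with h1 | ⟨e, a, h1, h2⟩ | ⟨e, a, h1, h2⟩
  · exact G.mk_inj h1
  all_goals exact (h e (congrArg Sigma.fst h1).symm (congrArg Sigma.fst h2).symm).elim

/-- the neck of an edge -/
def neck (e : κ) (a : (G.A e).M) : G.M := G.inc _ (G.j0 e a)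

theorem inc_j0 (e : κ) (a : (G.A e).M) : G.inc _ (G.j0 e a) = G.neck e a := rfl

theorem inc_j1' (e : κ) (a : (G.A e).M) : G.inc _ (G.j1 e a) = G.neck e a := G.inc_j1 e a

/-- the points over a neck point -/
theorem inc_eq_neck {i : ι} {p : (G.P i).M} {e : κ} {a : (G.A e).M} :
    G.inc i p = G.neck e a ↔ (⟨i, p⟩ : G.S) = G.J0 e a ∨ (⟨i, p⟩ : G.S) = G.J1 e a := by
  refine G.inc_eq_inc.trans ⟨?_, ?_⟩
  · rintro (h | h | h)
    exacts [.inl h, (G.R_R h ⟨e, a, rfl, rfl⟩).elim, .inr (G.R_left h ⟨e, a, rfl, rfl⟩)]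
  · rintro (h | h)
    exacts [.inl h, .inr (.inr ⟨e, a, rfl, h⟩)]

theorem neck_eq_neck {e e' : κ} {a : (G.A e).M} {a' : (G.A e').M} (h : G.neck e a = G.neck e' a') :
    (⟨e, a⟩ : Σ e, (G.A e).M) = ⟨e', a'⟩ := by
  rcases G.inc_eq_neck.1 h with h | h
  · obtain rfl := G.d00 _ _ _ _ h
    rw [G.J0_inj h]
  · exact (G.d01 _ _ _ _ h).elim

theorem isOE_neck (e : κ) : IsOE (G.A e).I 𝓘(ℝ, V) (G.neck e) :=
  ⟨fun _ _ h => sigma_mk_injective (β := fun e => (G.A e).M) (G.neck_eq_neck h),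
    fun a => ld_comp (g := G.inc _) (G.ld _ _) ((G.o0 e).loc a)⟩

theorem disjoint_neck {e e' : κ} (h : e ≠ e') : Disjoint (range (G.neck e)) (range (G.neck e')) := by
  rw [disjoint_left]
  rintro _ ⟨a, rfl⟩ ⟨a', h'⟩
  exact h (congrArg Sigma.fst (G.neck_eq_neck h')).symm

/-- off the necks, points of the pieces are not identified -/
theorem eq_of_inc_eq {i j : ι} {p : (G.P i).M} {q : (G.P j).M} (h : G.inc i p = G.inc j q)
    (hp : ∀ e a, G.inc i p ≠ G.neck e a) : (⟨i, p⟩ : G.S) = ⟨j, q⟩ := by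
  rcases G.inc_eq_inc.1 h with h1 | ⟨e, a, h1, -⟩ | ⟨e, a, -, h1⟩
  exacts [h1, (hp e a (G.inc_eq_neck.2 (.inl h1))).elim, (hp e a (G.inc_eq_neck.2 (.inr h1))).elim]

instance [∀ i, T2Space (G.P i).M] : T2Space G.M := by
  refine G.gd.t2Space fun i j => ?_
  have h1 : IsClosed {x : (G.P i).M × (G.P j).M | (⟨i, x.1⟩ : G.S) = ⟨j, x.2⟩} :=
    isClosed_eq (continuous_sigmaMk.comp continuous_fst) (continuous_sigmaMk.comp continuous_snd)
  exact h1.union ((G.isClosed_R i j).union ((G.isClosed_R j i).preimage continuous_swap))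

instance [Countable ι] [h : ∀ i, SecondCountableTopology (G.P i).M] :
    SecondCountableTopology G.M :=
  @GD.secondCountable _ _ _ _ G.gd _ h

/-- maps out of the glued manifold -/
def lift {Z : Sort*} (g : ∀ i, (G.P i).M → Z) (h : ∀ e a, g _ (G.j0 e a) = g _ (G.j1 e a)) :
    G.M → Z :=
  G.gd.lift g (by
    have key : ∀ x y : G.S, G.R x y → g x.1 x.2 = g y.1 y.2 := by
      rintro _ _ ⟨e, a, rfl, rfl⟩
      exact h e a
    rintro i j p q (h1 | h1 | h1)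
    exacts [congrArg (fun x : G.S => g x.1 x.2) h1, key _ _ h1, (key _ _ h1).symm])

@[simp] theorem lift_inc {Z : Sort*} (g : ∀ i, (G.P i).M → Z)
    (h : ∀ e a, g _ (G.j0 e a) = g _ (G.j1 e a)) (i : ι) (p : (G.P i).M) :
    G.lift g h (G.inc i p) = g i p := rfl

@[simp] theorem lift_neck {Z : Sort*} (g : ∀ i, (G.P i).M → Z)
    (h : ∀ e a, g _ (G.j0 e a) = g _ (G.j1 e a)) (e : κ) (a : (G.A e).M) :
    G.lift g h (G.neck e a) = g _ (G.j0 e a) := rfl

theorem continuous_iff {Z : Type*} [TopologicalSpace Z] {g : G.M → Z} :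
    Continuous g ↔ ∀ i, Continuous (g ∘ G.inc i) := G.gd.continuous_iff

section Out

variable {E' : Type*} [NormedAddCommGroup E'] [NormedSpace ℝ E'] {H' : Type*} [TopologicalSpace H']
  {J : ModelWithCorners ℝ E' H'} {N : Type*} [TopologicalSpace N] [ChartedSpace H' N]

theorem contMDiff_iff {g : G.M → N} :
    ContMDiff 𝓘(ℝ, V) J ∞ g ↔ ∀ i, ContMDiff (G.P i).I J ∞ (g ∘ G.inc i) := G.gd.contMDiff_iff

theorem ld_iff {g : G.M → N} :
    IsLocalDiffeomorph 𝓘(ℝ, V) J ∞ g ↔ ∀ i, IsLocalDiffeomorph (G.P i).I J ∞ (g ∘ G.inc i) :=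
  G.gd.ld_iff

theorem contMDiff_lift {g : ∀ i, (G.P i).M → N} (h : ∀ e a, g _ (G.j0 e a) = g _ (G.j1 e a))
    (hg : ∀ i, ContMDiff (G.P i).I J ∞ (g i)) : ContMDiff 𝓘(ℝ, V) J ∞ (G.lift g h) :=
  G.contMDiff_iff.2 hg

/-- local diffeomorphisms of the pieces whose only coincidences are the prescribed ones embed the
glued manifold -/
theorem isOE_lift {g : ∀ i, (G.P i).M → N} (h : ∀ e a, g _ (G.j0 e a) = g _ (G.j1 e a))
    (hg : ∀ i, IsLocalDiffeomorph (G.P i).I J ∞ (g i))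
    (hi : ∀ i j p q, g i p = g j q → G.inc i p = G.inc j q) : IsOE 𝓘(ℝ, V) J (G.lift g h) := by
  refine ⟨fun x y hxy => ?_, G.ld_iff.2 hg⟩
  obtain ⟨i, p, rfl⟩ := G.surj x
  obtain ⟨j, q, rfl⟩ := G.surj y
  exact hi i j p q hxy

theorem range_lift {Z : Type*} {g : ∀ i, (G.P i).M → Z}
    (h : ∀ e a, g _ (G.j0 e a) = g _ (G.j1 e a)) : range (G.lift g h) = ⋃ i, range (g i) := by
  ext z
  simp only [mem_range, mem_iUnion]
  constructor
  · rintro ⟨x, rfl⟩
    obtain ⟨i, p, rfl⟩ := G.surj x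
    exact ⟨i, p, rfl⟩
  · rintro ⟨i, p, rfl⟩
    exact ⟨G.inc i p, rfl⟩

end Out

/-- a set is closed when its traces on the pieces are -/
theorem isClosed_iff {s : Set G.M} : IsClosed s ↔ ∀ i, IsClosed (G.inc i ⁻¹' s) := by
  simp only [← isOpen_compl_iff, ← preimage_compl]
  exact G.gd.isOpen_iff

/-- a closed subset of a piece that misses the overlaps stays closed -/
theorem isClosed_image {i : ι} {s : Set (G.P i).M} (hs : IsClosed s)
    (h : ∀ p ∈ s, ∀ e a, G.inc i p ≠ G.neck e a) : IsClosed (G.inc i '' s) := by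
  rw [G.isClosed_iff]
  intro j
  have h1 : G.inc j ⁻¹' (G.inc i '' s) =
      Sigma.mk j ⁻¹' (Sigma.mk (β := fun i => (G.P i).M) i '' s) := by
    ext q
    constructor
    · rintro ⟨p, hp, e⟩
      exact ⟨p, hp, G.eq_of_inc_eq e (h p hp)⟩
    · rintro ⟨p, hp, e⟩
      exact ⟨p, hp, G.inc_eq_inc.2 (.inl e)⟩
  rw [h1]
  exact (isClosedMap_sigmaMk (σ := fun i => (G.P i).M) s hs).preimage continuous_sigmaMk

theorem compactSpace [Finite ι] (K : ∀ i, Set (G.P i).M) (hK : ∀ i, IsCompact (K i))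
    (h : ∀ i p, ∃ j, ∃ q ∈ K j, G.inc i p = G.inc j q) : CompactSpace G.M :=
  G.gd.compactSpace K hK fun i p => by
    obtain ⟨j, q, hq, e⟩ := h i p
    exact ⟨j, q, hq, G.gd.inc_eq_inc.1 e⟩

end Gr

end Crest.Agent.X212.Cyl58
end
end

-- ▼ part X212/Cyl58/ME

/-!
# X212/Cyl58/ME: manifolds with product ends and junction graphs

* `IsEnd IY IM j` : `j : Y × ℝ → M` is an outgoing end (`t → +∞` leaves every compact set);
* `ME V W` : an open manifold with finitely many disjoint ends and compact core;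
* `JG V W ι κ` : manifolds with ends and junctions `j (y, t) ∼ j' (f y, -t)`;
  `G.X` the glued manifold, `G.inc`, `G.neck e`, `G.me` (the unused ends), `G.compactSpace`.
-/

set_option autoImplicit false
set_option linter.unusedSectionVars false
noncomputable section
open Set Filter Topology Function
open scoped ContDiff Manifold

namespace Crest.Agent.X212.Cyl58

open Glue52

section End

variable {EY HY EM HM EN HN : Type*}
  [NormedAddCommGroup EY] [NormedSpace ℝ EY] [TopologicalSpace HY]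
  [NormedAddCommGroup EM] [NormedSpace ℝ EM] [TopologicalSpace HM]
  [NormedAddCommGroup EN] [NormedSpace ℝ EN] [TopologicalSpace HN]
  {IY : ModelWithCorners ℝ EY HY} {IM : ModelWithCorners ℝ EM HM} {IN : ModelWithCorners ℝ EN HN}
  {Y M N : Type*} [TopologicalSpace Y] [ChartedSpace HY Y] [TopologicalSpace M]
  [ChartedSpace HM M] [TopologicalSpace N] [ChartedSpace HN N]

/-- the reflection of the line -/
def negD : ℝ ≃ₘ^∞⟮𝓘(ℝ, ℝ), 𝓘(ℝ, ℝ)⟯ ℝ where
  toEquiv := Equiv.neg ℝ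
  contMDiff_toFun := contDiff_neg.contMDiff
  contMDiff_invFun := contDiff_neg.contMDiff

/-- translation of the line -/
def addD (c : ℝ) : ℝ ≃ₘ^∞⟮𝓘(ℝ, ℝ), 𝓘(ℝ, ℝ)⟯ ℝ where
  toEquiv := Equiv.addRight c
  contMDiff_toFun := (contDiff_id.add contDiff_const).contMDiff
  contMDiff_invFun := (contDiff_id.add contDiff_const).contMDiff

theorem isOE_neg : IsOE 𝓘(ℝ, ℝ) 𝓘(ℝ, ℝ) (fun t : ℝ => -t) := IsOE.of_diffeo negD

theorem isOE_add (c : ℝ) : IsOE 𝓘(ℝ, ℝ) 𝓘(ℝ, ℝ) (fun t : ℝ => t + c) := IsOE.of_diffeo (addD c)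

/-- `(y, t) ↦ (f y, -t)` -/
theorem isOE_flip (f : Y ≃ₘ^∞⟮IY, IN⟯ N) :
    IsOE (IY.prod 𝓘(ℝ, ℝ)) (IN.prod 𝓘(ℝ, ℝ)) (fun p : Y × ℝ => (f p.1, -p.2)) :=
  (IsOE.of_diffeo f).prodMap isOE_neg

variable (IY IM) in
/-- an outgoing product end -/
structure IsEnd (j : Y × ℝ → M) : Prop where
  oe : IsOE (IY.prod 𝓘(ℝ, ℝ)) IM j
  cl : IsClosed (j '' (univ ×ˢ Ici 0))

/-- compact slabs of a neck -/
theorem IsOE.isCompact_slab [CompactSpace Y] {j : Y × ℝ → M} (h : IsOE (IY.prod 𝓘(ℝ, ℝ)) IM j)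
    (a b : ℝ) : IsCompact (j '' (univ ×ˢ Icc a b)) :=
  (isCompact_univ.prod isCompact_Icc).image h.continuous

theorem IsEnd.isClosed_image {j : Y × ℝ → M} (h : IsEnd IY IM j) {s : Set (Y × ℝ)}
    (hs : IsClosed s) (h0 : s ⊆ univ ×ˢ Ici 0) : IsClosed (j '' s) := by
  obtain ⟨u, hu, rfl⟩ := h.oe.isOpenEmbedding.isInducing.isClosed_iff.1 hs
  have : j '' (j ⁻¹' u) = u ∩ j '' (univ ×ˢ Ici 0) := by
    refine Subset.antisymm ?_ ?_
    · rintro _ ⟨p, hp, rfl⟩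
      exact ⟨hp, p, h0 hp, rfl⟩
    · rintro _ ⟨hp, p, -, rfl⟩
      exact ⟨p, hp, rfl⟩
  rw [this]
  exact hu.inter h.cl

theorem IsEnd.isClosed [CompactSpace Y] [T2Space M] {j : Y × ℝ → M} (h : IsEnd IY IM j) (T : ℝ) :
    IsClosed (j '' (univ ×ˢ Ici T)) := by
  have h1 : (univ ×ˢ Ici T : Set (Y × ℝ)) = univ ×ˢ Icc T 0 ∪ univ ×ˢ Ici (max T 0) := by
    ext p
    simp only [mem_prod, mem_univ, mem_Ici, true_and, mem_union, mem_Icc, max_le_iff]
    constructor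
    · intro hp
      rcases le_total p.2 0 with h | h
      exacts [.inl ⟨hp, h⟩, .inr ⟨hp, h⟩]
    · rintro (h | h)
      exacts [h.1, h.1]
  rw [h1, image_union]
  exact (h.oe.isCompact_slab T 0).isClosed.union (h.isClosed_image
    (isClosed_univ.prod isClosed_Ici) (prod_mono Subset.rfl (Ici_subset_Ici.2 (le_max_right _ _))))

/-- an end is still an end after a diffeomorphism of the cross-section -/
theorem IsEnd.reparam {j : Y × ℝ → M} (h : IsEnd IY IM j) (f : N ≃ₘ^∞⟮IN, IY⟯ Y) :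
    IsEnd IN IM (fun p : N × ℝ => j (f p.1, p.2)) := by
  refine ⟨h.oe.comp ((IsOE.of_diffeo f).prodMap IsOE.id), ?_⟩
  convert h.cl using 1
  ext x
  constructor
  · rintro ⟨p, hp, rfl⟩
    exact ⟨_, ⟨mem_univ _, hp.2⟩, rfl⟩
  · rintro ⟨p, hp, rfl⟩
    exact ⟨(f.symm p.1, p.2), ⟨mem_univ _, hp.2⟩, by simp⟩

/-- an end is still an end after a translation -/
theorem IsEnd.shift [CompactSpace Y] [T2Space M] {j : Y × ℝ → M} (h : IsEnd IY IM j) (c : ℝ) :
    IsEnd IY IM (fun p : Y × ℝ => j (p.1, p.2 + c)) := by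
  refine ⟨h.oe.comp (IsOE.id.prodMap (isOE_add c)), ?_⟩
  convert h.isClosed c using 1
  ext x
  constructor
  · rintro ⟨p, hp, rfl⟩
    exact ⟨(p.1, p.2 + c), ⟨mem_univ _, show c ≤ p.2 + c from le_add_of_nonneg_left hp.2⟩, rfl⟩
  · rintro ⟨p, hp, rfl⟩
    exact ⟨(p.1, p.2 - c), ⟨mem_univ _, show 0 ≤ p.2 - c from sub_nonneg.2 hp.2⟩, by simp⟩

end End

variable {V W : Type} [NormedAddCommGroup V] [NormedSpace ℝ V] [NormedAddCommGroup W]
  [NormedSpace ℝ W]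

/-- the cylinder over a piece -/
abbrev cyl (Y : Pc W) : Pc (W × ℝ) :=
  Pc.of (Y.I.prod 𝓘(ℝ, ℝ)) (Y.M × ℝ) (Y.L.prodCongr (ContinuousLinearEquiv.refl ℝ ℝ))

variable (V W) in
/-- a manifold with finitely many outgoing product ends and compact core -/
structure ME : Type 1 where
  P : Pc V
  [t2 : T2Space P.M]
  [sc : SecondCountableTopology P.M]
  α : Type
  [fin : Finite α]
  Y : α → Pc W
  [cY : ∀ a, CompactSpace (Y a).M]
  j : ∀ a, (Y a).M × ℝ → P.M
  isEnd : ∀ a, IsEnd (Y a).I P.I (j a)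
  disj : ∀ a b p q, j a p = j b q → a = b
  cpt : IsCompact (⋃ a, j a '' (univ ×ˢ Ioi 0))ᶜ

attribute [instance] ME.t2 ME.sc ME.fin ME.cY

namespace ME

variable (M : ME V W)

theorem oe (a : M.α) : IsOE ((M.Y a).I.prod 𝓘(ℝ, ℝ)) M.P.I (M.j a) := (M.isEnd a).oe

theorem isEmbedding_slice (a : M.α) (t : ℝ) : IsEmbedding fun y : (M.Y a).M => M.j a (y, t) :=
  (M.oe a).isOpenEmbedding.isEmbedding.comp (isEmbedding_prodMkLeft t)

instance (a : M.α) : T2Space (M.Y a).M := (M.isEmbedding_slice a 0).t2Space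

instance (a : M.α) : SecondCountableTopology (M.Y a).M :=
  (M.isEmbedding_slice a 0).secondCountableTopology

/-- the part of `M` below height `T` -/
def core (T : ℝ) : Set M.P.M := (⋃ a, M.j a '' (univ ×ˢ Ioi T))ᶜ

theorem mem_core {T : ℝ} {x : M.P.M} : x ∈ M.core T ↔ ∀ a p, M.j a p = x → p.2 ≤ T := by
  simp only [core, mem_compl_iff, mem_iUnion, not_exists]
  refine forall_congr' fun a => ⟨fun h p hp => not_lt.1 fun h' => h ⟨p, ⟨mem_univ _, h'⟩, hp⟩, ?_⟩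
  rintro h ⟨p, hp, e⟩
  exact (h p e).not_gt hp.2

theorem j_mem_core {T : ℝ} {a : M.α} {p : (M.Y a).M × ℝ} : M.j a p ∈ M.core T ↔ p.2 ≤ T := by
  refine M.mem_core.trans ⟨fun h => h a p rfl, fun h b q e => ?_⟩
  obtain rfl := M.disj _ _ _ _ e
  rwa [(M.oe b).inj e]

theorem not_mem_core {T : ℝ} {x : M.P.M} (h : x ∉ M.core T) : ∃ a p, T < p.2 ∧ M.j a p = x := by
  rw [M.mem_core] at h
  push Not at h
  obtain ⟨a, p, e, hp⟩ := h
  exact ⟨a, p, hp, e⟩

theorem isClosed_core (T : ℝ) : IsClosed (M.core T) :=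
  (isOpen_iUnion fun a => (M.oe a).isOpen_image (isOpen_univ.prod isOpen_Ioi)).isClosed_compl

theorem core_mono {S T : ℝ} (h : S ≤ T) : M.core S ⊆ M.core T := fun _ hx =>
  M.mem_core.2 fun a p e => (M.mem_core.1 hx a p e).trans h

theorem isCompact_core (T : ℝ) : IsCompact (M.core T) := by
  refine (M.cpt.union (isCompact_iUnion fun a => (M.oe a).isCompact_slab 0 T)).of_isClosed_subset
    (M.isClosed_core T) fun x hx => ?_
  by_cases h : x ∈ M.core 0
  · exact .inl h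
  · obtain ⟨a, p, hp, rfl⟩ := M.not_mem_core h
    exact .inr (mem_iUnion.2 ⟨a, p, ⟨mem_univ _, hp.le, M.j_mem_core.1 hx⟩, rfl⟩)

/-- without ends the manifold is closed -/
theorem compactSpace [IsEmpty M.α] : CompactSpace M.P.M :=
  ⟨by simpa using M.cpt⟩

end ME

variable (V W) in
/-- a junction graph: the end `s e` is glued to the end `t e` by `j (y, t) ∼ j' (f y, -t)` -/
structure JG (ι κ : Type) : Type 1 where
  M : ι → ME V W
  s : κ → Σ i, (M i).α
  t : κ → Σ i, (M i).α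
  s_inj : Injective s
  t_inj : Injective t
  s_ne_t : ∀ e e', s e ≠ t e'
  f : ∀ e, ((M (s e).1).Y (s e).2).M ≃ₘ^∞⟮((M (s e).1).Y (s e).2).I, ((M (t e).1).Y (t e).2).I⟯
    ((M (t e).1).Y (t e).2).M

namespace JG

variable {ι κ : Type} (G : JG V W ι κ)

/-- all ends of all pieces -/
abbrev En : Type := Σ i, (G.M i).α

/-- the cross-section of an end -/
abbrev Y (a : G.En) : Pc W := (G.M a.1).Y a.2

/-- the end itself -/
abbrev j (a : G.En) : (G.Y a).M × ℝ → (G.M a.1).P.M := (G.M a.1).j a.2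

theorem en_eq {a b : G.En} {p : (G.Y a).M × ℝ} {q : (G.Y b).M × ℝ}
    (h : (⟨a.1, G.j a p⟩ : Σ i, (G.M i).P.M) = ⟨b.1, G.j b q⟩) : a = b := by
  obtain ⟨i, a⟩ := a
  obtain ⟨k, b⟩ := b
  obtain rfl : i = k := congrArg Sigma.fst h
  rw [(G.M i).disj a b p q (sigma_mk_injective (β := fun i => (G.M i).P.M) h)]

/-- the underlying graph of manifolds -/
def gr : Gr V (W × ℝ) ι κ where
  P i := (G.M i).P
  A e := cyl (G.Y (G.s e))
  s e := (G.s e).1
  t e := (G.t e).1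
  j0 e := G.j (G.s e)
  j1 e p := G.j (G.t e) (G.f e p.1, -p.2)
  o0 e := (G.M _).oe _
  o1 e := ((G.M _).oe _).comp (isOE_flip (G.f e))
  d00 _ _ _ _ h := G.s_inj (G.en_eq h)
  d11 _ _ _ _ h := G.t_inj (G.en_eq h)
  d01 _ _ _ _ h := G.s_ne_t _ _ (G.en_eq h)
  cl e := by
    refine isClosed_graph ((G.M _).oe _).isOpenEmbedding.isEmbedding
      (((G.M _).oe _).comp (isOE_flip (G.f e))).isOpenEmbedding.isEmbedding
      (s := univ ×ˢ Ici 0) (t := univ ×ˢ Iic 0) ?_ ((G.M _).isEnd _).cl ?_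
    · rw [← prod_union, union_comm, Iic_union_Ici, univ_prod_univ]
    · convert ((G.M (G.t e).1).isEnd (G.t e).2).cl using 1
      ext x
      constructor
      · rintro ⟨p, hp, rfl⟩
        exact ⟨(G.f e p.1, -p.2), ⟨mem_univ _, show 0 ≤ -p.2 from neg_nonneg.2 hp.2⟩, rfl⟩
      · rintro ⟨p, hp, rfl⟩
        exact ⟨((G.f e).symm p.1, -p.2), ⟨mem_univ _, show -p.2 ≤ 0 from neg_nonpos.2 hp.2⟩,
          by simp⟩
  fin i := by
    have h : {a : G.En | a.1 = i}.Finite :=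
      (finite_range (Sigma.mk (β := fun i => (G.M i).α) i)).subset (by
        rintro ⟨k, a⟩ rfl
        exact ⟨a, rfl⟩)
    exact (h.preimage G.s_inj.injOn).union (h.preimage G.t_inj.injOn)

/-- the glued manifold -/
abbrev X : Type := G.gr.M

instance : T2Space G.X :=
  have : ∀ i, T2Space (G.gr.P i).M := fun i => (G.M i).t2
  inferInstance

instance [Countable ι] : SecondCountableTopology G.X :=
  have : ∀ i, SecondCountableTopology (G.gr.P i).M := fun i => (G.M i).sc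
  inferInstance

/-- the map of the `i`-th piece -/
def inc (i : ι) (p : (G.M i).P.M) : G.X := G.gr.inc i p

/-- the neck of a junction -/
def neck (e : κ) (p : (G.Y (G.s e)).M × ℝ) : G.X := G.gr.neck e p

theorem surj (x : G.X) : ∃ i p, G.inc i p = x := G.gr.surj x

theorem ld (i : ι) : IsLocalDiffeomorph (G.M i).P.I 𝓘(ℝ, V) ∞ (G.inc i) := G.gr.ld i

theorem continuous_inc (i : ι) : Continuous (G.inc i) := G.gr.continuous_inc i

theorem isOE_inc {i : ι} (h : ∀ e, (G.s e).1 = i → (G.t e).1 ≠ i) :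
    IsOE (G.M i).P.I 𝓘(ℝ, V) (G.inc i) := G.gr.isOE_inc h

theorem isOE_neck (e : κ) : IsOE ((G.Y (G.s e)).I.prod 𝓘(ℝ, ℝ)) 𝓘(ℝ, V) (G.neck e) :=
  G.gr.isOE_neck e

theorem disjoint_neck {e e' : κ} (h : e ≠ e') : Disjoint (range (G.neck e)) (range (G.neck e')) :=
  G.gr.disjoint_neck h

theorem inc_s (e : κ) (p : (G.Y (G.s e)).M × ℝ) : G.inc _ (G.j (G.s e) p) = G.neck e p := rfl

theorem inc_t (e : κ) (p : (G.Y (G.s e)).M × ℝ) :
    G.inc _ (G.j (G.t e) (G.f e p.1, -p.2)) = G.neck e p := G.gr.inc_j1 e p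

theorem inc_t' (e : κ) (q : (G.Y (G.t e)).M × ℝ) :
    G.inc _ (G.j (G.t e) q) = G.neck e ((G.f e).symm q.1, -q.2) := by
  rw [← G.inc_t]; simp

theorem inc_eq_neck {i : ι} {p : (G.M i).P.M} {e : κ} {a : (G.Y (G.s e)).M × ℝ} :
    G.inc i p = G.neck e a ↔ (⟨i, p⟩ : Σ i, (G.M i).P.M) = ⟨_, G.j (G.s e) a⟩ ∨
      (⟨i, p⟩ : Σ i, (G.M i).P.M) = ⟨_, G.j (G.t e) (G.f e a.1, -a.2)⟩ := G.gr.inc_eq_neck

theorem eq_of_inc_eq {i k : ι} {p : (G.M i).P.M} {q : (G.M k).P.M} (h : G.inc i p = G.inc k q)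
    (hp : ∀ e a, G.inc i p ≠ G.neck e a) : (⟨i, p⟩ : Σ i, (G.M i).P.M) = ⟨k, q⟩ :=
  G.gr.eq_of_inc_eq h hp

/-- an end that is not used by a junction -/
def Free (a : G.En) : Prop := (∀ e, G.s e ≠ a) ∧ ∀ e, G.t e ≠ a

theorem free_ne_neck {a : G.En} (ha : G.Free a) (p : (G.Y a).M × ℝ) (e : κ)
    (q : (G.Y (G.s e)).M × ℝ) : G.inc _ (G.j a p) ≠ G.neck e q := fun h => by
  rcases G.inc_eq_neck.1 h with h | h
  exacts [ha.1 e (G.en_eq h).symm, ha.2 e (G.en_eq h).symm]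

theorem isEnd_free {a : G.En} (ha : G.Free a) :
    IsEnd (G.Y a).I 𝓘(ℝ, V) (fun p => G.inc _ (G.j a p)) := by
  refine ⟨⟨fun p q h => ?_, fun p => ld_comp (g := G.inc _) (G.ld _ _) (((G.M _).oe _).loc p)⟩, ?_⟩
  · exact ((G.M _).oe _).inj (sigma_mk_injective (β := fun i => (G.M i).P.M)
      (G.eq_of_inc_eq h (G.free_ne_neck ha p)))
  · rw [show (fun p => G.inc _ (G.j a p)) = G.inc _ ∘ G.j a from rfl, image_comp]
    refine G.gr.isClosed_image ((G.M _).isEnd _).cl ?_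
    rintro _ ⟨p, -, rfl⟩
    exact G.free_ne_neck ha p

/-- every point lies in the core of a piece or on a free end -/
theorem core_or_free (x : G.X) : (∃ i, ∃ p ∈ (G.M i).core 0, G.inc i p = x) ∨
    ∃ a p, G.Free a ∧ 0 < p.2 ∧ G.inc _ (G.j a p) = x := by
  obtain ⟨i, p, rfl⟩ := G.surj x
  by_cases h : p ∈ (G.M i).core 0
  · exact .inl ⟨i, p, h, rfl⟩
  obtain ⟨a, q, hq, rfl⟩ := (G.M i).not_mem_core h
  by_cases hf : G.Free ⟨i, a⟩
  · exact .inr ⟨⟨i, a⟩, q, hf, hq, rfl⟩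
  left
  have key : ∀ (b : G.En) (q : (G.Y b).M × ℝ), 0 < q.2 → ¬ G.Free b →
      ∃ i, ∃ p ∈ (G.M i).core 0, G.inc i p = G.inc _ (G.j b q) := by
    intro b q hq hf
    simp only [Free, not_and_or, not_forall, not_not] at hf
    rcases hf with ⟨e, rfl⟩ | ⟨e, rfl⟩
    · exact ⟨_, _, (G.M _).j_mem_core.2 (neg_nonpos.2 hq.le), G.inc_t e q⟩
    · exact ⟨_, _, (G.M _).j_mem_core.2 (neg_nonpos.2 hq.le), (G.inc_t' e q).symm⟩
  exact key ⟨i, a⟩ q hq hf

/-- the glued manifold with its unused ends -/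
def me [Finite ι] : ME V W where
  P := Pc.of 𝓘(ℝ, V) G.X (ContinuousLinearEquiv.refl ℝ V)
  α := {a : G.En // G.Free a}
  Y a := G.Y a.1
  j a p := G.inc _ (G.j a.1 p)
  isEnd a := G.isEnd_free a.2
  disj a b p _ h := Subtype.ext (G.en_eq (G.eq_of_inc_eq h (G.free_ne_neck a.2 p)))
  cpt := by
    refine (isCompact_iUnion fun i => ((G.M i).isCompact_core 0).image
      (G.continuous_inc i)).of_isClosed_subset (isOpen_iUnion fun a =>
        (G.isEnd_free a.2).oe.isOpen_image (isOpen_univ.prod isOpen_Ioi)).isClosed_compl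
      fun x hx => ?_
    rcases G.core_or_free x with ⟨i, p, hp, rfl⟩ | ⟨a, p, ha, hp, rfl⟩
    · exact mem_iUnion.2 ⟨i, p, hp, rfl⟩
    · exact (hx (mem_iUnion.2 ⟨⟨a, ha⟩, p, ⟨mem_univ _, hp⟩, rfl⟩)).elim

/-- when all ends are used the glued manifold is closed -/
theorem compactSpace [Finite ι] (h : ∀ a, ¬ G.Free a) : CompactSpace G.X :=
  have : IsEmpty G.me.α := ⟨fun a => h a.1 a.2⟩
  G.me.compactSpace

/-- maps out of the glued manifold -/
def lift {Z : Sort*} (g : ∀ i, (G.M i).P.M → Z)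
    (h : ∀ e p, g _ (G.j (G.s e) p) = g _ (G.j (G.t e) (G.f e p.1, -p.2))) : G.X → Z :=
  G.gr.lift g h

@[simp] theorem lift_inc {Z : Sort*} (g : ∀ i, (G.M i).P.M → Z)
    (h : ∀ e p, g _ (G.j (G.s e) p) = g _ (G.j (G.t e) (G.f e p.1, -p.2))) (i : ι)
    (p : (G.M i).P.M) : G.lift g h (G.inc i p) = g i p := rfl

@[simp] theorem lift_neck {Z : Sort*} (g : ∀ i, (G.M i).P.M → Z)
    (h : ∀ e p, g _ (G.j (G.s e) p) = g _ (G.j (G.t e) (G.f e p.1, -p.2))) (e : κ)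
    (p : (G.Y (G.s e)).M × ℝ) : G.lift g h (G.neck e p) = g _ (G.j (G.s e) p) := rfl

section Out

variable {E' : Type*} [NormedAddCommGroup E'] [NormedSpace ℝ E'] {H' : Type*} [TopologicalSpace H']
  {J : ModelWithCorners ℝ E' H'} {N : Type*} [TopologicalSpace N] [ChartedSpace H' N]

theorem contMDiff_iff {g : G.X → N} :
    ContMDiff 𝓘(ℝ, V) J ∞ g ↔ ∀ i, ContMDiff (G.M i).P.I J ∞ (g ∘ G.inc i) := G.gr.contMDiff_iff

theorem ld_iff {g : G.X → N} :
    IsLocalDiffeomorph 𝓘(ℝ, V) J ∞ g ↔ ∀ i, IsLocalDiffeomorph (G.M i).P.I J ∞ (g ∘ G.inc i) :=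
  G.gr.ld_iff

theorem contMDiff_lift {g : ∀ i, (G.M i).P.M → N}
    (h : ∀ e p, g _ (G.j (G.s e) p) = g _ (G.j (G.t e) (G.f e p.1, -p.2)))
    (hg : ∀ i, ContMDiff (G.M i).P.I J ∞ (g i)) : ContMDiff 𝓘(ℝ, V) J ∞ (G.lift g h) :=
  G.contMDiff_iff.2 hg

theorem isOE_lift {g : ∀ i, (G.M i).P.M → N}
    (h : ∀ e p, g _ (G.j (G.s e) p) = g _ (G.j (G.t e) (G.f e p.1, -p.2)))
    (hg : ∀ i, IsLocalDiffeomorph (G.M i).P.I J ∞ (g i))
    (hi : ∀ i k p q, g i p = g k q → G.inc i p = G.inc k q) : IsOE 𝓘(ℝ, V) J (G.lift g h) :=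
  G.gr.isOE_lift h hg hi

theorem range_lift {Z : Type*} {g : ∀ i, (G.M i).P.M → Z}
    (h : ∀ e p, g _ (G.j (G.s e) p) = g _ (G.j (G.t e) (G.f e p.1, -p.2))) :
    range (G.lift g h) = ⋃ i, range (g i) := G.gr.range_lift h

end Out

end JG

end Crest.Agent.X212.Cyl58
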